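import Vale.Agent.P073.H73.K2A
import Vale.Agent.P073.H579.Ins
import Vale.Agent.P073.H339.Ball23

/-!
# P073, A14.4 [CX]: the polyhedral mesh is a cell complex of conical balls

* `cellCx`: the polyhedral mesh `M` of the open set `Ω` is a `CellCx` of H579;
* `conBall_face`: the faces are conical discs, with boundary the relative frontier.
-/

open Set Metric Topology Filter Module

namespace Vale.Agent.P073.H244

open Vale.Agent.P073.St (V)
open _root_.P073 (ConHomeo ConBall ConSphere)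
open Vale.Agent.P073.H73

/-- `H73.Poly` and `H339.Poly` -/
theorem poly_of_half {F : Set V}
    (h : ∃ (n : ℕ) (ν : Fin n → V →L[ℝ] ℝ) (t : Fin n → ℝ), F = {x | ∀ i, ν i x ≤ t i}) :
    _root_.P073.H339.Poly F := by
  classical
  obtain ⟨n, ν, t, rfl⟩ := h
  refine ⟨Finset.univ.image fun i => (ν i, t i), ?_⟩
  ext x
  simp only [mem_ofPred_eq, Finset.mem_image, Finset.mem_univ, true_and, forall_exists_index]
  constructor
  · rintro h _ i rfl
    exact h i
  · intro h i
    exact h _ i rfl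

/-- convex polytopes with interior points are conical balls -/
theorem conBall_poly {Q : Set V} (h : H73.Poly Q) : ConBall 3 Q (frontier Q) :=
  _root_.P073.H339.polyBall_three V (by simp) Q (poly_of_half h.half) h.cpt h.int

theorem isCompact_usq : IsCompact usq := isCompact_Icc.prod isCompact_Icc

theorem Fat.isCompact {c r : ℝ} {F : Set V} (h : Fat c r F) : IsCompact F := by
  obtain ⟨φ, -, -⟩ := h.chart
  exact φ.isCompact_right isCompact_usq

/-- a face contains a disc of its plane -/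
theorem Fat.inner {c r : ℝ} {F : Set V} (h : Fat c r F) {ν : V →L[ℝ] ℝ} {t : ℝ} (hν : ν ≠ 0)
    (hF : ∀ x ∈ F, ν x = t) : ∃ y ∈ F, ∃ s > 0, ∀ z ∈ ball y s, ν z = t → z ∈ F := by
  obtain ⟨φ, -, -⟩ := h.chart
  let N : Submodule ℝ V := LinearMap.ker (ν : V →ₗ[ℝ] ℝ)
  have hN : finrank ℝ N = 2 := by
    have h1 := Module.Dual.finrank_ker_add_one_of_ne_zero (f := (ν : V →ₗ[ℝ] ℝ)) (by
      intro h
      apply hν
      ext x
      exact congrArg (fun g : V →ₗ[ℝ] ℝ => g _) h)
    have h2 : finrank ℝ V = 3 := by simp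
    have h3 : finrank ℝ N + 1 = finrank ℝ V := h1
    omega
  obtain ⟨L⟩ : Nonempty (N ≃L[ℝ] (Fin 2 → ℝ)) :=
    FiniteDimensional.nonempty_continuousLinearEquiv_of_finrank_eq (by rw [hN]; simp)
  obtain ⟨p, hp⟩ := N.subtype.exists_leftInverse_of_injective (by simp)
  let π : V →L[ℝ] (Fin 2 → ℝ) := (L : N →L[ℝ] (Fin 2 → ℝ)).comp (LinearMap.toContinuousLinearMap p)
  have hπ : ∀ z, ν z = 0 → π z = 0 → z = 0 := by
    intro z hz hz'
    have h1 : p z = ⟨z, hz⟩ := by
      have := LinearMap.congr_fun hp ⟨z, hz⟩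
      exact this
    have h2 : L (p z) = 0 := hz'
    have h3 : p z = 0 := by
      have := congrArg L.symm h2
      rwa [L.symm_apply_apply, map_zero] at this
    rw [h1] at h3
    exact congrArg Subtype.val h3
  set U : Set (Fin 2 → ℝ) := univ.pi fun _ => Ioo 0 1 with hU
  have hUo : IsOpen U := isOpen_set_pi finite_univ fun _ _ => isOpen_Ioo
  have hmap : MapsTo (fun x : Fin 2 → ℝ => (x 0, x 1)) U usq := by
    intro x hx
    exact ⟨Ioo_subset_Icc_self (hx 0 trivial), Ioo_subset_Icc_self (hx 1 trivial)⟩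
  have ho : IsOpen ((fun x : Fin 2 → ℝ => π (φ.toFun (x 0, x 1))) '' U) := by
    apply Vale.Agent.P073.Sep.isOpen_image_of_injOn hUo
    · exact π.continuous.comp_continuousOn (φ.cont.comp (by fun_prop) hmap)
    · intro x hx y hy hxy
      have h1 : φ.toFun (x 0, x 1) - φ.toFun (y 0, y 1) = 0 := by
        apply hπ
        · rw [map_sub, hF _ (φ.mapsTo (hmap hx)), hF _ (φ.mapsTo (hmap hy)), sub_self]
        · rw [map_sub]
          exact sub_eq_zero.2 hxy
      have h2 := φ.injOn (hmap hx) (hmap hy) (sub_eq_zero.1 h1)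
      rw [Prod.mk.injEq] at h2
      funext i
      fin_cases i
      · exact h2.1
      · exact h2.2
  have hx0 : (fun _ => 1 / 2 : Fin 2 → ℝ) ∈ U := by
    intro i _
    constructor <;> norm_num
  refine ⟨φ.toFun (1 / 2, 1 / 2), φ.mapsTo (hmap hx0), ?_⟩
  have h1 : π (φ.toFun (1 / 2, 1 / 2)) ∈ (fun x : Fin 2 → ℝ => π (φ.toFun (x 0, x 1))) '' U :=
    ⟨_, hx0, rfl⟩
  obtain ⟨s, hs, hsub⟩ := Metric.mem_nhds_iff.1
    ((π.continuous.continuousAt (x := φ.toFun (1 / 2, 1 / 2))).preimage_mem_nhds (ho.mem_nhds h1))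
  refine ⟨s, hs, fun z hz hzt => ?_⟩
  obtain ⟨x, hx, hxz⟩ := hsub hz
  have h2 : z - φ.toFun (x 0, x 1) = 0 := by
    apply hπ
    · rw [map_sub, hzt, hF _ (φ.mapsTo (hmap hx)), sub_self]
    · rw [map_sub]
      exact sub_eq_zero.2 hxz.symm
  rw [sub_eq_zero.1 h2]
  exact φ.mapsTo (hmap hx)

/-- the affine span of a set which contains a disc of the plane -/
theorem mem_affineSpan_iff {F : Set V} {ν : V →L[ℝ] ℝ} {t : ℝ} (hF : ∀ x ∈ F, ν x = t)
    (hi : ∃ y ∈ F, ∃ s > 0, ∀ z ∈ ball y s, ν z = t → z ∈ F) (z : V) :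
    z ∈ affineSpan ℝ F ↔ ν z = t := by
  constructor
  · intro hz
    have h1 : (ν : V →ₗ[ℝ] ℝ).toAffineMap z ∈
        (affineSpan ℝ F).map (ν : V →ₗ[ℝ] ℝ).toAffineMap := ⟨z, hz, rfl⟩
    rw [AffineSubspace.map_span] at h1
    have h2 : affineSpan ℝ ((ν : V →ₗ[ℝ] ℝ).toAffineMap '' F) ≤ affineSpan ℝ {t} := by
      apply affineSpan_mono
      rintro _ ⟨x, hx, rfl⟩
      exact hF x hx
    have h3 := h2 h1
    rw [AffineSubspace.mem_affineSpan_singleton] at h3
    exact h3
  · intro hz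
    obtain ⟨y, hy, s, hs, hsub⟩ := hi
    set τ := s / (2 * (‖z - y‖ + 1)) with hτ
    have hn : 0 ≤ ‖z - y‖ := norm_nonneg _
    have hτ0 : 0 < τ := by positivity
    have hw : AffineMap.lineMap y z τ ∈ F := by
      apply hsub
      · rw [mem_ball, dist_lineMap_left, Real.norm_of_nonneg hτ0.le, dist_comm, dist_eq_norm, hτ]
        rw [div_mul_eq_mul_div, div_lt_iff₀ (by positivity)]
        nlinarith
      · rw [AffineMap.lineMap_apply_module', map_add, map_smul, map_sub, hz, hF y hy]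
        simp
    have h1 : AffineMap.lineMap y (AffineMap.lineMap y z τ) τ⁻¹ ∈ affineSpan ℝ F :=
      AffineMap.lineMap_mem _ (subset_affineSpan ℝ _ hy) (subset_affineSpan ℝ _ hw)
    have h2 : AffineMap.lineMap y (AffineMap.lineMap y z τ) τ⁻¹ = z := by
      rw [AffineMap.lineMap_lineMap_right, mul_comm, mul_inv_cancel₀ hτ0.ne',
        AffineMap.lineMap_apply_one]
    rwa [h2] at h1

/-- the relative frontier -/
theorem intrinsicFrontier_eq {F : Set V} (hc : IsClosed F) {ν : V →L[ℝ] ℝ} {t : ℝ}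
    (hF : ∀ x ∈ F, ν x = t) (hi : ∃ y ∈ F, ∃ s > 0, ∀ z ∈ ball y s, ν z = t → z ∈ F) :
    intrinsicFrontier ℝ F = {y | y ∈ F ∧ ∀ r > 0, ∃ z ∈ ball y r, ν z = t ∧ z ∉ F} := by
  have hcl : IsClosed ((↑) ⁻¹' F : Set (affineSpan ℝ F)) := hc.preimage continuous_subtype_val
  ext x
  rw [mem_intrinsicFrontier, hcl.frontier_eq]
  constructor
  · rintro ⟨y, ⟨hy, hyi⟩, rfl⟩
    refine ⟨hy, fun r hr => ?_⟩
    by_contra hcon
    push Not at hcon
    refine hyi (mem_interior_iff_mem_nhds.2 (Metric.mem_nhds_iff.2 ⟨r, hr, fun z hz => ?_⟩))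
    exact hcon z hz ((mem_affineSpan_iff hF hi _).1 z.2)
  · rintro ⟨hx, hr⟩
    refine ⟨⟨x, subset_affineSpan ℝ _ hx⟩, ⟨hx, fun hxi => ?_⟩, rfl⟩
    obtain ⟨r, hr0, hsub⟩ := Metric.mem_nhds_iff.1 (mem_interior_iff_mem_nhds.1 hxi)
    obtain ⟨z, hz, hzt, hzF⟩ := hr r hr0
    have h1 : (⟨z, (mem_affineSpan_iff hF hi z).2 hzt⟩ : affineSpan ℝ F) ∈
        ball ⟨x, subset_affineSpan ℝ _ hx⟩ r := hz
    exact hzF (hsub h1)

/-- the faces are conical discs -/
theorem Fat.conBall {c r : ℝ} {F : Set V} (h : Fat c r F) :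
    ConBall 2 F (intrinsicFrontier ℝ F) := by
  obtain ⟨ν, t, hν, hF⟩ := h.plane
  have hi := Fat.inner h hν hF
  rw [intrinsicFrontier_eq (Fat.isCompact h).isClosed hF hi]
  exact _root_.P073.H339.conBall_section (k := 1) _root_.P073.H339.polyBall_two (by simp)
    (poly_of_half h.half) (Fat.isCompact h) hν hF hi

section mesh

variable {Ω : Set V} (M : Mesh Ω)

/-- **the faces of the mesh are conical discs** -/
theorem conBall_face (k : M.κ) : ConBall 2 (M.F k) (intrinsicFrontier ℝ (M.F k)) :=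
  Fat.conBall (M.fat k)

/-- **the cells of the mesh are conical balls** -/
theorem conBall_cell (i : M.ι) : ConBall 3 (M.Q i) (frontier (M.Q i)) := conBall_poly (M.poly i)

theorem face_disjoint (k : M.κ) (i : M.ι) : Disjoint (M.F k) (interior (M.Q i)) := by
  obtain ⟨a, b, hab, hk⟩ := M.two k
  have key : ∀ j, j ≠ i → M.F k ⊆ M.Q j → Disjoint (M.F k) (interior (M.Q i)) :=
    fun j hj hkj => (M.disj i j hj.symm).symm.mono_left hkj
  by_cases h : a = i
  · exact key b (fun hb => hab (h.trans hb.symm)) (hk.trans inter_subset_right)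
  · exact key a h (hk.trans inter_subset_left)

theorem cell_closed (i : M.ι) : IsClosed (M.Q i) := (M.poly i).cpt.isClosed

theorem face_subset_frontier {k : M.κ} {i : M.ι} (h : M.F k ⊆ M.Q i) :
    M.F k ⊆ frontier (M.Q i) := by
  intro x hx
  rw [(cell_closed M i).frontier_eq]
  exact ⟨h hx, Set.disjoint_left.1 (face_disjoint M k i) hx⟩

/-- **[CX]** the mesh is a cell complex -/
theorem cellCx (hΩ : IsOpen Ω) :
    _root_.P073.H579.CellCx Ω M.Q (fun i => frontier (M.Q i)) M.F where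
  ball := conBall_cell M
  cover := by
    apply Subset.antisymm (iUnion_subset M.sub)
    intro x hx
    exact mem_iUnion.2 (M.cover x hx)
  lf := by
    intro x hx
    obtain ⟨r, hr, hsub⟩ := Metric.nhds_basis_closedBall.mem_iff.1 (hΩ.mem_nhds hx)
    exact ⟨closedBall x r, closedBall_mem_nhds x hr, M.fin _ hsub (isCompact_closedBall x r)⟩
  lfF := by
    intro x hx
    obtain ⟨r, hr, hsub⟩ := Metric.nhds_basis_closedBall.mem_iff.1 (hΩ.mem_nhds hx)
    exact ⟨closedBall x r, closedBall_mem_nhds x hr, M.ffin _ hsub (isCompact_closedBall x r)⟩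
  comp := fun k => Fat.isCompact (M.fat k)
  bd := by
    intro i
    refine ⟨{k | M.F k ⊆ M.Q i}, ?_⟩
    apply Subset.antisymm
    · intro x hx
      obtain ⟨k, hxk, hk⟩ := M.bd i x hx
      exact mem_iUnion₂.2 ⟨k, hk, hxk⟩
    · exact iUnion₂_subset fun k hk => face_subset_frontier M hk
  face := by
    intro k
    obtain ⟨a, b, -, hk⟩ := M.two k
    exact (face_subset_frontier M (hk.trans inter_subset_left)).trans
      (subset_iUnion (fun j => frontier (M.Q j)) a)
  meet := by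
    intro j
    apply Subset.antisymm
    · rintro x ⟨hx, hxF⟩
      obtain ⟨k, hk⟩ := mem_iUnion.1 hxF
      rw [(cell_closed M j).frontier_eq]
      exact ⟨hx, Set.disjoint_left.1 (face_disjoint M k j) hk⟩
    · intro x hx
      obtain ⟨k, hxk, hk⟩ := M.bd j x hx
      exact ⟨(cell_closed M j).frontier_subset hx, mem_iUnion.2 ⟨k, hxk⟩⟩
  inter := by
    rintro i j hij x ⟨hxi, hxj⟩
    have h1 : x ∈ frontier (M.Q i) := by
      rw [(cell_closed M i).frontier_eq]
      exact ⟨hxi, fun h => Set.disjoint_left.1 (M.disj i j hij) h hxj⟩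
    obtain ⟨k, hxk, -⟩ := M.bd i x h1
    exact mem_iUnion.2 ⟨k, hxk⟩

end mesh

end Vale.Agent.P073.H244
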