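import Vale.Agent.P073.H345.PBox
import Vale.Agent.P073.H579.ActR
import Vale.Agent.P073.H196.Croft6

/-!
# P073, H244: **[P-WE]**, the weights of the edges in ROUND P

`om`: the weight of the levels of a square in a tangential direction; `wtP`, `WeP`: weights of the
crossings of `h1` on an edge; `hWeP`: the sum of the weights of the crossing points of `h2` on an
active edge is at most `WeP` (hypothesis `hWe` of `PAct.hface`, `PAct.hedge`); `WeP_le`: the bound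
by the length.
-/

set_option linter.unusedSectionVars false
set_option autoImplicit false

open Set Metric Topology Filter
open scoped ENNReal

namespace P073.H345.PLev

open _root_.P073 _root_.P073.Net _root_.P073.PA691 _root_.P073.H236 _root_.P073.H579
open _root_.P073.Croft (Crs levs onS cross varIn)
open Vale.Agent.P073.St (V)
open Vale.Agent.P073.H471 Vale.Agent.P073.H267
open Vale.Agent.P073.H805 (ROut PB_mono)
open Vale.Agent.P073.H73 (Mesh)
open Vale.Agent.P073.H193 (Edges)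
open Vale.Agent.P073.H238 (mesh_sub)

variable {Ω Λ : Set V} {v : V} {K : BoxCx Λ v} {S : Rad K} {W : Wid K S} {B : Boxes W}
  {G : Geo B} {M : Mesh Ω} {E : Edges M} {h1 h2 : ConHomeo Ω Λ} {Pr : Set M.ι} {Act : Set M.κ}

/-! ### position of the active faces under the map before the exchange -/

/-- the active faces at the plate `s` are in the plate before the exchange as well -/
theorem near1 {LL : K.S → Fin 3 → Finset ℝ} (O : ROut G M h1 h2 Pr Act LL E) {s : K.S} {k : M.κ}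
    (hk : AkP G M h1 Act s k) {y : V} (hy : y ∈ M.F k) : h1.toFun y ∈ G.PB (3 / 4) s := by
  have hyΩ : y ∈ Ω := mesh_sub M k hy
  have h3 := (hk.near O hy).1
  by_cases hs : ∃ s', h1.toFun y ∈ G.PB 1 s'
  · obtain ⟨s', hs'⟩ := hs
    have h4 : h2.toFun y ∈ G.PB (3 / 4) s' :=
      PB_mono (by norm_num) s' ((O.box s' y hyΩ).2 hs')
    have h5 : s' = s := by
      by_contra hne
      exact Set.disjoint_left.1
        (Geo.disjoint_PB (G := G) (by norm_num : (1:ℝ) / 2 ≤ 3 / 4) hne) h4 h3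
    subst h5
    exact PB_mono (by norm_num) s' hs'
  · push Not at hs
    rwa [← O.off y hyΩ hs]

/-- each point is in at most two of the regions -/
theorem encard_PB (G : Geo B) {c : ℝ} (hc : 1 / 2 ≤ c) (y : V) :
    {i : K.S × Bool | y ∈ G.PB c i.1}.encard ≤ 2 := by
  classical
  rcases Set.eq_empty_or_nonempty {i : K.S × Bool | y ∈ G.PB c i.1} with h0 | ⟨⟨s, b⟩, hs⟩
  · rw [h0]; simp
  · have hsub : {i : K.S × Bool | y ∈ G.PB c i.1} ⊆ {(s, true), (s, false)} := by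
      rintro ⟨s', b'⟩ hi
      have h5 : s' = s := by
        by_contra hne
        exact Set.disjoint_left.1 (Geo.disjoint_PB (G := G) hc hne) hi hs
      subst h5
      cases b' <;> simp
    refine (encard_le_encard hsub).trans ?_
    exact (encard_insert_le _ _).trans (by rw [encard_singleton]; norm_num)

theorem encard_PK (G : Geo B) (y : V) : {i : K.S × Bool | y ∈ PK G i.1}.encard ≤ 2 := by
  classical
  rcases Set.eq_empty_or_nonempty {i : K.S × Bool | y ∈ PK G i.1} with h0 | ⟨⟨s, b⟩, hs⟩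
  · rw [h0]; simp
  · have hsub : {i : K.S × Bool | y ∈ PK G i.1} ⊆ {(s, true), (s, false)} := by
      rintro ⟨s', b'⟩ hi
      have h5 : s' = s := PK_unique hi hs
      subst h5
      cases b' <;> simp
    refine (encard_le_encard hsub).trans ?_
    exact (encard_insert_le _ _).trans (by rw [encard_singleton]; norm_num)

/-! ### the weights -/

variable (L : PLev G)

/-- the weight of the levels of the square `s` in the direction `tg s β` -/
noncomputable def om (s : K.S) (β : Bool) : ℝ :=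
  stp (L.N s β) (K.slo s (tg s β) + G.a s) (K.shi s (tg s β) - G.a s)

theorem omP_eq (s : K.S) (β : Bool) (t : ℝ) : L.omP s (tg s β) t = L.om s β := L.omP_tg s β t

theorem om_pos (s : K.S) (β : Bool) : 0 < L.om s β := by
  rw [← L.omP_eq s β 0]
  exact L.omP_pos s _ _

/-- the crossings of `h1` on the edge `e` with the levels, in the region `P i` -/
def crP (E : Edges M) (h1 : ConHomeo Ω Λ) (P : K.S × Bool → Set V) (e : E.ε)
    (i : K.S × Bool) : Set ℝ :=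
  cross (onS h1.toFun (E.a e) (E.b e)) (tg i.1 i.2) (levs (L.N i.1 i.2) (L.a i.1 i.2)) (P i)

/-- the weight of these crossings -/
noncomputable def wtP (E : Edges M) (h1 : ConHomeo Ω Λ) (P : K.S × Bool → Set V) (e : E.ε)
    (i : K.S × Bool) : ℝ≥0∞ :=
  ENNReal.ofReal (L.om i.1 i.2) * cnt (L.crP E h1 P e i)

/-- **the weight of the edge `e`** in ROUND P -/
noncomputable def WeP (E : Edges M) (h1 : ConHomeo Ω Λ) (P : K.S × Bool → Set V) (ρ : ℝ)
    (e : E.ε) : ℝ :=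
  ρ * (∑' i, L.wtP E h1 P e i).toReal

theorem WeP_nonneg {P : K.S × Bool → Set V} {ρ : ℝ} (hρ : 0 ≤ ρ) (e : E.ε) :
    0 ≤ L.WeP E h1 P ρ e := mul_nonneg hρ ENNReal.toReal_nonneg

section count

variable {P : K.S × Bool → Set V}

/-- the number of crossing points of `h2` on an active edge -/
theorem encard_crs (O : ROut G M h1 h2 Pr Act L.lv E) (hP : ∀ s β, G.PB (3 / 4) s ⊆ P (s, β))
    {s : K.S} {e : E.ε} (he : EAct E (AkP G M h1 Act) s e) (Y : Finset V)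
    (hY : ∀ x ∈ Y, CrsPt (E.a e) (E.b e) h2.toFun (L.lv s) x) :
    (Y : Set V).encard ≤ (L.crP E h1 P e (s, true)).encard +
      (L.crP E h1 P e (s, false)).encard := by
  classical
  obtain ⟨k, hk, hek⟩ := he
  obtain ⟨hA, x₀, hx₀, hs₀⟩ := hk
  have hk' : AkP G M h1 Act s k := ⟨hA, x₀, hx₀, hs₀⟩
  obtain ⟨-, hf2, hf1, hle, -⟩ := O.edge k hA s x₀ hx₀ hs₀ e hek
  rw [L.lvs_lv s] at hf2 hf1 hle
  have h3 : (Y : Set V) ⊆ {x | x ∈ E.seg e ∧ ∃ l, h2.toFun x l ∈ L.lv s l} := fun x hx =>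
    ⟨(hY x hx).1, (hY x hx).2⟩
  have h4 : {x | x ∈ E.seg e ∧ ∃ l, h1.toFun x l ∈ L.lv s l} ⊆
      (fun t : ℝ => E.a e + t • (E.b e - E.a e)) ''
        (L.crP E h1 P e (s, true) ∪ L.crP E h1 P e (s, false)) := by
    rintro x ⟨hx, l, hl⟩
    have hxP : h1.toFun x ∈ G.PB (3 / 4) s := near1 O hk' (hek hx)
    obtain ⟨hln, n, hn, hna⟩ := mem_lv.1 hl
    have hx' : x ∈ segment ℝ (E.a e) (E.b e) := hx
    rw [segment_eq_image'] at hx'
    obtain ⟨t, ht, rfl⟩ := hx'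
    have key : t ∈ L.crP E h1 P e (s, bt s l) := by
      refine ⟨ht, hP s _ hxP, n, hn, ?_⟩
      show h1.toFun (E.a e + t • (E.b e - E.a e)) (tg s (bt s l)) = _
      rw [tg_bt s hln]
      exact hna.symm
    refine ⟨t, ?_, rfl⟩
    rcases hb : bt s l with _ | _
    · rw [hb] at key; exact Or.inr key
    · rw [hb] at key; exact Or.inl key
  calc (Y : Set V).encard
      ≤ {x | x ∈ E.seg e ∧ ∃ l, h2.toFun x l ∈ L.lv s l}.encard := encard_le_encard h3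
    _ = ({x | x ∈ E.seg e ∧ ∃ l, h2.toFun x l ∈ L.lv s l}.ncard : ℕ∞) :=
        hf2.cast_ncard_eq.symm
    _ ≤ ({x | x ∈ E.seg e ∧ ∃ l, h1.toFun x l ∈ L.lv s l}.ncard : ℕ∞) := by exact_mod_cast hle
    _ = {x | x ∈ E.seg e ∧ ∃ l, h1.toFun x l ∈ L.lv s l}.encard := hf1.cast_ncard_eq
    _ ≤ (L.crP E h1 P e (s, true) ∪ L.crP E h1 P e (s, false)).encard :=
        (encard_le_encard h4).trans (encard_image_le _ _)
    _ ≤ _ := encard_union_le _ _

/-- **the sharp form for one square** -/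
theorem sum_omX_le (O : ROut G M h1 h2 Pr Act L.lv E) (hP : ∀ s β, G.PB (3 / 4) s ⊆ P (s, β))
    {ρ : ℝ} (hρ : 1 ≤ ρ) {s : K.S} (hom : ∀ β, L.om s β ≤ ρ * L.om s (!β)) {e : E.ε}
    (he : EAct E (AkP G M h1 Act) s e) (Y : Finset V)
    (hY : ∀ x ∈ Y, CrsPt (E.a e) (E.b e) h2.toFun (L.lv s) x) :
    ENNReal.ofReal (∑ x ∈ Y, omX h2.toFun (L.lv s) (L.omP s) x) ≤
      ENNReal.ofReal ρ * (L.wtP E h1 P e (s, true) + L.wtP E h1 P e (s, false)) := by
  classical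
  have hρ0 : 0 ≤ ρ := by linarith
  -- the maximum
  set θ : ℝ := max (L.om s true) (L.om s false) with hθ
  have hθ0 : 0 ≤ θ := (L.om_pos s true).le.trans (le_max_left _ _)
  have hθb : ∀ β, L.om s β ≤ θ := by
    rintro (_ | _)
    · exact le_max_right _ _
    · exact le_max_left _ _
  have hθρ : ∀ β, θ ≤ ρ * L.om s β := by
    intro β
    have h1 : L.om s β ≤ ρ * L.om s β := by
      have := (L.om_pos s β).le
      nlinarith
    have h2 : L.om s (!β) ≤ ρ * L.om s β := by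
      have := hom (!β)
      rwa [Bool.not_not] at this
    cases β
    · exact max_le h2 h1
    · exact max_le h1 h2
  have hsum : ∑ x ∈ Y, omX h2.toFun (L.lv s) (L.omP s) x ≤ Y.card * θ := by
    rw [← nsmul_eq_mul]
    refine Finset.sum_le_card_nsmul _ _ _ fun x hx => ?_
    obtain ⟨hxs, j, hj⟩ := hY x hx
    obtain ⟨k, ⟨hA, x₀, hx₀, hs₀⟩, hek⟩ := he
    have hoff := (O.edge k hA s x₀ hx₀ hs₀ e hek).1.off x hxs
    rw [L.lvs_lv s] at hoff
    rw [omX_eq hj fun j' hne hj' => hne (hoff j' j hj' hj)]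
    obtain ⟨hjn, -⟩ := mem_lv.1 hj
    rw [← tg_bt s hjn, L.omP_eq]
    exact hθb _
  have hcard := L.encard_crs O hP he Y hY
  rw [Set.encard_coe_eq_coe_finsetCard] at hcard
  have hcnt : (Y.card : ℝ≥0∞) ≤ cnt (L.crP E h1 P e (s, true)) +
      cnt (L.crP E h1 P e (s, false)) := by
    unfold cnt
    exact_mod_cast hcard
  calc ENNReal.ofReal (∑ x ∈ Y, omX h2.toFun (L.lv s) (L.omP s) x)
      ≤ ENNReal.ofReal (Y.card * θ) := ENNReal.ofReal_le_ofReal hsum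
    _ = ENNReal.ofReal θ * (Y.card : ℝ≥0∞) := by
        rw [mul_comm, ENNReal.ofReal_mul hθ0, ENNReal.ofReal_natCast]
    _ ≤ ENNReal.ofReal θ * (cnt (L.crP E h1 P e (s, true)) +
          cnt (L.crP E h1 P e (s, false))) := mul_le_mul_right hcnt _
    _ = ENNReal.ofReal θ * cnt (L.crP E h1 P e (s, true)) +
          ENNReal.ofReal θ * cnt (L.crP E h1 P e (s, false)) := mul_add _ _ _
    _ ≤ ENNReal.ofReal (ρ * L.om s true) * cnt (L.crP E h1 P e (s, true)) +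
          ENNReal.ofReal (ρ * L.om s false) * cnt (L.crP E h1 P e (s, false)) :=
        add_le_add (mul_le_mul_left (ENNReal.ofReal_le_ofReal (hθρ true)) _)
          (mul_le_mul_left (ENNReal.ofReal_le_ofReal (hθρ false)) _)
    _ = _ := by
        rw [ENNReal.ofReal_mul hρ0, ENNReal.ofReal_mul hρ0, mul_assoc, mul_assoc, ← mul_add]
        rfl

/-- **[P-WE]**, hypothesis `hWe` of `PAct.hface` and `PAct.hedge` -/
theorem hWeP (O : ROut G M h1 h2 Pr Act L.lv E) (hP : ∀ s β, G.PB (3 / 4) s ⊆ P (s, β))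
    {ρ : ℝ} (hρ : 1 ≤ ρ) (hom : ∀ s β, L.om s β ≤ ρ * L.om s (!β))
    (hfin : ∀ e, ∑' i, L.wtP E h1 P e i ≠ ⊤) (s : K.S) (e : E.ε)
    (he : EAct E (AkP G M h1 Act) s e) (Y : Finset V)
    (hY : ∀ x ∈ Y, CrsPt (E.a e) (E.b e) h2.toFun (L.lv s) x) :
    ∑ x ∈ Y, omX h2.toFun (L.lv s) (L.omP s) x ≤ L.WeP E h1 P ρ e := by
  have hρ0 : 0 ≤ ρ := by linarith
  refine (ENNReal.ofReal_le_ofReal_iff (L.WeP_nonneg hρ0 e)).1
    ((L.sum_omX_le O hP hρ (hom s) he Y hY).trans ?_)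
  unfold WeP
  rw [ENNReal.ofReal_mul hρ0, ENNReal.ofReal_toReal (hfin e)]
  refine mul_le_mul_right ?_ _
  classical
  have h4 := ENNReal.sum_le_tsum (f := fun i => L.wtP E h1 P e i)
    ({(s, true), (s, false)} : Finset (K.S × Bool))
  rwa [Finset.sum_pair (by simp)] at h4

/-- the same for the levels of `H805` -/
theorem hWeP' (O : ROut G M h1 h2 Pr Act L.lv E) (hP : ∀ s β, G.PB (3 / 4) s ⊆ P (s, β))
    {ρ : ℝ} (hρ : 1 ≤ ρ) (hom : ∀ s β, L.om s β ≤ ρ * L.om s (!β))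
    (hfin : ∀ e, ∑' i, L.wtP E h1 P e i ≠ ⊤) (s : K.S) (e : E.ε)
    (he : EAct E (AkP G M h1 Act) s e) (Y : Finset V)
    (hY : ∀ x ∈ Y, CrsPt (E.a e) (E.b e) h2.toFun (Vale.Agent.P073.H805.lvs L.lv s) x) :
    ∑ x ∈ Y, omX h2.toFun (Vale.Agent.P073.H805.lvs L.lv s) (L.omP s) x ≤ L.WeP E h1 P ρ e := by
  rw [L.lvs_lv s] at hY ⊢
  exact L.hWeP O hP hρ hom hfin s e he Y hY

end count

/-! ### the bound by the length -/

section bound

variable {P : K.S × Bool → Set V} {δ : K.S × Bool → ℝ} {K₀ K₁ εe : ℝ} {e : E.ε}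
  (C : Crs h1.toFun (E.a e) (E.b e) (fun i : K.S × Bool => tg i.1 i.2) P δ
    (fun i => levs (L.N i.1 i.2) (L.a i.1 i.2)) K₀ εe)
include C

theorem wtP_le (hK1 : 0 ≤ K₁) (i : K.S × Bool) (hi : L.om i.1 i.2 ≤ K₁ * δ i) :
    L.wtP E h1 P e i ≤ ENNReal.ofReal K₁ * (ENNReal.ofReal K₀ *
      varIn (onS h1.toFun (E.a e) (E.b e)) (tg i.1 i.2) (P i) 0 1 + ENNReal.ofReal εe) := by
  calc L.wtP E h1 P e i ≤ ENNReal.ofReal (K₁ * δ i) * cnt (L.crP E h1 P e i) :=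
        mul_le_mul_left (ENNReal.ofReal_le_ofReal hi) _
    _ = ENNReal.ofReal K₁ * (ENNReal.ofReal (δ i) * cnt (L.crP E h1 P e i)) := by
        rw [ENNReal.ofReal_mul hK1, mul_assoc]
    _ ≤ _ := mul_le_mul_right (C.one i) _

/-- **the bound of the weights** by the variations -/
theorem tsum_wtP_le_var (hK1 : 0 ≤ K₁) (hδ : ∀ i : K.S × Bool, L.om i.1 i.2 ≤ K₁ * δ i) :
    ∑' i, L.wtP E h1 P e i ≤ ENNReal.ofReal K₁ * (ENNReal.ofReal K₀ *
      ∑' i : K.S × Bool, varIn (onS h1.toFun (E.a e) (E.b e)) (tg i.1 i.2) (P i) 0 1 +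
        ENNReal.ofReal εe) := by
  calc ∑' i, L.wtP E h1 P e i
      ≤ ∑' i, ENNReal.ofReal K₁ * (ENNReal.ofReal (δ i) * cnt (L.crP E h1 P e i)) := by
        refine ENNReal.tsum_le_tsum fun i => ?_
        rw [← mul_assoc, ← ENNReal.ofReal_mul hK1]
        exact mul_le_mul_left (ENNReal.ofReal_le_ofReal (hδ i)) _
    _ = ENNReal.ofReal K₁ * ∑' i, ENNReal.ofReal (δ i) * cnt (L.crP E h1 P e i) :=
        ENNReal.tsum_mul_left
    _ ≤ _ := mul_le_mul_right C.sum _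

/-- **the bound of the weights** by the length -/
theorem tsum_wtP_le (hPc : ∀ i, Convex ℝ (P i)) (hP2 : ∀ y : V, {i | y ∈ P i}.encard ≤ 2)
    (hK1 : 0 ≤ K₁) (hδ : ∀ i : K.S × Bool, L.om i.1 i.2 ≤ K₁ * δ i) :
    ∑' i, L.wtP E h1 P e i ≤ ENNReal.ofReal K₁ * (ENNReal.ofReal K₀ *
      (2 * len (onS h1.toFun (E.a e) (E.b e)) (Icc 0 1)) + ENNReal.ofReal εe) := by
  refine (L.tsum_wtP_le_var C hK1 hδ).trans ?_
  gcongr
  have h4 := Croft.tsum_varIn_le (m := 2) (Croft.conicalOn_onS h1.conical (E.seg_sub_Ω e)) hPc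
    (fun i : K.S × Bool => tg i.1 i.2) (fun y => by exact_mod_cast hP2 y)
  exact_mod_cast h4

theorem tsum_wtP_ne_top (hPc : ∀ i, Convex ℝ (P i))
    (hP2 : ∀ y : V, {i | y ∈ P i}.encard ≤ 2) (hK1 : 0 ≤ K₁)
    (hδ : ∀ i : K.S × Bool, L.om i.1 i.2 ≤ K₁ * δ i) : ∑' i, L.wtP E h1 P e i ≠ ⊤ := by
  refine ne_top_of_le_ne_top ?_ (L.tsum_wtP_le C hPc hP2 hK1 hδ)
  have h4 : len (onS h1.toFun (E.a e) (E.b e)) (Icc 0 1) ≠ ⊤ :=
    (conical_len_lt_top zero_le_one (Croft.conicalOn_onS h1.conical (E.seg_sub_Ω e))).ne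
  exact ENNReal.mul_ne_top ENNReal.ofReal_ne_top (ENNReal.add_ne_top.2
    ⟨ENNReal.mul_ne_top ENNReal.ofReal_ne_top (ENNReal.mul_ne_top (by norm_num) h4),
      ENNReal.ofReal_ne_top⟩)

/-- **[P-WE]**, the bound: `We ≤ ρ K₁ (2 K₀ len (h1|e) + ε e)` -/
theorem WeP_le {ρ : ℝ} (hρ : 0 ≤ ρ) (hK0 : 0 ≤ K₀) (hε : 0 ≤ εe)
    (hPc : ∀ i, Convex ℝ (P i)) (hP2 : ∀ y : V, {i | y ∈ P i}.encard ≤ 2) (hK1 : 0 ≤ K₁)
    (hδ : ∀ i : K.S × Bool, L.om i.1 i.2 ≤ K₁ * δ i) :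
    L.WeP E h1 P ρ e ≤ ρ * (K₁ *
      (K₀ * (2 * (len (onS h1.toFun (E.a e) (E.b e)) (Icc 0 1)).toReal) + εe)) := by
  have h4 : len (onS h1.toFun (E.a e) (E.b e)) (Icc 0 1) ≠ ⊤ :=
    (conical_len_lt_top zero_le_one (Croft.conicalOn_onS h1.conical (E.seg_sub_Ω e))).ne
  unfold WeP
  refine mul_le_mul_of_nonneg_left ?_ hρ
  refine ENNReal.toReal_le_of_le_ofReal (by positivity) ((L.tsum_wtP_le C hPc hP2 hK1 hδ).trans
    (le_of_eq ?_))
  rw [ENNReal.ofReal_mul hK1, ENNReal.ofReal_add (by positivity) hε, ENNReal.ofReal_mul hK0,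
    ENNReal.ofReal_mul (by norm_num : (0:ℝ) ≤ 2), ENNReal.ofReal_toReal h4]
  norm_num

/-- the bound for the edge maps, for an edge on which `h1` has length `≤ l |e|` -/
theorem laE_WeP_le {ρ l : ℝ} (hρ : 0 ≤ ρ) (hK0 : 0 ≤ K₀) (hε : 0 ≤ εe)
    (hPc : ∀ i, Convex ℝ (P i)) (hP2 : ∀ y : V, {i | y ∈ P i}.encard ≤ 2) (hK1 : 0 ≤ K₁)
    (hδ : ∀ i : K.S × Bool, L.om i.1 i.2 ≤ K₁ * δ i)
    (hl : (len (onS h1.toFun (E.a e) (E.b e)) (Icc 0 1)).toReal ≤ l * ‖E.b e - E.a e‖) :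
    laE E (L.WeP E h1 P ρ) e ≤ 8 * (ρ * (K₁ * (2 * K₀ * l + εe / ‖E.b e - E.a e‖))) := by
  have hne : 0 < ‖E.b e - E.a e‖ := norm_pos_iff.2 (sub_ne_zero.2 (E.ne e).symm)
  have h5 := L.WeP_le C hρ hK0 hε hPc hP2 hK1 hδ
  unfold laE
  rw [div_le_iff₀ hne]
  calc 8 * L.WeP E h1 P ρ e ≤ 8 * (ρ * (K₁ *
        (K₀ * (2 * (len (onS h1.toFun (E.a e) (E.b e)) (Icc 0 1)).toReal) + εe))) := by
        linarith
    _ ≤ 8 * (ρ * (K₁ * (K₀ * (2 * (l * ‖E.b e - E.a e‖)) + εe))) := by gcongr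
    _ = _ := by
        have h6 : εe / ‖E.b e - E.a e‖ * ‖E.b e - E.a e‖ = εe := div_mul_cancel₀ _ hne.ne'
        calc _ = 8 * (ρ * (K₁ * (2 * K₀ * l * ‖E.b e - E.a e‖ + εe))) := by ring
          _ = 8 * (ρ * (K₁ * (2 * K₀ * l * ‖E.b e - E.a e‖ +
                εe / ‖E.b e - E.a e‖ * ‖E.b e - E.a e‖))) := by rw [h6]
          _ = _ := by ring

end bound

end P073.H345.PLev
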