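import Vale.Agent.P073.H669.PLevC
import Vale.Agent.P073.H244.PWe

/-!
# P073, H244: **[P-WE]**, the instance for the levels of H669 (`PLv`)
-/

set_option linter.unusedSectionVars false
set_option autoImplicit false

open Set Metric Topology Filter
open scoped ENNReal

namespace Vale.Agent.P073.H669.PLv

open _root_.P073 _root_.P073.Net _root_.P073.PA691 _root_.P073.H236
open _root_.P073.H579 (EAct AkP CrsPt omX laE)
open _root_.P073.H345 (tg PK PB_sub_PK PLev)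
open _root_.P073.Croft (Crs levs onS cross varIn)
open Vale.Agent.P073.St (V)
open Vale.Agent.P073.H471 Vale.Agent.P073.H267
open Vale.Agent.P073.H805 (ROut)
open Vale.Agent.P073.H73 (Mesh)
open Vale.Agent.P073.H193 (Edges)

variable {Ω Λ : Set V} {v : V} {K : BoxCx Λ v} {S : Rad K} {W : Wid K S} {B : Boxes W}
  {G : Geo B} {M : Mesh Ω} {E : Edges M} {h h2 : ConHomeo Ω Λ} {Pr : Set M.ι} {Act : Set M.κ}
  {sl : TBx K → Finset (ℝ × ℝ)} {η : ℝ} {τ : Type*} {A : τ → Set V} {C : Set ℝ}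
  {εE : E.ε → ℝ} {μ δ : K.S → ℝ}

variable (L : PLv G E h Pr sl η A C εE μ δ)

/-- **the weight of an edge** in ROUND P -/
noncomputable def We (e : E.ε) : ℝ := L.lev.WeP E h (fun q => PK G q.1) 1 e

theorem We_nonneg (e : E.ε) : 0 ≤ L.We e := L.lev.WeP_nonneg zero_le_one e

theorem lev_om (s : K.S) (β : Bool) : L.lev.om s β = L.om s β := rfl

theorem crs' (e : E.ε) : Crs h.toFun (E.a e) (E.b e) (fun i : K.S × Bool => tg i.1 i.2)
    (fun q => PK G q.1) (fun q => δ q.1)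
    (fun i => levs (L.lev.N i.1 i.2) (L.lev.a i.1 i.2)) (1 - 2 * η)⁻¹ (εE e) := L.crs e

include L in
theorem K0_nonneg : 0 ≤ (1 - 2 * η)⁻¹ := inv_nonneg.2 (by linarith [L.η4])

theorem tsum_wtP_ne_top (e : E.ε) : ∑' i, L.lev.wtP E h (fun q => PK G q.1) e i ≠ ⊤ :=
  L.lev.tsum_wtP_ne_top (L.crs' e) (fun q => PK_convex G q.1)
    (_root_.P073.H345.PLev.encard_PK G) (by norm_num : (0:ℝ) ≤ 2)
    fun i => L.om_le_two i.1 i.2

/-- **[P-WE]**: hypothesis `hWe` of `PAct.hface` and `PAct.hedge` -/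
theorem hWe (O : ROut G M h h2 Pr Act L.lev.lv E) (s : K.S) (e : E.ε)
    (he : EAct E (AkP G M h Act) s e) (Y : Finset V)
    (hY : ∀ x ∈ Y, CrsPt (E.a e) (E.b e) h2.toFun (L.lev.lv s) x) :
    ∑ x ∈ Y, omX h2.toFun (L.lev.lv s) (L.lev.omP s) x ≤ L.We e :=
  L.lev.hWeP O (fun s _ => PB_sub_PK (by norm_num) s) le_rfl
    (fun s β => by rw [one_mul]; exact (L.om_eq s β (!β)).le) L.tsum_wtP_ne_top s e he Y hY

/-- the sharp form for one square -/
theorem sum_omX_le (O : ROut G M h h2 Pr Act L.lev.lv E) {s : K.S} {e : E.ε}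
    (he : EAct E (AkP G M h Act) s e) (Y : Finset V)
    (hY : ∀ x ∈ Y, CrsPt (E.a e) (E.b e) h2.toFun (L.lev.lv s) x) :
    ENNReal.ofReal (∑ x ∈ Y, omX h2.toFun (L.lev.lv s) (L.lev.omP s) x) ≤
      L.lev.wtP E h (fun q => PK G q.1) e (s, true) +
        L.lev.wtP E h (fun q => PK G q.1) e (s, false) := by
  have h1 := L.lev.sum_omX_le (P := fun q => PK G q.1) O (fun s _ => PB_sub_PK (by norm_num) s)
    le_rfl (fun β => by rw [one_mul]; exact (L.om_eq s β (!β)).le) he Y hY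
  rwa [ENNReal.ofReal_one, one_mul] at h1

/-- one square and one direction, against the variation in the plate -/
theorem wtP_le (e : E.ε) (s : K.S) (β : Bool) {r : ℝ} (hr0 : 0 ≤ r) (hr1 : r ≤ 1)
    (hr : μ s ≤ r * wl G s β) : L.lev.wtP E h (fun q => PK G q.1) e (s, β) ≤
      ENNReal.ofReal (1 + r) * (ENNReal.ofReal (1 - 2 * η)⁻¹ *
        varIn (onS h.toFun (E.a e) (E.b e)) (tg s β) (PK G s) 0 1 + ENNReal.ofReal (εE e)) :=
  L.lev.wtP_le (L.crs' e) (by linarith) (s, β) (L.om_le s β hr0 hr1 hr)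

/-- **the bound of the weights**: `We ≤ (1 + r) ((1 - 2η)⁻¹ 2 len (h|e) + ε e)` -/
theorem We_le (e : E.ε) (hε : 0 ≤ εE e) {r : ℝ} (hr0 : 0 ≤ r) (hr1 : r ≤ 1)
    (hr : ∀ s β, μ s ≤ r * wl G s β) : L.We e ≤ (1 + r) * ((1 - 2 * η)⁻¹ *
      (2 * (len (onS h.toFun (E.a e) (E.b e)) (Icc 0 1)).toReal) + εE e) := by
  have h1 := L.lev.WeP_le (L.crs' e) zero_le_one L.K0_nonneg hε (fun q => PK_convex G q.1)
    (_root_.P073.H345.PLev.encard_PK G) (by linarith : (0:ℝ) ≤ 1 + r)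
    fun i => L.om_le i.1 i.2 hr0 hr1 (hr i.1 i.2)
  rwa [one_mul] at h1

theorem We_le_two (e : E.ε) (hε : 0 ≤ εE e) : L.We e ≤ 2 * ((1 - 2 * η)⁻¹ *
      (2 * (len (onS h.toFun (E.a e) (E.b e)) (Icc 0 1)).toReal) + εE e) := by
  have h1 := L.lev.WeP_le (L.crs' e) zero_le_one L.K0_nonneg hε (fun q => PK_convex G q.1)
    (_root_.P073.H345.PLev.encard_PK G) (by norm_num : (0:ℝ) ≤ 2)
    fun i => L.om_le_two i.1 i.2
  rwa [one_mul] at h1

/-- with `η ≤ 1/4`: `We ≤ 8 len (h|e) + 2 ε e` -/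
theorem We_le_eight (e : E.ε) (hε : 0 ≤ εE e) : L.We e ≤
    8 * (len (onS h.toFun (E.a e) (E.b e)) (Icc 0 1)).toReal + 2 * εE e := by
  have h1 := L.We_le_two e hε
  have h2 : (1 - 2 * η)⁻¹ ≤ 2 := by
    rw [inv_le_comm₀ (by linarith [L.η4]) (by norm_num)]
    linarith [L.η4]
  have h3 : 0 ≤ (len (onS h.toFun (E.a e) (E.b e)) (Icc 0 1)).toReal := ENNReal.toReal_nonneg
  nlinarith

/-- the bound for the edge maps: `La ≤ 64 l + 16 ε / |e|` when `h` has length `≤ l |e|` on `e` -/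
theorem laE_We_le (e : E.ε) (hε : 0 ≤ εE e) {l : ℝ}
    (hl : (len (onS h.toFun (E.a e) (E.b e)) (Icc 0 1)).toReal ≤ l * ‖E.b e - E.a e‖) :
    laE E L.We e ≤ 64 * l + 16 * (εE e / ‖E.b e - E.a e‖) := by
  have hne : 0 < ‖E.b e - E.a e‖ := norm_pos_iff.2 (sub_ne_zero.2 (E.ne e).symm)
  have h1 := L.We_le_eight e hε
  unfold laE
  rw [div_le_iff₀ hne]
  have h6 : εE e / ‖E.b e - E.a e‖ * ‖E.b e - E.a e‖ = εE e := div_mul_cancel₀ _ hne.ne'
  calc 8 * L.We e ≤ 64 * (l * ‖E.b e - E.a e‖) + 16 * εE e := by linarith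
    _ = 64 * (l * ‖E.b e - E.a e‖) + 16 * (εE e / ‖E.b e - E.a e‖ * ‖E.b e - E.a e‖) := by
        rw [h6]
    _ = _ := by ring

end Vale.Agent.P073.H669.PLv
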