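import Vale.Agent.P073.GB3.CtxCx3

/-!
# P073, block CLEAN-E: the image of a three-cell is in the convex hull of the image of its boundary
-/

open Set Metric Topology Filter

namespace P073.H244

open P073 P073.GB73 P073.PR720 P073.GB3
open Vale.Agent.P073.St (V)

variable {Ω Λ : Set V}

/-- the image of an open subset -/
theorem isOpen_image (h : ConHomeo Ω Λ) (hΛ : IsOpen Λ) {U : Set V} (hU : IsOpen U)
    (hUΩ : U ⊆ Ω) : IsOpen (h.toFun '' U) := by
  have h1 : h.toFun '' U = Λ ∩ h.invFun ⁻¹' U := by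
    ext y
    constructor
    · rintro ⟨x, hx, rfl⟩
      refine ⟨h.mapsTo (hUΩ hx), ?_⟩
      show h.invFun (h.toFun x) ∈ U
      rwa [h.left_inv (hUΩ hx)]
    · rintro ⟨hy, hy'⟩
      exact ⟨_, hy', h.right_inv hy⟩
  rw [h1]
  exact h.cont_inv.isOpen_inter_preimage hΛ hU

/-- `C` compact, `C \ S` open: the image of `C` is in every closed convex set which contains the
image of `S`. -/
theorem image_subset_of_bd (h : ConHomeo Ω Λ) (hΛ : IsOpen Λ) {C S X : Set V} (hC : IsCompact C)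
    (hCΩ : C ⊆ Ω) (ho : IsOpen (C \ S)) (hX : IsClosed X) (hXc : Convex ℝ X) (hXn : X.Nonempty)
    (hS : h.toFun '' S ⊆ X) : h.toFun '' C ⊆ X := by
  rintro _ ⟨x0, hx0, rfl⟩
  by_contra hn
  obtain ⟨f, u, hf, hu⟩ := geometric_hahn_banach_closed_point hXc hX hn
  obtain ⟨x1, hx1, hmax⟩ := hC.exists_isMaxOn ⟨x0, hx0⟩
    (f := fun x => f (h.toFun x)) (f.continuous.comp_continuousOn (h.cont.mono hCΩ))
  have h01 : f (h.toFun x0) ≤ f (h.toFun x1) := hmax hx0
  have hx1S : x1 ∉ S := fun hS1 => by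
    have := hf _ (hS (mem_image_of_mem _ hS1))
    linarith
  have hU : IsOpen (h.toFun '' (C \ S)) := isOpen_image h hΛ ho (sdiff_subset.trans hCΩ)
  obtain ⟨a, ha⟩ := hXn
  have hv : 0 < f (h.toFun x0 - a) := by
    rw [map_sub]
    have := hf a ha
    linarith
  set v : V := h.toFun x0 - a with hvdef
  have hcont : Tendsto (fun δ : ℝ => h.toFun x1 + δ • v) (𝓝[>] 0) (𝓝 (h.toFun x1)) := by
    have h1 : Continuous fun δ : ℝ => h.toFun x1 + δ • v := by fun_prop
    have h2 := h1.tendsto 0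
    simp only [zero_smul, add_zero] at h2
    exact h2.mono_left nhdsWithin_le_nhds
  have hev := hcont.eventually (hU.mem_nhds (mem_image_of_mem _ ⟨hx1, hx1S⟩))
  obtain ⟨δ, hδ, hδ0⟩ := (hev.and self_mem_nhdsWithin).exists
  obtain ⟨x2, hx2, he⟩ := hδ
  have h2 : f (h.toFun x2) ≤ f (h.toFun x1) := hmax hx2.1
  rw [he, map_add, map_smul, smul_eq_mul] at h2
  have : 0 < δ * f v := mul_pos hδ0 hv
  linarith

variable {Vx B J I : Type} {e0 e1 : B → Vx} {inc : B → J → Prop} {qC : J → I → Prop}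

/-- the image of a cell is in every closed convex set which contains the image of its boundary -/
theorem cell_image_subset (K : Cx3 e0 e1 inc qC Ω) (h : ConHomeo Ω Λ) (hΩ : IsOpen Ω)
    (hΛ : IsOpen Λ) (c : I) {X : Set V} (hX : IsClosed X) (hXc : Convex ℝ X)
    (hS : ∀ x ∈ cbd K c, h.toFun x ∈ X) {x : V} (hx : x ∈ K.cell c) : h.toFun x ∈ X := by
  have hne : (cbd K c).Nonempty := (K.cball c).conSphere.nonempty
  obtain ⟨z, hz⟩ := hne
  exact image_subset_of_bd h hΛ (K.cball c).isCompact (cell_subset K c) (isOpen_cell_diff K hΩ c)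
    hX hXc ⟨_, hS z hz⟩ (by rintro _ ⟨y, hy, rfl⟩; exact hS y hy) (mem_image_of_mem _ hx)

/-- the same for the ball -/
theorem cell_norm_sub_le (K : Cx3 e0 e1 inc qC Ω) (h : ConHomeo Ω Λ) (hΩ : IsOpen Ω)
    (hΛ : IsOpen Λ) (c : I) {a : V} {r : ℝ} (hS : ∀ x ∈ cbd K c, ‖h.toFun x - a‖ ≤ r) {x : V}
    (hx : x ∈ K.cell c) : ‖h.toFun x - a‖ ≤ r := by
  have := cell_image_subset K h hΩ hΛ c (X := closedBall a r) isClosed_closedBall
    (convex_closedBall _ _) (fun y hy => by rw [mem_closedBall, dist_eq_norm]; exact hS y hy) hx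
  rwa [mem_closedBall, dist_eq_norm] at this

/-- the oscillation on a cell is the oscillation on its boundary -/
theorem cell_osc (K : Cx3 e0 e1 inc qC Ω) (h : ConHomeo Ω Λ) (hΩ : IsOpen Ω)
    (hΛ : IsOpen Λ) (c : I) {r : ℝ}
    (hS : ∀ x ∈ cbd K c, ∀ y ∈ cbd K c, ‖h.toFun x - h.toFun y‖ ≤ r) {x y : V}
    (hx : x ∈ K.cell c) (hy : y ∈ K.cell c) : ‖h.toFun x - h.toFun y‖ ≤ r := by
  refine cell_norm_sub_le K h hΩ hΛ c (fun z hz => ?_) hx
  rw [norm_sub_rev]
  exact cell_norm_sub_le K h hΩ hΛ c (fun w hw => hS w hw z hz) hy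

end P073.H244
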