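import Vale.Agent.P073.H244.GivGood
import Vale.Agent.P073.H155.RT3D
import Vale.Agent.P073.H236.SA1

/-!
# P073, H244: **[PT]**, the given maps are close to `h`

`PassJ.ptOk`: on a given cell the map of `[PASS-SIGN]` is equal to `h`, or both points are in the
support `rtK 60` of one box and the distance is at most `8 ω b` (input `PtOk` of `H155.rt3D`).
-/

open Set Metric Topology Filter

namespace P073.H244

open _root_.P073 _root_.P073.Net _root_.P073.PA691 _root_.P073.H236 _root_.P073.H579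
  _root_.P073.H345
open Vale.Agent.P073.St (V)
open Vale.Agent.P073.H471 Vale.Agent.P073.H267 Vale.Agent.P073.H669
open Vale.Agent.P073.H73 (Mesh)
open Vale.Agent.P073.H193 (Edges)
open Vale.Agent.P073.H579 (TStageW cell_subW)
open Vale.Agent.P073.H238 (TMid)

variable {Ω Λ : Set V} {v : V} {K : BoxCx Λ v} {S : Rad K} {Wd : Wid K S} {B : Boxes Wd}
  {G : Geo B} {M : Mesh Ω} {E : Edges M} {h h' : ConHomeo Ω Λ} {ω : TBx K → ℝ}
  {T : TBx K → Finset (ℝ × ℝ)} {ηn : ℝ} {τ : Type*} {A : τ → Set V} {C : Set ℝ} {εE : E.ε → ℝ}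
  {δ : TBx K → ℝ} {Pr Wc : Set M.ι} {Act₀ : Set M.κ} {G₀ : Set (TBx K)} {κ : V → V}
  {L : TLv G E h ω T ηn A C εE δ} {c : TBx K → ℝ} {hc0 : ∀ b, 0 < c b}
  {hc : ∀ b, c b ≤ δ b / 8} {W R : G₀ → Set V} {η : G₀ → ℝ}
  {Γ : G₀ → ℕ → V × ℝ → V} {f γ' : V → V}

theorem abs_apply_sub_le {x y : V} {d : ℝ} (h : ‖x - y‖ ≤ d) (i : Fin 3) : |x i - y i| ≤ d := by
  have h1 := norm_le_pi_norm (x - y) i
  rw [Pi.sub_apply, Real.norm_eq_abs] at h1
  exact h1.trans h

/-- interior points of a support -/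
theorem mem_int_TB {b : TBx K} {y : V} (hy : ∀ k, G.tlo false b k < y k ∧ y k < G.thi false b k) :
    y ∈ interior (G.TB false b) := by
  have h1 : IsOpen {z : V | ∀ k, G.tlo false b k < z k ∧ z k < G.thi false b k} := by
    simp only [ofPred_forall]
    refine isOpen_iInter_of_finite fun k => ?_
    exact (isOpen_lt continuous_const (continuous_apply k)).inter
      (isOpen_lt (continuous_apply k) continuous_const)
  refine mem_interior.2 ⟨_, fun z hz => ?_, h1, hy⟩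
  exact mem_TB.2 fun k => ⟨(hz k).1.le, (hz k).2.le⟩

/-- points of the support with the coordinate of the axis away from the ends are interior points -/
theorem int_of_rtK (L : TLv G E h ω T ηn A C εE δ) {b : TBx K} {u : ℝ} (hu : u ≤ 99) {y : V}
    (hy : y ∈ rtK G ω b u) (h1 : G.tlo true b b.ax < y b.ax) (h2 : y b.ax < G.thi true b b.ax) :
    y ∈ interior (G.TB false b) := by
  have h0 := L.ω0 b
  have h3 := L.ωo b
  refine mem_int_TB fun i => ?_
  by_cases hi : i = b.ax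
  · rw [hi, (tlo_ax G).1, (tlo_ax G).2]
    exact ⟨h1, h2⟩
  · obtain ⟨h4, h5⟩ := Vale.Agent.P073.H238.marg G b hi
    obtain ⟨h6, h7⟩ := hy.2 i hi
    have h8 : u * ω b < 100 * Vale.Agent.P073.H238.oT G b := by nlinarith
    constructor <;> linarith

/-- a point near a point of `rtK` -/
theorem rtK_near {b : TBx K} {u u' d : ℝ} {y z : V} (hz : z ∈ rtK G ω b u) (hd : ‖y - z‖ ≤ d)
    (hu : u * ω b + d ≤ u' * ω b) (h1 : G.tlo true b b.ax ≤ y b.ax)
    (h2 : y b.ax ≤ G.thi true b b.ax) : y ∈ rtK G ω b u' := by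
  refine ⟨⟨h1, h2⟩, fun i hi => ?_⟩
  obtain ⟨h3, h4⟩ := hz.2 i hi
  obtain ⟨h5, h6⟩ := abs_le.1 (abs_apply_sub_le hd i)
  constructor <;> linarith

/-- **[PT]** -/
theorem PassJ.ptOk (i : M.ι) (hi : i ∈ Wc)
    (P : PassJ M E h h' (fun b : G₀ => L.bxQ c hc0 hc b.1) W R η Γ κ (M.Q i) f γ')
    (hΛ : IsOpen Λ) (O : TStageW G M h h' Pr Wc Act₀ G₀ L.lev ω)
    (hκ : IsQ (fun b : G₀ => L.bxQ c hc0 hc b.1) κ)
    (hW : ∀ b : G₀, W b ⊆ rtK G ω b.1 45)
    {lam : G₀ → ℝ} (hlam : ∀ b : G₀, lam b ≤ ω b.1 / 2) (hcω : ∀ b : G₀, c b.1 ≤ ω b.1)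
    (hΓ : ∀ (b : G₀) m z, LvPt h'.toFun (fun b : G₀ => L.bxQ c hc0 hc b.1) W (M.Q i) b m z →
      ∀ s ∈ Icc (-1:ℝ) 1, ‖h.toFun (Γ b m (z, s)) - h.toFun z‖ ≤ lam b)
    {x : V} (hx : x ∈ M.Q i) :
    (∃ b : G₀, h.toFun x ∈ interior (G.TB false b.1) ∧ h.toFun x ∈ rtK G ω b.1 60 ∧
      f x ∈ rtK G ω b.1 60 ∧ ‖f x - h.toFun x‖ ≤ 8 * ω b.1) ∨ f x = h.toFun x := by
  have ω0 := L.ω0
  have hQW : M.Q i ⊆ Vale.Agent.P073.H579.skelW M Wc := cell_subW M hi
  have hfam : H345.Fam Λ fun b : G₀ => L.bxQ c hc0 hc b.1 :=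
    fam_comp (L.fam345 hc0 hc hΛ) Subtype.val_injective
  -- the new map and the old map, on the cell
  have D3 : ∀ y ∈ M.Q i, h'.toFun y = h.toFun y ∨ ∃ b : G₀,
      h.toFun y ∈ interior (G.TB false b.1) ∧ h.toFun y ∈ rtK G ω b.1 10 ∧
      h'.toFun y ∈ rtK G ω b.1 10 ∧ ‖h'.toFun y - h.toFun y‖ ≤ 6 * ω b.1 := by
    intro y hy
    have hm : ∀ (b : TBx K) (z : V), z ∈ TMid G b (ω b) → z ∈ rtK G ω b 10 := by
      intro b z hz
      refine ⟨?_, fun j hj => ?_⟩
      · have h1 := hz.1 b.ax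
        have h2 := hz.2 b.ax
        simp only [if_pos] at h1 h2
        exact ⟨h1, h2⟩
      · have h1 := hz.1 j
        have h2 := hz.2 j
        simp only [if_neg hj] at h1 h2
        exact ⟨h1, h2⟩
    by_cases hex : ∃ b ∈ G₀, h.toFun y ∈ interior (TMid G b (ω b))
    · obtain ⟨b, hb, hyb⟩ := hex
      right
      refine ⟨⟨b, hb⟩, interior_mono (Vale.Agent.P073.H238.TMid_sub G b (ω0 b) (L.ωo b)) hyb,
        hm b _ (interior_subset hyb),
        hm b _ (interior_subset ((O.memM b y (M.sub i hy)).2 hyb)), ?_⟩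
      have h1 := O.near b y (hQW hy) (Vale.Agent.P073.H238.TMid_sub G b (ω0 b) (L.ωo b)
        (interior_subset hyb))
      rwa [dist_eq_norm] at h1
    · push Not at hex
      left
      exact (O.off' y (M.sub i hy) hex).self_of_nhds
  -- the inserted map and the new map
  have D2 : f x = h'.toFun (γ' x) ∨ ∃ b : G₀, h'.toFun (γ' x) ∈ interior (G.TB false b.1) ∧
      f x ∈ rtK G ω b.1 40 ∧
      h'.toFun (γ' x) ∈ rtK G ω b.1 40 ∧ ‖f x - h'.toFun (γ' x)‖ ≤ c b.1 := by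
    by_cases hex : ∃ b : G₀, f x ∈ (L.bxQ c hc0 hc b.1).K
    · obtain ⟨b, hb⟩ := hex
      have hK : h'.toFun (γ' x) ∈ rtK G ω b.1 40 := (L.mem_K hc0 hc).1 (by
        rw [← P.eq x hx]
        exact (hκ.mem_iff hfam (g := b)).2 hb)
      by_cases hend : h'.toFun (γ' x) b.1.ax ≤ G.tlo true b.1 b.1.ax ∨
          G.thi true b.1 b.1.ax ≤ h'.toFun (γ' x) b.1.ax
      · left
        rw [← P.eq x hx, hκ.on b _ hb] at hend ⊢
        exact (eq_Q_of_end (L.bxQ c hc0 hc b.1) hend).symm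
      · push Not at hend
        right
        refine ⟨b, int_of_rtK L (by norm_num) hK hend.1 hend.2, (L.mem_K hc0 hc).1 hb, hK, ?_⟩
        rw [← P.eq x hx, hκ.on b _ hb, norm_sub_rev]
        exact (L.bxQ c hc0 hc b.1).norm_Q_sub_le _
    · push Not at hex
      left
      rw [← P.eq x hx, hκ.off _ hex]
  -- supports
  have hTB : ∀ (b : G₀) (u : ℝ), u ≤ 100 → rtK G ω b.1 u ⊆ G.TB false b.1 := fun b u hu =>
    rtK_sub L hu
  -- points with nearby images
  have D1 : γ' x = x ∨ ∃ (b : G₀) (z : V), z ∈ M.Q i ∧ h.toFun z ∈ rtK G ω b.1 45 ∧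
      G.tlo true b.1 b.1.ax + 30 * ω b.1 < h.toFun z b.1.ax ∧
      h.toFun z b.1.ax < G.thi true b.1 b.1.ax - 30 * ω b.1 ∧
      ‖h.toFun x - h.toFun z‖ ≤ lam b ∧ ‖h.toFun (γ' x) - h.toFun z‖ ≤ lam b ∧
      γ' x ∈ M.Q i := by
    by_cases hcase : ∀ (b : G₀) m z,
        LvPt h'.toFun (fun b : G₀ => L.bxQ c hc0 hc b.1) W (M.Q i) b m z →
        ∀ s ∈ Icc (-1:ℝ) 1, Γ b m (z, s) ≠ x
    · exact Or.inl (P.off x hx hcase)
    · push Not at hcase
      obtain ⟨b, m, z, hz, s, hs, rfl⟩ := hcase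
      right
      have hzW : h'.toFun z ∈ rtK G ω b.1 45 := hW b hz.2.2.2
      have hk : ∀ᶠ y in 𝓝 z, h'.toFun y = h.toFun y := by
        refine O.keep b.1 z (hQW hz.2.1) (hTB b 45 (by norm_num) hzW) ?_
        refine ⟨m, hz.1, ?_⟩
        exact hz.2.2.1
      have hzz : h'.toFun z = h.toFun z := hk.self_of_nhds
      have hzl : h.toFun z b.1.ax = L.a b.1 m := by
        rw [← hzz]; exact hz.2.2.1
      obtain ⟨a1, a2⟩ := L.mem_win (b := b.1) (k := m) hz.1
      have hmem : ph 1 (mu (L.bxQ c hc0 hc b.1) (h'.toFun z) /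
          (2 * (L.bxQ c hc0 hc b.1).c)) s ∈ Icc (-1:ℝ) 1 :=
        abs_le.1 (abs_ph_le.trans (abs_le.2 hs))
      have hch := P.chart b m z hz s hs
      refine ⟨b, z, hz.2.1, hzz ▸ hzW, by rw [hzl]; exact a1, by rw [hzl]; exact a2,
        hΓ b m z hz s hs, ?_, ?_⟩
      · rw [hch]; exact hΓ b m z hz _ hmem
      · exact P.maps hx
  rcases D1 with hγx | ⟨b, z, hz, hzK, hz1, hz2, hxz, hyz, hyQ⟩
  · rw [hγx] at D2
    rcases D2 with h1 | ⟨b, h0', h1, h2, h3⟩
    · rcases D3 x hx with h4 | ⟨b, h4', h4, h5, h6⟩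
      · exact Or.inr (h1.trans h4)
      · refine Or.inl ⟨b, h4', rtK_mono L (by norm_num) h4, ?_, ?_⟩
        · rw [h1]; exact rtK_mono L (by norm_num) h5
        · rw [h1]; linarith [ω0 b.1]
    · have h0 := ω0 b.1
      have h4 : h'.toFun x ∈ G.TB false b.1 := hTB b 40 (by norm_num) h2
      have h5 : h.toFun x ∈ G.TB false b.1 := (O.mem b.1 x (M.sub i hx)).1 h4
      have h6 := O.near b.1 x (hQW hx) h5
      rw [dist_eq_norm] at h6
      have h7 := mem_TB.1 h5 b.1.ax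
      rw [(tlo_ax G).1, (tlo_ax G).2] at h7
      refine Or.inl ⟨b, (O.memI b.1 x (M.sub i hx)).1 h0',
        rtK_near (u := 40) h2 (d := 6 * ω b.1) ?_ (by linarith) h7.1 h7.2,
        rtK_mono L (by norm_num) h1, ?_⟩
      · rwa [norm_sub_rev]
      · have h8 := norm_sub_le_norm_sub_add_norm_sub (f x) (h'.toFun x) (h.toFun x)
        have h9 := hcω b
        linarith
  · left
    have h0 := ω0 b.1
    have hl := hlam b
    have hax : ∀ w : V, ‖h.toFun w - h.toFun z‖ ≤ lam b →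
        G.tlo true b.1 b.1.ax + 29 * ω b.1 < h.toFun w b.1.ax ∧
        h.toFun w b.1.ax < G.thi true b.1 b.1.ax - 29 * ω b.1 := by
      intro w hw
      obtain ⟨c1, c2⟩ := abs_le.1 (abs_apply_sub_le hw b.1.ax)
      constructor <;> linarith
    have hK46 : ∀ w : V, ‖h.toFun w - h.toFun z‖ ≤ lam b → h.toFun w ∈ rtK G ω b.1 46 := by
      intro w hw
      obtain ⟨c1, c2⟩ := hax w hw
      exact rtK_near hzK hw (by linarith) (by linarith) (by linarith)
    -- the new map at the collapsed point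
    have hyT : h.toFun (γ' x) ∈ G.TB false b.1 := hTB b 46 (by norm_num) (hK46 _ hyz)
    have hyn := O.near b.1 (γ' x) (hQW hyQ) hyT
    rw [dist_eq_norm] at hyn
    obtain ⟨y1, y2⟩ := hax _ hyz
    obtain ⟨y3, y4⟩ := abs_le.1 (abs_apply_sub_le hyn b.1.ax)
    have hy'K : h'.toFun (γ' x) ∈ rtK G ω b.1 52 :=
      rtK_near (hK46 _ hyz) hyn (by linarith) (by linarith) (by linarith)
    have hyI : h'.toFun (γ' x) ∈ interior (G.TB false b.1) :=
      int_of_rtK L (by norm_num) hy'K (by linarith) (by linarith)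
    have hxy : ‖h'.toFun (γ' x) - h.toFun x‖ ≤ 7 * ω b.1 := by
      have e1 := norm_sub_le_norm_sub_add_norm_sub (h'.toFun (γ' x)) (h.toFun (γ' x)) (h.toFun x)
      have e2 := norm_sub_le_norm_sub_add_norm_sub (h.toFun (γ' x)) (h.toFun z) (h.toFun x)
      rw [norm_sub_rev (h.toFun z)] at e2
      linarith
    obtain ⟨x1, x2⟩ := hax x hxz
    refine ⟨b, int_of_rtK L (by norm_num) (hK46 x hxz) (by linarith) (by linarith),
      rtK_mono L (by norm_num) (hK46 x hxz), ?_, ?_⟩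
    · rcases D2 with h1 | ⟨b', -, h1, h2, h3⟩
      · rw [h1]; exact rtK_mono L (by norm_num) hy'K
      · have hbb : b' = b := by
          by_contra hne
          exact Set.disjoint_left.1 (Geo.disjoint_TB (G := G) (b := b.1) (b' := b'.1)
            fun h => hne (Subtype.ext h.symm)) hyI (hTB b' 40 (by norm_num) h2)
        subst hbb
        exact rtK_mono L (by norm_num) h1
    · rcases D2 with h1 | ⟨b', -, h1, h2, h3⟩
      · rw [h1]; linarith
      · have hbb : b' = b := by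
          by_contra hne
          exact Set.disjoint_left.1 (Geo.disjoint_TB (G := G) (b := b.1) (b' := b'.1)
            fun h => hne (Subtype.ext h.symm)) hyI (hTB b' 40 (by norm_num) h2)
        subst hbb
        have h8 := norm_sub_le_norm_sub_add_norm_sub (f x) (h'.toFun (γ' x)) (h.toFun x)
        have h9 := hcω b'
        linarith

end P073.H244
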