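import Vale.Agent.P073.H234.Cleaned
import Vale.Agent.P073.H953.AltAB
import Vale.Agent.P073.H953.Fill

/-!
# P073, H244, P2h: **[K3] NEAR**, the cleaned homeomorphism is uniformly close to `f`

`Cleaned.alt`: a point outside of the selected open cubes is not moved by the retractions, or it is
near the point of the neck, or it has an unmoved partner; `Cleaned.near`: the estimate.
-/

set_option autoImplicit false

namespace Vale.Agent.P073.H244

open MeasureTheory Set Filter Topology Metric Vale.Agent.P073.St Vale.Agent.P073.AB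
open Vale.Agent.P073.SQ (ev)
open Vale.Agent.P073.AB.P86 (rel)
open Vale.Agent.P073.H234
open _root_.P073.Net (dyc dyo)
open _root_.P073 (ConBall ConHomeo)
open scoped ENNReal

variable {p : ℝ} {ε : ℝ≥0∞} {θ M κ c₀ t₀ δ₀ ε₁ : ℝ} {j : ℕ} {Ω Λ : Set V} {f : V → V}
  {F : V → Mat} {T : Set V} {v : V} {m : ℕ}
  {C : P2Cells p ε θ M κ c₀ t₀ δ₀ j Ω Λ f F T v m} {β σ : ℝ}

/-- an open and a closed dyadic cube of the same generation -/
theorem eq_of_mem' {n : ℕ} {z z' : Fin 3 → ℤ} {x : V} (hx : x ∈ dyo v n z)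
    (hx' : x ∈ dyc v n z') : z' = z := by
  have hp : (0:ℝ) < 2 ^ n := by positivity
  funext k
  obtain ⟨h1, h2⟩ := hx k
  obtain ⟨h3, h4⟩ := hx' k
  have h5 : (z k : ℝ) / 2 ^ n < (z' k + 1) / 2 ^ n := by linarith
  have h6 : (z' k : ℝ) / 2 ^ n < (z k + 1) / 2 ^ n := by linarith
  rw [div_lt_div_iff_of_pos_right hp] at h5 h6
  have h7 : z k < z' k + 1 := by exact_mod_cast h5
  have h8 : z' k < z k + 1 := by exact_mod_cast h6
  omega

theorem isPreconnected_dyc (v : V) (n : ℕ) (z : Fin 3 → ℤ) : IsPreconnected (dyc v n z) := by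
  rw [_root_.P073.H953.dyc_eq_Icc]
  exact (convex_Icc _ _).isPreconnected

theorem isPreconnected_conBall {n : ℕ} {D c : Set V} (h : ConBall n D c) : IsPreconnected D := by
  obtain ⟨-, φ, -⟩ := h
  have h1 : φ.invFun '' closedBall (0 : Fin n → ℝ) 1 = D := by
    ext x
    constructor
    · rintro ⟨y, hy, rfl⟩
      exact φ.mapsTo_inv hy
    · intro hx
      exact ⟨φ.toFun x, φ.mapsTo hx, φ.left_inv hx⟩
  rw [← h1]
  exact (convex_closedBall _ _).isPreconnected.image _ φ.cont_inv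

theorem circle_nonempty {D c : Set V} (h : ConBall 2 D c) : c.Nonempty := by
  obtain ⟨-, φ, hφ⟩ := h
  obtain ⟨y, hy⟩ := (NormedSpace.sphere_nonempty (E := Fin 2 → ℝ) (x := 0) (r := 1)).2 zero_le_one
  rw [← hφ] at hy
  obtain ⟨x, hx, -⟩ := hy
  exact ⟨x, hx⟩

/-- the centre of the neck is close to the values at all points near the point of the neck -/
theorem neck_dist {b o : V} {z : Fin 3 → ℤ} {s : Idx × Fin 3}
    (hT : TSet θ M κ t₀ δ₀ ε₁ Ω f F T) (hN : Num θ M κ β) (H : NeckPt C β b o z s) {y : V}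
    (hy : ‖y - o‖ ≤ 15 / 4 * t₀) : ‖b - f y‖ ≤ ε₁ + (M + 1 / 2) / 2 ^ (m + j) := by
  obtain ⟨h1, h2, h3⟩ := H.vert
  set a := pt v (m + j) s.1.2
  have hl := C.lat_le
  have ht := hT.t_pos C
  have hr : (0:ℝ) < 1 / 2 ^ (m + j) := by positivity
  have h4 : ‖y - a‖ ≤ 4 * t₀ := by
    have := norm_sub_le_norm_sub_add_norm_sub y o a
    linarith
  have h5 := hT.osc a h1 y h4
  have h6 := hT.upp a h1 (o - a)
  have h7 : ‖b - f a‖ ≤ ‖cl (F a) (o - a)‖ + ‖b - f a - cl (F a) (o - a)‖ := by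
    have := norm_add_le (cl (F a) (o - a)) (b - f a - cl (F a) (o - a))
    rwa [add_sub_cancel] at this
  have h8 : M * ‖o - a‖ ≤ M * (1 / 2 ^ (m + j)) := mul_le_mul_of_nonneg_left h2 hN.M0
  have h9 : ‖b - f y‖ ≤ ‖b - f a‖ + ‖f y - f a‖ := by
    rw [norm_sub_rev (f y)]
    exact norm_sub_le_norm_sub_add_norm_sub _ _ _
  have h10 := hN.κ1
  have h11 := hN.β1
  have e1 : (2 * β + 2 * κ) / 2 ^ (m + j) = (2 * β + 2 * κ) * (1 / 2 ^ (m + j)) := by ring
  have e2 : (M + 1 / 2) / 2 ^ (m + j) = M * (1 / 2 ^ (m + j)) + 1 / 2 * (1 / 2 ^ (m + j)) := by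
    ring
  have h12 : (2 * β + 2 * κ) * (1 / 2 ^ (m + j)) ≤ 1 / 2 * (1 / 2 ^ (m + j)) :=
    mul_le_mul_of_nonneg_right (by linarith) hr.le
  rw [e1] at h3
  rw [e2]
  linarith

variable {Nk : Necks θ M β σ f v m j C.J C.A} {n N : ℕ} {J' : Finset (Fin 3 → ℤ)} {η l₀ : ℝ}
  {o : Nk.γ → V} {h₀ h' h₁ : ConHomeo Ω Λ} {Tc : V → V} {G : Finset Nk.γ}

/-- a connected set off the selected open cubes: unmoved, or swallowed, or with a partner -/
theorem partner (K : Cleaned C Nk n N J' η l₀ o h₀ h' h₁ Tc G) {S : Set V} (hS : S ⊆ Ω)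
    (hSc : IsPreconnected S) (hq : ∀ y ∈ S, ∀ i ∈ selI Nk n N J', y ∉ qC v (Nk.s i)) {x : V}
    (hx : x ∈ S) {g : Nk.γ} (hg : g ∈ G) (hxg : h'.toFun x ∈ Metric.ball (Nk.b g) (Nk.ρ g)) :
    (∀ y ∈ S, h'.toFun y ∈ closedBall (Nk.b g) (Nk.ρ g)) ∨
      ∃ y ∈ S, h'.toFun y = h₀.toFun y ∧ h'.toFun y ∈ closedBall (Nk.b g) (Nk.ρ g) := by
  have hxc := ball_subset_closedBall hxg
  have huniq : ∀ g' ∈ G, h'.toFun x ∈ closedBall (Nk.b g') (Nk.ρ g') → g' = g := by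
    intro g' _ h1
    by_contra hne
    exact disjoint_left.1 (Nk.bdisj g' g hne) h1 hxc
  rcases _root_.P073.H953.colB_partner (J := G) (b := Nk.b) (r := Nk.ρ)
    (fun i _ i' _ hne => Nk.bdisj i i' hne) hSc (h₀.cont.mono hS) (h'.cont.mono hS)
    (fun y hy => (K.dich y (hS hy) (hq y hy)).imp_right fun ⟨g', h1, h2⟩ =>
      ⟨g', h1, ball_subset_closedBall h2⟩) with ⟨g', h1, h2⟩ | h1
  · obtain rfl := huniq g' h1 (h2 hx)
    exact Or.inl h2
  · rcases h1 x hx with h2 | ⟨g', h2, h3, y, hy, h4, h5⟩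
    · exact Or.inr ⟨x, hx, h2, hxc⟩
    · obtain rfl := huniq g' h2 h3
      exact Or.inr ⟨y, hy, h4, h5⟩

/-- **the alternative** for the points off the selected open cubes -/
theorem alt (hT : TSet θ M κ t₀ δ₀ ε₁ Ω f F T) (K : Cleaned C Nk n N J' η l₀ o h₀ h' h₁ Tc G)
    (hR : 16 * β / θ / 2 ^ (m + j) ≤ t₀) {x : V} (hx : x ∈ Ω)
    (hq : ∀ i ∈ selI Nk n N J', x ∉ qC v (Nk.s i)) :
    h'.toFun x = h₀.toFun x ∨ ∃ g ∈ G, h'.toFun x ∈ Metric.ball (Nk.b g) (Nk.ρ g) ∧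
      (‖x - o g‖ ≤ 3 / 2 * t₀ ∨ ∃ a ∈ T, ‖x - a‖ ≤ 1 / 2 ^ (m + j) ∧ ∃ y ∈ Ω,
        ‖y - x‖ ≤ 1 / 2 ^ (m + j) ∧ h'.toFun y = h₀.toFun y ∧
          h'.toFun y ∈ closedBall (Nk.b g) (Nk.ρ g)) := by
  have ht := hT.t_pos C
  have hl := C.lat_le
  rcases K.dich x hx hq with h1 | ⟨g, hg, hxg⟩
  · exact Or.inl h1
  refine Or.inr ⟨g, hg, hxg, ?_⟩
  have hxc := ball_subset_closedBall hxg
  have hns : x ∉ NSet v m j C.J t₀ Nk.D Nk.c Ω (o g) (16 * β / θ / 2 ^ (m + j)) := fun h =>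
    K.avoid g hg x h hxc
  by_cases hdb : x ∈ dbox v m t₀ (o g)
  · left
    have := dbox_sub C.small hdb
    rwa [mem_closedBall, dist_eq_norm] at this
  have hor : x ∈ ownO v m j C.J ∨ ∃ i, x ∈ Nk.D i \ Nk.c i := by
    by_contra hcon
    push Not at hcon
    exact hns (Or.inl (Or.inl (Or.inl (Or.inl ⟨hx, hcon.1, hcon.2, hdb⟩))))
  rcases hor with hown | ⟨i, hi⟩
  · -- an own cube
    unfold ownO at hown
    obtain ⟨w, ⟨z, hz, hwz⟩, hxw⟩ := mem_iUnion₂.1 hown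
    have hxw' : x ∈ dyc v (m + j) w := P86.dyo_sub_dyc hxw
    have haw : pt v (m + j) w ∈ dyc v (m + j) w := Vale.Agent.P073.H83.pt_mem_dyc v _ w
    have haT := (C.vert z hz w (hwz haw)).1
    have hsub : dyc v (m + j) w ⊆ Ω := hwz.trans (C.sub hT hz)
    have hqS : ∀ y ∈ dyc v (m + j) w, ∀ i ∈ selI Nk n N J', y ∉ qC v (Nk.s i) := by
      intro y hy i hi hyq
      obtain ⟨z', -, hs'⟩ := Nk.clean i
      refine hq i hi ?_
      rcases hyq with hyq | hyq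
      · rw [hs'.1] at hyq
        have := eq_of_mem' hyq hy
        left
        rwa [hs'.1, ← this]
      · rw [hs'.1] at hyq
        have := eq_of_mem' hyq hy
        right
        rwa [hs'.1, ← this]
    rcases partner K hsub (isPreconnected_dyc v _ w) hqS hxw' hg hxg with h1 | ⟨y, hy, h1, h2⟩
    · left
      have hao : ‖pt v (m + j) w - o g‖ ≤ 16 * β / θ / 2 ^ (m + j) := by
        by_contra hcon
        refine K.avoid g hg _ (Or.inl (Or.inr ⟨⟨z, hz, ((m + j, w), 0), rfl, ?_, ?_⟩,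
          not_le.1 hcon⟩)) (h1 _ haw)
        · refine Subset.trans ?_ hwz
          intro x' hx'
          obtain ⟨t, ht0, ht1, rfl⟩ := exists_of_mem_edge hx'
          intro k
          rw [line_apply]
          have hp : (0:ℝ) < 2 ^ (m + j) := by positivity
          have e1 : ((w k : ℝ) + 1) / 2 ^ (m + j) = w k / 2 ^ (m + j) + 1 / 2 ^ (m + j) := by ring
          have hp' : (0:ℝ) < 1 / 2 ^ (m + j) := by positivity
          rw [e1]
          simp only at ht1 ⊢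
          split_ifs <;> constructor <;> linarith
        · exact left_mem_segment ℝ _ _
      have h3 := dyc_dist hxw' haw
      have h4 := norm_sub_le_norm_sub_add_norm_sub x (pt v (m + j) w) (o g)
      linarith
    · exact Or.inr ⟨_, haT, dyc_dist hxw' haw, y, hsub hy, dyc_dist hy hxw', h1, h2⟩
  · -- an open disc
    obtain ⟨z, hz, hs⟩ := Nk.clean i
    have hDs : Nk.D i ⊆ squ v (Nk.s i) := (Nk.sub i).trans P86.rel_sub
    have hDΩ : Nk.D i ⊆ Ω := hDs.trans (hs.sub.trans (C.sub hT hz))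
    obtain ⟨ha1, ha2⟩ := hs.vertex
    have haT := (C.vert z hz _ ha1).1
    have hqS : ∀ y ∈ Nk.D i, ∀ i' ∈ selI Nk n N J', y ∉ qC v (Nk.s i') := by
      intro y hy i' _
      obtain ⟨z', -, hs'⟩ := Nk.clean i'
      refine qC_notMem fun w => ?_
      rw [hs'.1]
      exact squ_notMem_dyo hs.1 (hDs hy) w
    have hd : ∀ y ∈ squ v (Nk.s i), ∀ y' ∈ squ v (Nk.s i), ‖y - y'‖ ≤ 1 / 2 ^ (m + j) := by
      intro y hy y' hy'
      have := squ_dist hy hy'
      rwa [hs.1] at this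
    rcases partner K hDΩ (isPreconnected_conBall (Nk.ball i)) hqS hi.1 hg hxg with
      h1 | ⟨y, hy, h1, h2⟩
    · left
      obtain ⟨y, hy⟩ := circle_nonempty (Nk.ball i)
      have hyD : y ∈ Nk.D i := (Nk.ball i).1 hy
      have hyo : ‖y - o g‖ ≤ 16 * β / θ / 2 ^ (m + j) := by
        by_contra hcon
        exact K.avoid g hg y (Or.inl (Or.inl (Or.inr ⟨i, hy, y, hy, not_le.1 hcon⟩))) (h1 y hyD)
      have h3 := hd x (hDs hi.1) y (hDs hyD)
      have h4 := norm_sub_le_norm_sub_add_norm_sub x y (o g)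
      linarith
    · exact Or.inr ⟨_, haT, hd x (hDs hi.1) _ ha2, y, hDΩ hy, hd y (hDs hy) x (hDs hi.1), h1, h2⟩

theorem sig_nonneg (K : Cleaned C Nk n N J' η l₀ o h₀ h' h₁ Tc G) : 0 ≤ σ := by
  have h1 := (norm_nonneg _).trans (K.col.disp 0)
  have hr : (0:ℝ) < 1 / 2 ^ (m + j) := by positivity
  have h2 : 0 ≤ σ * (3 * (1 / 2 ^ (m + j))) := by linarith
  exact nonneg_of_mul_nonneg_left h2 (by positivity)

/-- **off the selected open cubes**, near a good point -/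
theorem near_vert (hT : TSet θ M κ t₀ δ₀ ε₁ Ω f F T) (hN : Num θ M κ β)
    (K : Cleaned C Nk n N J' η l₀ o h₀ h' h₁ Tc G) (hR : 16 * β / θ / 2 ^ (m + j) ≤ t₀) {x : V}
    (hx : x ∈ Ω) (hq : ∀ i ∈ selI Nk n N J', x ∉ qC v (Nk.s i)) {a : V} (ha : a ∈ T)
    (hxa : ‖x - a‖ ≤ 2 * t₀) :
    ‖h'.toFun x - f a‖ ≤ ε₁ + η + (M + 1 / 2 + 2 * σ) / 2 ^ (m + j) := by
  have ht := hT.t_pos C
  have hl := C.lat_le
  have hσ := sig_nonneg K
  have hM := hN.M0
  have hr : (0:ℝ) < 1 / 2 ^ (m + j) := by positivity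
  have hη : 0 ≤ η := (norm_nonneg _).trans (K.near₀ x hx)
  have e0 : (M + 1 / 2 + 2 * σ) / 2 ^ (m + j) =
      (M + 1 / 2) / 2 ^ (m + j) + 2 * (σ * (1 / 2 ^ (m + j))) := by ring
  have hpos : 0 ≤ (M + 1 / 2) / 2 ^ (m + j) := by positivity
  have hpos' : 0 ≤ σ * (1 / 2 ^ (m + j)) := by positivity
  rw [e0]
  rcases alt hT K hR hx hq with h1 | ⟨g, hg, hxg, h1 | ⟨a', ha', hxa', y, hy, hyx, h1, h2⟩⟩
  · rw [h1]
    have h2 := K.near₀ x hx
    have h3 := hT.osc a ha x (by linarith)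
    have h4 := norm_sub_le_norm_sub_add_norm_sub (h₀.toFun x) (f x) (f a)
    linarith
  · obtain ⟨z, s, H, -⟩ := K.pt g hg
    have h2 : ‖a - o g‖ ≤ 15 / 4 * t₀ := by
      have := norm_sub_le_norm_sub_add_norm_sub a x (o g)
      rw [norm_sub_rev a x] at this
      linarith
    have h3 := neck_dist hT hN H h2
    have h4 := K.ρle g
    rw [Metric.mem_ball, dist_eq_norm] at hxg
    have h5 := norm_sub_le_norm_sub_add_norm_sub (h'.toFun x) (Nk.b g) (f a)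
    have e1 : σ / 2 ^ (m + j) = σ * (1 / 2 ^ (m + j)) := by ring
    rw [e1] at h4
    linarith
  · have h3 := K.ρle g
    rw [Metric.mem_ball, dist_eq_norm] at hxg
    rw [mem_closedBall, dist_eq_norm] at h2
    have h4 : ‖h'.toFun x - h'.toFun y‖ ≤ 2 * Nk.ρ g := by
      have := norm_sub_le_norm_sub_add_norm_sub (h'.toFun x) (Nk.b g) (h'.toFun y)
      rw [norm_sub_rev (Nk.b g)] at this
      linarith
    have h5 := K.near₀ y hy
    have h6 : ‖y - a‖ ≤ 4 * t₀ := by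
      have := norm_sub_le_norm_sub_add_norm_sub y x a
      linarith
    have h7 := hT.osc a ha y h6
    have h8 : ‖h'.toFun x - f a‖ ≤ ‖h'.toFun x - h'.toFun y‖ + (‖h₀.toFun y - f y‖ +
        ‖f y - f a‖) := by
      refine (norm_sub_le_norm_sub_add_norm_sub _ (h'.toFun y) _).trans ?_
      gcongr
      rw [h1]
      exact norm_sub_le_norm_sub_add_norm_sub _ _ _
    have e1 : σ / 2 ^ (m + j) = σ * (1 / 2 ^ (m + j)) := by ring
    rw [e1] at h3
    linarith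

/-- before the collapse -/
theorem near' (hΛ : IsOpen Λ) (hT : TSet θ M κ t₀ δ₀ ε₁ Ω f F T) (hN : Num θ M κ β)
    (hε₁ : 0 ≤ ε₁) (K : Cleaned C Nk n N J' η l₀ o h₀ h' h₁ Tc G)
    (hR : 16 * β / θ / 2 ^ (m + j) ≤ t₀) {x : V} (hx : x ∈ Ω) :
    ‖h'.toFun x - f x‖ ≤ 2 * ε₁ + η + (M + 1 / 2 + 2 * σ) / 2 ^ (m + j) := by
  have ht := hT.t_pos C
  have hl := C.lat_le
  have hσ := sig_nonneg K
  have hM := hN.M0
  have hr : (0:ℝ) < 1 / 2 ^ (m + j) := by positivity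
  have hη : 0 ≤ η := (norm_nonneg _).trans (K.near₀ x hx)
  have hpos : 0 ≤ (M + 1 / 2 + 2 * σ) / 2 ^ (m + j) := by positivity
  by_cases hq : ∀ i ∈ selI Nk n N J', x ∉ qC v (Nk.s i)
  · rcases alt hT K hR hx hq with h1 | ⟨g, hg, hxg, h1 | ⟨a, ha, hxa, -⟩⟩
    · rw [h1]
      have h2 := K.near₀ x hx
      linarith
    · obtain ⟨z, s, H, -⟩ := K.pt g hg
      have h3 := neck_dist hT hN H (by linarith : ‖x - o g‖ ≤ 15 / 4 * t₀)
      have h4 := K.ρle g
      rw [Metric.mem_ball, dist_eq_norm] at hxg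
      have h5 := norm_sub_le_norm_sub_add_norm_sub (h'.toFun x) (Nk.b g) (f x)
      have e0 : (M + 1 / 2 + 2 * σ) / 2 ^ (m + j) =
        (M + 1 / 2) / 2 ^ (m + j) + 2 * (σ / 2 ^ (m + j)) := by ring
      have hpos' : 0 ≤ σ / 2 ^ (m + j) := by positivity
      rw [e0]
      linarith
    · have h2 := near_vert hT hN K hR hx hq ha (by linarith)
      have h3 := hT.osc a ha x (by linarith)
      have h4 := norm_sub_le_norm_sub_add_norm_sub (h'.toFun x) (f a) (f x)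
      rw [norm_sub_rev (f a)] at h4
      linarith
  · push Not at hq
    obtain ⟨i, hi, hxq⟩ := hq
    obtain ⟨z, hz, hs⟩ := Nk.clean i
    -- the cube of the point
    obtain ⟨w, hw, hxw⟩ : ∃ w, dyc v (m + j) w ⊆ dyc v m z ∧ x ∈ dyc v (m + j) w := by
      rcases hxq with h1 | h1
      · rw [hs.1] at h1
        exact ⟨_, hs.2.1, P86.dyo_sub_dyc h1⟩
      · rw [hs.1] at h1
        exact ⟨_, hs.2.2, P86.dyo_sub_dyc h1⟩
    have haw : pt v (m + j) w ∈ dyc v (m + j) w := Vale.Agent.P073.H83.pt_mem_dyc v _ w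
    have haT := (C.vert z hz w (hw haw)).1
    have hsub : dyc v (m + j) w ⊆ Ω := hw.trans (C.sub hT hz)
    have hfr : h'.toFun '' frontier (dyc v (m + j) w) ⊆ closedBall (f (pt v (m + j) w))
        (ε₁ + η + (M + 1 / 2 + 2 * σ) / 2 ^ (m + j)) := by
      rintro _ ⟨y, hy, rfl⟩
      rw [_root_.P073.H953.frontier_dyc] at hy
      rw [mem_closedBall, dist_eq_norm]
      refine near_vert hT hN K hR (hsub hy.1) (fun i' _ => ?_) haT ?_
      · obtain ⟨z', -, hs'⟩ := Nk.clean i'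
        refine qC_notMem fun w' hw' => ?_
        rw [hs'.1] at hw'
        have := eq_of_mem' hw' hy.1
        subst this
        exact hy.2 hw'
      · have := dyc_dist hy.1 haw
        linarith
    have h1 := _root_.P073.H953.fill_dyc hΛ h' hsub hfr ⟨x, hxw, rfl⟩
    rw [mem_closedBall, dist_eq_norm] at h1
    have h2 := hT.osc _ haT x (by have := dyc_dist hxw haw; linarith)
    have h4 := norm_sub_le_norm_sub_add_norm_sub (h'.toFun x) (f (pt v (m + j) w)) (f x)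
    rw [norm_sub_rev (f _) (f x)] at h4
    linarith

/-- **[K3] NEAR** -/
theorem near (hΛ : IsOpen Λ) (hT : TSet θ M κ t₀ δ₀ ε₁ Ω f F T) (hN : Num θ M κ β)
    (hε₁ : 0 ≤ ε₁) (K : Cleaned C Nk n N J' η l₀ o h₀ h' h₁ Tc G)
    (hR : 16 * β / θ / 2 ^ (m + j) ≤ t₀) {x : V} (hx : x ∈ Ω) :
    ‖h₁.toFun x - f x‖ ≤ 2 * ε₁ + η + (M + 1 / 2 + 5 * σ) / 2 ^ (m + j) := by
  have h1 := near' hΛ hT hN hε₁ K hR hx
  have h2 : ‖Tc (h'.toFun x) - h'.toFun x‖ ≤ 3 * σ * (1 / 2 ^ (m + j)) := K.col.disp _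
  rw [K.eq x hx]
  have h3 := norm_sub_le_norm_sub_add_norm_sub (Tc (h'.toFun x)) (h'.toFun x) (f x)
  have e : (M + 1 / 2 + 5 * σ) / 2 ^ (m + j) =
    (M + 1 / 2 + 2 * σ) / 2 ^ (m + j) + 3 * σ * (1 / 2 ^ (m + j)) := by ring
  rw [e]
  linarith

/-- the radius, when `16 β ≤ θ` -/
theorem hR_of (hT : TSet θ M κ t₀ δ₀ ε₁ Ω f F T)
    (C : P2Cells p ε θ M κ c₀ t₀ δ₀ j Ω Λ f F T v m) (hN : Num θ M κ β) (hβθ : 16 * β ≤ θ) :
    16 * β / θ / 2 ^ (m + j) ≤ t₀ := by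
  have h1 : 16 * β / θ ≤ 1 := by rw [div_le_one hN.θ0]; exact hβθ
  have h2 : 16 * β / θ / 2 ^ (m + j) ≤ 1 / 2 ^ (m + j) := by gcongr
  have := C.lat_le
  have := hT.t_pos C
  linarith

end Vale.Agent.P073.H244
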