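import Vale.Agent.P073.H244.P2Sum
import Vale.Agent.P073.H333.PE4
import Vale.Agent.P073.H687.PD4b
import Vale.Agent.P073.H79.PEpre

/-!
# P073, [PRE-2] (`p = 2`), [E5]: the weighted sum on `PE`

The twin of `H687.PD4.sum` on `H340.PE`.
-/

open Set Metric Topology Filter Module MeasureTheory
open scoped ENNReal

namespace Vale.Agent.P073.H244.P2S

open Vale.Agent.P073.St (V Mat)
open Vale.Agent.P073.SQ (ev)
open Vale.Agent.P073.H73 (MinEdge segP Bix)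
open Vale.Agent.P073.H194 (cellT refine sInt bInt Oc)
open Vale.Agent.P073.H333 (eInt_const_mul eInt_mono_on eInt_add_cst eInt_cst PD0 lay gap out
  core base)
open Vale.Agent.P073.H340 (PE RefOut InDiv olay kept Kk2 cK Hw2 rI2)
open Vale.Agent.P073.H234 (Touch Tch dn)
open Vale.Agent.P073.H687 (tsum_sub_le tsum_split sum_cellT_lin cell_sum_le cell_sum_le_set area_le
  sInt_cst ofReal_cube)
open Vale.Agent.P073.AB Vale.Agent.P073.AB.P86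
open Vale.Agent.P073.AB.S308 (boxB_sub_dyc boxR_sub_boxB)
open _root_.P073.Net (dyc dyo)

variable {p ε δ : ℝ} {Φ : ℕ → Finset (Fin 3 → ℤ) → ((Fin 3 → ℤ) → V → V) → ℝ}
  {Ω Λ : Set V} {g f : V → V} {F : V → Mat} (D : PE p ε δ Φ Ω Λ g f F)

/-- off the cut zone -/
def Off (i : Idx) : Prop := ∀ b ∈ D.Bx, ∀ x ∈ dyc D.v i.1 i.2, ∀ y ∈ b.cell D.A,
  1 / 2 ^ D.nr < ‖x - y‖

/-- one square -/
noncomputable def T (ℓ : Idx × Fin 3 → ℝ≥0∞) (i : Idx) (s : Idx × Fin 3) : ℝ≥0∞ :=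
  ∑' e : {e : Idx × Fin 3 // MinEdge D.v D.I e ∧ edge D.v e ⊆ squ D.v s},
    ENNReal.ofReal (1 / 2 ^ i.1 * (1 / 2 ^ s.1.1)) *
      (ENNReal.ofReal ((1 / 2 ^ e.1.1.1) ^ (1 - p)) * ℓ e.1 ^ p)

variable {D} in
theorem Off.mem {i : Idx} (h : Off D i) {x : V} (hx : x ∈ dyc D.v i.1 i.2) : x ∈ Oc D.Bx D.A := by
  intro hcon
  obtain ⟨b, hb, hxb⟩ := mem_iUnion₂.1 hcon
  have h1 := h b hb x hx x (interior_subset hxb)
  rw [sub_self, norm_zero] at h1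
  have : (0:ℝ) < 1 / 2 ^ D.nr := by positivity
  linarith

open Classical in
/-- the divided edges off the cells -/
noncomputable def ellD (e : Idx × Fin 3) : ℝ≥0∞ :=
  if D.Div e ∧ ∀ x ∈ edge D.v e, x ∈ Oc D.Bx D.A then D.ell e else 0

theorem ellD_le (R : RefOut Ω D.v D.n D.k₁ D.k₀ D.J D.Bg D.nf) {e : Idx × Fin 3}
    (he : MinEdge D.v D.I e) : ellD D e ≤ eInt D.v e D.gD := by
  unfold ellD
  split_ifs with h
  · exact D.ell_div R he h.1 h.2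
  · exact bot_le

/-- the density of the divided squares -/
theorem gD_rpow (x : V) : D.gD x ^ p ≤
    2 ^ (p - 1) * cK D.a₁ ^ p * D.Hw x + 2 ^ (p - 1) * ENNReal.ofReal D.β ^ p := by
  have hp1 : 1 ≤ p := by linarith [D.hp]
  have hp0 : 0 < p := by linarith
  unfold PE.gD
  refine (ENNReal.rpow_add_le_mul_rpow_add_rpow _ _ hp1).trans ?_
  rw [mul_add, mul_assoc]
  gcongr
  rw [ENNReal.mul_rpow_of_nonneg _ _ hp0.le]
  gcongr
  rw [ENNReal.mul_rpow_of_nonneg _ _ hp0.le, ← ENNReal.rpow_mul, one_div,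
    inv_mul_cancel₀ hp0.ne', ENNReal.rpow_one]
  exact le_rfl

theorem cK_ne_top (a : ℝ) : cK a ≠ ⊤ := by
  unfold cK
  exact ENNReal.mul_ne_top (by norm_num) ENNReal.ofReal_ne_top

theorem two_ne_top {p a : ℝ} (hp : 1 ≤ p) : (2:ℝ≥0∞) ^ (p - 1) * cK a ^ p ≠ ⊤ := by
  apply ENNReal.mul_ne_top
  · exact ENNReal.rpow_ne_top_of_nonneg (by linarith) (by norm_num)
  · exact ENNReal.rpow_ne_top_of_nonneg (by linarith) (cK_ne_top a)

/-- the divided cubes -/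
theorem part_div (R : RefOut Ω D.v D.n D.k₁ D.k₀ D.J D.Bg D.nf) :
    ∑' i : {i // (i ∈ D.I ∧ Off D i) ∧ i ∉ D.Pk},
      ∑' s : {s // MinSq D.v D.I s ∧ squ D.v s ⊆ dyc D.v i.1.1 i.1.2}, T D D.ell i.1 s.1 ≤
    2 ^ (p - 1) * (cK D.a₁ ^ p * (36 * D.εI + D.εe) +
      24 * ENNReal.ofReal D.β ^ p * volume Ω) := by
  have hp1 : 1 ≤ p := by linarith [D.hp]
  have h1 : ∀ i : {i // (i ∈ D.I ∧ Off D i) ∧ i ∉ D.Pk},
      ∑' s : {s // MinSq D.v D.I s ∧ squ D.v s ⊆ dyc D.v i.1.1 i.1.2}, T D D.ell i.1 s.1 ≤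
      cellT D.v D.I univ (fun x => D.gD x ^ p) i.1 := by
    rintro ⟨i, ⟨hi, hoff⟩, hiP⟩
    refine cell_sum_le hp1 D.bΩ.1 D.part79 i D.gD D.ell fun s hs hsi e he hes => ?_
    have hdiv : D.Div e := by
      obtain ⟨q, hq, hiq⟩ := R.cube i hi hiP
      exact ⟨s, hs, hes, q, hq, hsi.trans hiq⟩
    exact D.ell_div R he hdiv fun x hx => hoff.mem (hsi (hes hx))
  calc _ ≤ ∑' i : {i // (i ∈ D.I ∧ Off D i) ∧ i ∉ D.Pk},
        cellT D.v D.I univ (fun x => D.gD x ^ p) i.1 := ENNReal.tsum_le_tsum h1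
    _ ≤ 2 ^ (p - 1) * cK D.a₁ ^ p * ∑' i : {i // (i ∈ D.I ∧ Off D i) ∧ i ∉ D.Pk},
          cellT D.v D.I univ D.Hw i.1 +
          24 * (2 ^ (p - 1) * ENNReal.ofReal D.β ^ p) * volume Ω :=
        sum_cellT_lin D.bΩ.1 D.part79 (fun i h => h.1.1) univ (two_ne_top hp1) (gD_rpow D)
    _ ≤ 2 ^ (p - 1) * cK D.a₁ ^ p * (36 * D.εI + D.εe) +
          24 * (2 ^ (p - 1) * ENNReal.ofReal D.β ^ p) * volume Ω := by
        gcongr
        calc ∑' i : {i // (i ∈ D.I ∧ Off D i) ∧ i ∉ D.Pk}, cellT D.v D.I univ D.Hw i.1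
            ≤ ∑' i : {i // i ∈ D.I ∧ i ∉ D.Pk}, cellT D.v D.I univ D.Hw i.1 :=
              tsum_sub_le (Q := fun i => (i ∈ D.I ∧ Off D i) ∧ i ∉ D.Pk)
                (Q' := fun i => i ∈ D.I ∧ i ∉ D.Pk) (fun i h => ⟨h.1.1, h.2⟩) fun i =>
                cellT D.v D.I univ D.Hw i
          _ ≤ 36 * (∫⁻ x in ⋃ q ∈ D.Ib \ D.Pk, dyc D.v q.1 q.2, D.Hw x) +
                ∑' q : (D.Ib \ D.Pk : Set Idx), D.e q := D.mesh.sum
          _ ≤ 36 * D.εI + D.εe := by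
              gcongr
              · exact D.int
              · exact (ENNReal.tsum_mono_subtype D.e Set.sdiff_subset).trans D.esum
    _ = _ := by ring

/-! ### the base squares between kept and divided cubes -/

/-- a point of a kept cube of the cells in a box `boxR` is on the boundary of the box -/
theorem notMem_int {i : Idx} (hi : i ∈ lay D.v D.n D.k₁ D.k₀ D.J ∪ gap D.v D.n D.k₁ D.J) {x : V}
    (hx : x ∈ dyc D.v i.1 i.2) {z : Fin 3 → ℤ} : x ∉ interior (boxR D.v D.n D.k₁ z) := by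
  intro hxz
  have hxd : x ∈ dyo D.v D.n z := H333.boxR_sub_dyo _ _ _ _ (interior_subset hxz)
  rcases hi with hi | hi
  · obtain ⟨-, z', hz', h1, h2⟩ := H669.lay_disj hi
    by_cases hzz : z' = z
    · subst hzz
      exact Set.disjoint_left.1 h2 hx (H333.boxR_sub_int _ _ _ _ (interior_subset hxz))
    · exact Set.disjoint_left.1 (H669.dyo_dyc_disj hzz) (h1 hx) hxd
  · obtain ⟨-, z', hz', h1, h2⟩ := H669.gap_disj hi
    by_cases hzz : z' = z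
    · subst hzz
      exact Set.disjoint_left.1 h2 hx hxz
    · exact Set.disjoint_left.1 (H669.dyo_dyc_disj hzz)
        (dyo_sub_dyc (H333.boxB_sub_dyo _ _ _ _ (h1 hx))) hxd

/-- the kept cubes of the cells are in the cells -/
theorem sub_cell {i : Idx} (hi : i ∈ lay D.v D.n D.k₁ D.k₀ D.J ∪ gap D.v D.n D.k₁ D.J) :
    ∃ z ∈ D.J, dyc D.v i.1 i.2 ⊆ dyc D.v D.n z := by
  rcases hi with ⟨-, z, hz, h1, -⟩ | ⟨-, z, hz, h1, -⟩
  · exact ⟨z, hz, h1⟩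
  · exact ⟨z, hz, h1.trans (boxB_sub_dyc z)⟩

/-- the base squares between kept and divided cubes -/
def BSq (i : Idx) (s : Idx × Fin 3) : Prop :=
  MinSq D.v D.Ib s ∧ squ D.v s ⊆ dyc D.v i.1 i.2 ∧
    ∃ r ∈ D.Ib \ D.Pk, squ D.v s ⊆ dyc D.v r.1 r.2

/-- the bound for the weights -/
noncomputable def Wb : ℝ≥0∞ := ENNReal.ofReal (1 + 4 * (2 / D.a₁)) ^ p

/-- the squares next to the core -/
theorem core_sInt (R : RefOut Ω D.v D.n D.k₁ D.k₀ D.J D.Bg D.nf) {i : Idx}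
    (hi : i ∈ lay D.v D.n D.k₁ D.k₀ D.J ∪ gap D.v D.n D.k₁ D.J) {s : Idx × Fin 3}
    (h : BSq D i s) : sInt D.v s D.Hw ≤
      Wb D * ENNReal.ofReal D.M ^ p * ENNReal.ofReal ((1 / 2 ^ s.1.1) ^ 2) := by
  have hp0 : 0 ≤ p := by linarith [D.hp]
  obtain ⟨hs, hsi, r, hr, hsr⟩ := h
  obtain ⟨z₀, hz₀, hiz₀⟩ := sub_cell D hi
  have hxs : sc D.v s ∈ squ D.v s := rel_sub sc_mem
  have hr' : r ∈ base Ω D.v D.n D.k₁ D.k₀ D.J \ kept D.v D.n D.k₁ D.k₀ D.J := hr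
  rw [R.diff] at hr'
  rcases hr' with hr' | hr'
  · exact absurd (hiz₀ (hsi hxs)) (Set.disjoint_left.1 (R.off r hr' z₀ hz₀) (hsr hxs))
  · obtain ⟨-, z, hz, hrz⟩ := hr'
    rw [← sInt_cst]
    refine H194.sInt_mono fun x hx => ?_
    have hxR := hrz (hsr hx)
    have hfs : D.fs x = D.A z x := H194.fs_in hz hxR
    have h1 : D.wg (D.fs x) ≤ ENNReal.ofReal (1 + 4 * (2 / D.a₁)) := by
      refine D.wg_NL ⟨z, hz, x, dyo_sub_dyc (H333.boxR_sub_dyo _ _ _ _ hxR),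
        notMem_int D hi (hsi hx), ?_⟩
      rw [hfs, sub_self, norm_zero]
      have := D.C0
      positivity
    have h2 : D.Gs p x ≤ ENNReal.ofReal D.M ^ p := by
      unfold PD0.Gs
      rw [H194.Gs_in hz hxR]
      refine (indicator_le_self _ _ _).trans ?_
      exact ENNReal.rpow_le_rpow (D.enorm_L_le4 hz) hp0
    show H471.wgt _ _ _ _ ^ p * _ ≤ _
    exact mul_le_mul' (ENNReal.rpow_le_rpow h1 hp0) h2

theorem cells_volume_le {a : ℝ} (ha : 0 ≤ a) (D : PE p ε δ Φ Ω Λ g f F) :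
    ∑ _z ∈ D.J, ENNReal.ofReal (a * (1 / 2 ^ D.n) ^ 3) ≤ ENNReal.ofReal a * volume Ω := by
  have h1 : ∀ z ∈ D.J, ENNReal.ofReal (a * (1 / 2 ^ D.n) ^ 3) =
      ENNReal.ofReal a * volume (dyo D.v D.n z) := by
    intro z _
    rw [ENNReal.ofReal_mul ha, S308.volume_dyo, ofReal_cube]
  rw [Finset.sum_congr rfl h1, ← Finset.mul_sum]
  gcongr
  rw [← measure_biUnion_finset]
  · exact measure_mono (iUnion₂_subset fun z hz => dyo_sub_dyc.trans (D.fine.sub_Ω hz))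
  · intro a _ b _ hab
    show Disjoint (dyo D.v D.n a) (dyo D.v D.n b)
    exact S308.dyo_disj hab
  · intro z _
    rw [← H194.interior_dyc]
    exact isOpen_interior.measurableSet

/-- the base squares next to the core -/
theorem sum_core (R : RefOut Ω D.v D.n D.k₁ D.k₀ D.J D.Bg D.nf) :
    ∑' i : {i // i ∈ lay D.v D.n D.k₁ D.k₀ D.J ∪ gap D.v D.n D.k₁ D.J},
      ∑' s : {s // BSq D i.1 s}, ENNReal.ofReal (1 / 2 ^ i.1.1) * sInt D.v s.1 D.Hw ≤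
    Wb D * (ENNReal.ofReal D.M ^ p * (6 * ENNReal.ofReal (12 / 2 ^ D.k₁) * volume Ω)) := by
  have h1 : ∀ i : {i // i ∈ lay D.v D.n D.k₁ D.k₀ D.J ∪ gap D.v D.n D.k₁ D.J},
      ∑' s : {s // BSq D i.1 s}, ENNReal.ofReal (1 / 2 ^ i.1.1) * sInt D.v s.1 D.Hw ≤
      6 * (Wb D * ENNReal.ofReal D.M ^ p) * ENNReal.ofReal ((1 / 2 ^ i.1.1) ^ 3) := by
    intro i
    have hiI : i.1 ∈ D.Ib := H669.lay_gap_sub i.2
    calc _ ≤ ∑' s : {s // BSq D i.1 s},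
          ENNReal.ofReal (1 / 2 ^ i.1.1) * (Wb D * ENNReal.ofReal D.M ^ p *
            ENNReal.ofReal ((1 / 2 ^ s.1.1.1) ^ 2)) := by
          refine ENNReal.tsum_le_tsum fun s => ?_
          gcongr
          exact core_sInt D R i.2 s.2
      _ ≤ ∑' s : {s // MinSq D.v D.Ib s ∧ squ D.v s ⊆ dyc D.v i.1.1 i.1.2},
          ENNReal.ofReal (1 / 2 ^ i.1.1) * (Wb D * ENNReal.ofReal D.M ^ p *
            ENNReal.ofReal ((1 / 2 ^ s.1.1.1) ^ 2)) :=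
          tsum_sub_le (Q := fun s => BSq D i.1 s)
            (Q' := fun s => MinSq D.v D.Ib s ∧ squ D.v s ⊆ dyc D.v i.1.1 i.1.2)
            (fun s h => ⟨h.1, h.2.1⟩) fun s => ENNReal.ofReal (1 / 2 ^ i.1.1) *
              (Wb D * ENNReal.ofReal D.M ^ p * ENNReal.ofReal ((1 / 2 ^ s.1.1) ^ 2))
      _ = ENNReal.ofReal (1 / 2 ^ i.1.1) * (Wb D * ENNReal.ofReal D.M ^ p *
          ∑' s : {s // MinSq D.v D.Ib s ∧ squ D.v s ⊆ dyc D.v i.1.1 i.1.2},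
            ENNReal.ofReal ((1 / 2 ^ s.1.1.1) ^ 2)) := by
          rw [ENNReal.tsum_mul_left, ENNReal.tsum_mul_left]
      _ ≤ ENNReal.ofReal (1 / 2 ^ i.1.1) * (Wb D * ENNReal.ofReal D.M ^ p *
          ENNReal.ofReal (6 * (1 / 2 ^ i.1.1) ^ 2)) := by
          gcongr
          exact area_le D.fine.part_base hiI D.bΩ.1
      _ = _ := by
          rw [pow_succ (1 / 2 ^ i.1.1 : ℝ) 2, ENNReal.ofReal_mul (by norm_num),
            ENNReal.ofReal_mul (by positivity)]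
          have : ENNReal.ofReal 6 = 6 := by norm_num
          rw [this]
          ring
  calc _ ≤ ∑' i : {i // i ∈ lay D.v D.n D.k₁ D.k₀ D.J ∪ gap D.v D.n D.k₁ D.J},
        6 * (Wb D * ENNReal.ofReal D.M ^ p) * ENNReal.ofReal ((1 / 2 ^ i.1.1) ^ 3) :=
        ENNReal.tsum_le_tsum h1
    _ = 6 * (Wb D * ENNReal.ofReal D.M ^ p) *
        ∑' i : {i // i ∈ lay D.v D.n D.k₁ D.k₀ D.J ∪ gap D.v D.n D.k₁ D.J},
          ENNReal.ofReal ((1 / 2 ^ i.1.1) ^ 3) := ENNReal.tsum_mul_left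
    _ ≤ 6 * (Wb D * ENNReal.ofReal D.M ^ p) * (ENNReal.ofReal (12 / 2 ^ D.k₁) * volume Ω) := by
        gcongr
        exact (H687.kept_volume D.fine.part_base H669.lay_gap_sub).trans
          (cells_volume_le (by positivity) D)
    _ = _ := by ring

/-- **the base squares between kept and divided cubes** -/
theorem sum_base (R : RefOut Ω D.v D.n D.k₁ D.k₀ D.J D.Bg D.nf) :
    ∑' i : {i // i ∈ D.Pk}, ∑' s : {s // BSq D i.1 s},
      ENNReal.ofReal (1 / 2 ^ i.1.1) * sInt D.v s.1 D.Hw ≤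
    D.εS + ENNReal.ofReal (1 + 4 * (2 / D.a₁)) ^ p *
      (ENNReal.ofReal D.M ^ p * (6 * ENNReal.ofReal (12 / 2 ^ D.k₁) * volume Ω)) := by
  have h1 := tsum_split (fun i => i ∈ D.Pk) (fun i => i ∈ olay D.v D.n D.k₁ D.k₀ D.J)
    (E := fun i => ∑' s : {s // BSq D i s}, ENNReal.ofReal (1 / 2 ^ i.1) * sInt D.v s.1 D.Hw)
    (H₁ := fun i => ∑' s : {s // BSq D i s}, ENNReal.ofReal (1 / 2 ^ i.1) * sInt D.v s.1 D.Hw)
    (H₂ := fun i => ∑' s : {s // BSq D i s}, ENNReal.ofReal (1 / 2 ^ i.1) * sInt D.v s.1 D.Hw)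
    (fun _ _ _ => le_rfl) (fun _ _ _ => le_rfl)
  refine h1.trans (add_le_add ?_ ?_)
  · refine (tsum_sub_le (Q := fun i => i ∈ D.Pk ∧ i ∈ olay D.v D.n D.k₁ D.k₀ D.J)
      (Q' := fun i => i ∈ olay D.v D.n D.k₁ D.k₀ D.J) (fun i h => h.2) fun i =>
      ∑' s : {s // BSq D i s}, ENNReal.ofReal (1 / 2 ^ i.1) * sInt D.v s.1 D.Hw).trans ?_
    exact D.intS
  · refine (tsum_sub_le (Q := fun i => i ∈ D.Pk ∧ ¬ i ∈ olay D.v D.n D.k₁ D.k₀ D.J)
      (Q' := fun i => i ∈ lay D.v D.n D.k₁ D.k₀ D.J ∪ gap D.v D.n D.k₁ D.J)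
      (fun i h => h.1.resolve_right h.2) fun i =>
      ∑' s : {s // BSq D i s}, ENNReal.ofReal (1 / 2 ^ i.1) * sInt D.v s.1 D.Hw).trans ?_
    exact sum_core D R

/-- the squares of kept cubes on divided cubes -/
def DSq (i : Idx) (s : Idx × Fin 3) : Prop :=
  (MinSq D.v D.I s ∧ squ D.v s ⊆ dyc D.v i.1 i.2) ∧
    ∃ r ∈ D.Ib \ D.Pk, squ D.v s ⊆ dyc D.v r.1 r.2

theorem part_kept_div (R : RefOut Ω D.v D.n D.k₁ D.k₀ D.J D.Bg D.nf) :
    ∑' i : {i // (i ∈ D.I ∧ Off D i) ∧ ¬ i ∉ D.Pk},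
      ∑' s : {s // DSq D i.1 s}, T D D.ell i.1 s.1 ≤
    2 ^ (p - 1) * (cK D.a₁ ^ p * (36 * (D.εS + ENNReal.ofReal (1 + 4 * (2 / D.a₁)) ^ p *
        (ENNReal.ofReal D.M ^ p * (6 * ENNReal.ofReal (12 / 2 ^ D.k₁) * volume Ω))) + D.εe) +
        24 * ENNReal.ofReal D.β ^ p * volume Ω) := by
  have hp1 : 1 ≤ p := by linarith [D.hp]
  set A : Set V := ⋃ r ∈ D.Ib \ D.Pk, dyc D.v r.1 r.2 with hA
  have h1 : ∀ i : {i // (i ∈ D.I ∧ Off D i) ∧ ¬ i ∉ D.Pk},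
      ∑' s : {s // DSq D i.1 s}, T D D.ell i.1 s.1 ≤
      cellT D.v D.I A (fun x => D.gD x ^ p) i.1 := by
    rintro ⟨i, ⟨hi, hoff⟩, hiP⟩
    calc ∑' s : {s // DSq D i s}, T D D.ell i s.1
        = ∑' s : {s // DSq D i s}, T D (ellD D) i s.1 := by
          refine tsum_congr fun s => ?_
          unfold T
          refine tsum_congr fun e => ?_
          have h2 : ellD D e.1 = D.ell e.1 := by
            unfold ellD
            rw [if_pos]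
            obtain ⟨⟨hs1, hs2⟩, r, hr, hs3⟩ := s.2
            exact ⟨⟨s.1, hs1, e.2.2, r, hr, hs3⟩, fun x hx => hoff.mem (hs2 (e.2.2 hx))⟩
          rw [h2]
      _ ≤ ∑' s : {s // MinSq D.v D.I s ∧ squ D.v s ⊆ dyc D.v i.1 i.2 ∧ squ D.v s ⊆ A},
          T D (ellD D) i s.1 := by
          refine tsum_sub_le (Q := DSq D i)
            (Q' := fun s => MinSq D.v D.I s ∧ squ D.v s ⊆ dyc D.v i.1 i.2 ∧ squ D.v s ⊆ A)
            (fun s h => ⟨h.1.1, h.1.2, ?_⟩) (T D (ellD D) i)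
          obtain ⟨r, hr, hsr⟩ := h.2
          exact hsr.trans (subset_iUnion₂
            (s := fun (r : Idx) (_ : r ∈ D.Ib \ D.Pk) => dyc D.v r.1 r.2) r hr)
      _ ≤ _ := cell_sum_le_set hp1 D.bΩ.1 D.part79 i A D.gD (ellD D)
          fun s _ _ _ e he _ => ellD_le D R he
  calc _ ≤ ∑' i : {i // (i ∈ D.I ∧ Off D i) ∧ ¬ i ∉ D.Pk},
        cellT D.v D.I A (fun x => D.gD x ^ p) i.1 := ENNReal.tsum_le_tsum h1
    _ ≤ 2 ^ (p - 1) * cK D.a₁ ^ p * ∑' i : {i // (i ∈ D.I ∧ Off D i) ∧ ¬ i ∉ D.Pk},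
          cellT D.v D.I A D.Hw i.1 +
          24 * (2 ^ (p - 1) * ENNReal.ofReal D.β ^ p) * volume Ω :=
        sum_cellT_lin D.bΩ.1 D.part79 (fun i h => h.1.1) A (two_ne_top hp1) (gD_rpow D)
    _ ≤ 2 ^ (p - 1) * cK D.a₁ ^ p * (36 * (D.εS + ENNReal.ofReal (1 + 4 * (2 / D.a₁)) ^ p *
        (ENNReal.ofReal D.M ^ p * (6 * ENNReal.ofReal (12 / 2 ^ D.k₁) * volume Ω))) + D.εe) +
          24 * (2 ^ (p - 1) * ENNReal.ofReal D.β ^ p) * volume Ω := by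
        gcongr
        calc ∑' i : {i // (i ∈ D.I ∧ Off D i) ∧ ¬ i ∉ D.Pk}, cellT D.v D.I A D.Hw i.1
            ≤ ∑' i : {i // i ∈ D.Pk}, cellT D.v D.I A D.Hw i.1 :=
              tsum_sub_le (Q := fun i => (i ∈ D.I ∧ Off D i) ∧ ¬ i ∉ D.Pk)
                (Q' := fun i => i ∈ D.Pk) (fun i h => not_not.1 h.2) fun i =>
                cellT D.v D.I A D.Hw i
          _ ≤ ∑' i : {i // i ∈ D.Pk}, (36 * ∑' s : {s // BSq D i.1 s},
                ENNReal.ofReal (1 / 2 ^ i.1.1) * sInt D.v s.1 D.Hw + D.e i.1) :=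
              ENNReal.tsum_le_tsum fun i => D.mesh.kept i.1 i.2
          _ = 36 * (∑' i : {i // i ∈ D.Pk}, ∑' s : {s // BSq D i.1 s},
                ENNReal.ofReal (1 / 2 ^ i.1.1) * sInt D.v s.1 D.Hw) +
                ∑' i : {i // i ∈ D.Pk}, D.e i.1 := by
              rw [ENNReal.tsum_add, ENNReal.tsum_mul_left]
          _ ≤ _ := by
              gcongr
              · exact sum_base D R
              · refine (tsum_sub_le (Q := fun i => i ∈ D.Pk) (Q' := fun i => i ∈ D.Ib)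
                  (fun i h => R.sub h) D.e).trans D.esum
    _ = _ := by ring

/-! ### the other squares of the kept cubes -/

/-- one square which is not divided -/
theorem square_kept (R : RefOut Ω D.v D.n D.k₁ D.k₀ D.J D.Bg D.nf) (hL : D.KeyLen)
    {s : Idx × Fin 3} (hs : MinSq D.v D.I s) (hS : ¬ InDiv Ω D.v D.n D.k₁ D.k₀ D.J s) :
    ∑' e : {e : Idx × Fin 3 // MinEdge D.v D.I e ∧ edge D.v e ⊆ squ D.v s},
      ENNReal.ofReal ((1 / 2 ^ e.1.1.1) ^ (1 - p)) * D.ell e.1 ^ p ≤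
      4 * Kk2 D.toPD0 p * ENNReal.ofReal (1 / 2 ^ s.1.1) := by
  have hp1 : 1 ≤ p := by linarith [D.hp]
  rcases R.minSq s hs with h | ⟨h1, h2, -, h4⟩ | ⟨h1, z, hz, h2, h3⟩
  · exact absurd h hS
  · have hface : FaceOf s (D.n + D.k₁ + D.k₀, s.1.2) := ⟨h1, Or.inl rfl, fun _ _ => rfl⟩
    refine square_le hp1 D.bΩ.1 D.part79 (g := D.gk) hs (fun e he => ?_)
      fun e he hes => ?_
    · rw [h1]
      exact D.own_gk h2 (S308.edgeOf_of_face hface he)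
    · obtain ⟨E, hE, hsub⟩ := H687.minEdge_sub D.bΩ.1 D.part79 hs he hes
      exact D.ell_tch R hL he h2 (S308.edgeOf_of_face hface hE) hsub
        fun z hz => (h4 z hz).mono_left hes
  · exact H687.square_sum_le (n := D.n) (k₁ := D.k₁) (k₀ := D.k₀) (J := D.J) hp1 D.bΩ.1 D.part79
      (gk := D.gk) (fun z hz e he hez => D.own_gk' hz he hez)
      (fun e he h => D.ell_kept R hL he h) hs (Or.inr h1) hz (h2.trans (boxB_sub_dyc z)) h3

theorem part_kept (R : RefOut Ω D.v D.n D.k₁ D.k₀ D.J D.Bg D.nf) (hL : D.KeyLen) :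
    ∑' i : {i // (i ∈ D.I ∧ Off D i) ∧ ¬ i ∉ D.Pk},
      ∑' s : {s // (MinSq D.v D.I s ∧ squ D.v s ⊆ dyc D.v i.1.1 i.1.2) ∧
        ¬ ∃ r ∈ D.Ib \ D.Pk, squ D.v s ⊆ dyc D.v r.1 r.2}, T D D.ell i.1 s.1 ≤
    24 * Kk2 D.toPD0 p * (ENNReal.ofReal (24 / 2 ^ D.k₁) * volume Ω) := by
  have h1 := kept_sum2 (p := p) (K := Kk2 D.toPD0 p) (ℓ := D.ell)
    (S := fun s => ¬ InDiv Ω D.v D.n D.k₁ D.k₀ D.J s) D.bΩ.1 D.part79
    (Q := fun i => i ∈ D.Pk) (fun i hi => Or.inl (Or.inl hi)) fun s hs hS =>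
      square_kept D R hL hs hS
  refine le_trans ?_ (h1.trans ?_)
  · refine le_trans (tsum_sub_le (Q := fun i => (i ∈ D.I ∧ Off D i) ∧ ¬ i ∉ D.Pk)
      (Q' := fun i => i ∈ D.Pk) (fun i h => not_not.1 h.2) fun i =>
        ∑' s : {s // (MinSq D.v D.I s ∧ squ D.v s ⊆ dyc D.v i.1 i.2) ∧
        ¬ ∃ r ∈ D.Ib \ D.Pk, squ D.v s ⊆ dyc D.v r.1 r.2}, T D D.ell i s.1) ?_
    refine ENNReal.tsum_le_tsum fun i => ?_
    exact tsum_sub_le (Q := fun s => (MinSq D.v D.I s ∧ squ D.v s ⊆ dyc D.v i.1.1 i.1.2) ∧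
        ¬ ∃ r ∈ D.Ib \ D.Pk, squ D.v s ⊆ dyc D.v r.1 r.2)
      (Q' := fun s => MinSq D.v D.I s ∧ squ D.v s ⊆ dyc D.v i.1.1 i.1.2 ∧
        ¬ InDiv Ω D.v D.n D.k₁ D.k₀ D.J s) (fun s h => ⟨h.1.1, h.1.2, h.2⟩)
      (T D D.ell i.1)
  · gcongr
    refine (kept_volume2 D.fine.part_base D.fine.two R.sub).trans ?_
    calc 2 * ∑ _z ∈ D.J, ENNReal.ofReal (12 / 2 ^ D.k₁ * (1 / 2 ^ D.n) ^ 3)
        ≤ 2 * (ENNReal.ofReal (12 / 2 ^ D.k₁) * volume Ω) := by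
          gcongr
          exact cells_volume_le (by positivity) D
      _ = ENNReal.ofReal (24 / 2 ^ D.k₁) * volume Ω := by
          rw [← mul_assoc]
          congr 1
          rw [show (2:ℝ≥0∞) = ENNReal.ofReal 2 by simp, ← ENNReal.ofReal_mul (by norm_num)]
          congr 1
          ring

/-- **[E5]** -/
theorem sum (R : RefOut Ω D.v D.n D.k₁ D.k₀ D.J D.Bg D.nf) (hL : D.KeyLen) : D.SumLe := by
  have h1 := tsum_split (fun i => i ∈ D.I ∧ Off D i) (fun i => i ∉ D.Pk)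
    (E := fun i => ∑' s : {s // MinSq D.v D.I s ∧ squ D.v s ⊆ dyc D.v i.1 i.2},
      T D D.ell i s.1)
    (H₁ := fun i => ∑' s : {s // MinSq D.v D.I s ∧ squ D.v s ⊆ dyc D.v i.1 i.2},
      T D D.ell i s.1)
    (H₂ := fun i => ∑' s : {s // DSq D i s}, T D D.ell i s.1 +
      ∑' s : {s // (MinSq D.v D.I s ∧ squ D.v s ⊆ dyc D.v i.1 i.2) ∧
        ¬ ∃ r ∈ D.Ib \ D.Pk, squ D.v s ⊆ dyc D.v r.1 r.2}, T D D.ell i s.1)
    (fun _ _ _ => le_rfl) (fun i _ _ =>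
      tsum_split (fun s => MinSq D.v D.I s ∧ squ D.v s ⊆ dyc D.v i.1 i.2)
        (fun s => ∃ r ∈ D.Ib \ D.Pk, squ D.v s ⊆ dyc D.v r.1 r.2) (E := T D D.ell i)
        (fun _ _ _ => le_rfl) (fun _ _ _ => le_rfl))
  refine h1.trans (le_trans ?_ D.b3)
  refine add_le_add (part_div D R) ?_
  rw [ENNReal.tsum_add]
  exact add_le_add (part_kept_div D R) (part_kept D R hL)

end Vale.Agent.P073.H244.P2S

namespace Vale.Agent.P073.H340.PE

open Vale.Agent.P073.St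

variable {p ε δ : ℝ} {Φ : ℕ → Finset (Fin 3 → ℤ) → ((Fin 3 → ℤ) → V → V) → ℝ}
  {Ω Λ : Set V} {g f : V → V} {F : V → Mat} (D : PE p ε δ Φ Ω Λ g f F)

/-- **[E5]** the weighted sum -/
theorem sumLe (R : RefOut Ω D.v D.n D.k₁ D.k₀ D.J D.Bg D.nf) (hL : D.KeyLen) : D.SumLe :=
  H244.P2S.sum D R hL

end Vale.Agent.P073.H340.PE
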