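import Vale.Agent.P073.H244.OscF
import Vale.Agent.P073.H238.RT1B

/-!
# P073, H244: **[OSC-F]**, the field `oscf` of ROUND T
-/

open Set Metric Topology Filter
open scoped ENNReal

namespace Vale.Agent.P073.H238.K3

open _root_.P073 _root_.P073.Net _root_.P073.PA691 _root_.P073.H236 _root_.P073.H579
open _root_.P073.H267
open _root_.P073.H196 (FixD)
open _root_.P073.H142 (FStar)
open _root_.P073.H345 (PK IsQ)
open Vale.Agent.P073.St (V)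
open Vale.Agent.P073.H471 Vale.Agent.P073.H267 Vale.Agent.P073.H267.Geo
open Vale.Agent.P073.H73 (Mesh)
open Vale.Agent.P073.H193 (Edges Cyc)
open Vale.Agent.P073.H579 (TStageW)
open Vale.Agent.P073.H926

section

variable {c₀ n δ : ℝ} {j : ℕ} {Ω Λ : Set V} {v w : V} {ρ : V → ℝ} {M : Mesh Ω} {h : ConHomeo Ω Λ}
  {J₀ J : Set (ℕ × (Fin 3 → ℤ))} {P Z : Set M.ι} {K : BoxCx Λ w}
  {D : KIn3 c₀ n j δ v w ρ M h J₀ J P Z} {C : Cells ρ w K} {E : Edges M}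
  {T : ∀ k, FStar E k} {A₁ C₅ μ₁ : ℝ} {ε : E.ε → ℝ} {εd : pB C J₀ → ℝ}

namespace RTD

variable (R : RTD D C E T A₁ C₅ μ₁ ε εd)
variable {e : TBx K → ℝ} {he : ∀ b, 0 < e b} {he2 : ∀ b, 2 * e b < R.dl b} {hμ1 : μ₁ ≤ 1}
  {Hα H₁ Tf : ConHomeo Λ Λ}

/-- **`oscf`**: the oscillation of the clamped level coordinate on a face which meets the box -/
theorem oscf_field (HR : RTS R.L R.hc0 R.hc he he2 (R.X hμ1 he he2) Hα H₁ Tf) {C₀ : ℝ}
    (hC₀ : 1 ≤ C₀) (k : M.κ) (b : pB C J₀)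
    (hkb : ∃ z ∈ M.F k, h.toFun z ∈ (D.G C).TB false b.1) (lo hi : ℝ)
    (hlo : (D.G C).tlo true b.1 b.1.ax + 50 * ω3T δ C b.1 ≤ lo) (hle : lo ≤ hi)
    (hhi : hi ≤ (D.G C).thi true b.1 b.1.ax - 50 * ω3T δ C b.1) (Bd : ℝ)
    (hBd : ∀ x ∈ M.F k, ∀ y ∈ M.F k, |h.toFun x b.1.ax - h.toFun y b.1.ax| ≤ Bd)
    (x : V) (hx : x ∈ M.F k) (y : V) (hy : y ∈ M.F k) :
    |clm lo hi ((R.g.trans ((Hα.trans H₁).trans Tf)).toFun x b.1.ax) -
      clm lo hi ((R.g.trans ((Hα.trans H₁).trans Tf)).toFun y b.1.ax)| ≤ C₀ * Bd + εd b := by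
  obtain ⟨u₀, hu₀, hub⟩ := hkb
  have hB0 : 0 ≤ Bd := (abs_nonneg _).trans (hBd x hx x hx)
  have hd := R.L.dsp_nonneg b.1
  have hge := R.L.dsp_ge b.1
  have hdl := R.L.δ0 b.1
  have hdω := R.dspω b.1
  have hω := D.ω3T_pos C b.1
  have key := _root_.P073.H244.oscf_of R.D2 (fun b => R.cω b.1)
    (F := M.F k) (Vale.Agent.P073.H238.mesh_sub M k) (_root_.P073.H236.face_convex M k) (R.D2.face k)
    (fun z hz => Or.inl (mem_iUnion.2 ⟨k, hz⟩))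
    (fun b x hx y hy hxb => D.rt_osc C b.1 b.2 k x hx y hy hxb)
    (R.mv3 HR) (fun b => by
      have h1 := R.dspω b.1
      have h2 := D.ω3T_pos C b.1
      have h3 := R.L.dsp_nonneg b.1
      linarith)
    (b := b) (fun y hy => _root_.P073.H244.st_ax HR (b := b) hy) hlo hle hhi (by linarith) hBd
    hu₀ hub hx hy
  refine key.trans ?_
  have h3 := R.dspd b.1 b ⟨_, hub, hub⟩
  nlinarith

end RTD

end

end Vale.Agent.P073.H238.K3
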