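import Vale.Agent.P073.H244.CircE
import Vale.Agent.P073.GB3.CleanFinal
import Vale.Agent.P073.ALX.Alexander

/-!
# P073, block CLEAN-E: cleaning with control of all faces and cells
-/

open Set Metric Topology Filter

namespace P073.H244

open P073 P073.GB73 P073.PR720 P073.GB3
open Vale.Agent.P073.St (V)

variable {Vx B J I : Type} {e0 e1 : B → Vx} {inc : B → J → Prop} {qC : J → I → Prop}
  {Ω Λ : Set V}

/-- a union of members of a locally finite family of closed sets is closed in `W` -/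
theorem closed_of_LF {ι : Type*} {A : ι → Set V} {W : Set V} (h : LF A W)
    (hA : ∀ i, IsClosed (A i)) (p : ι → Prop) {z : V} (hz : z ∈ W)
    (hcl : z ∈ closure (⋃ i ∈ {i | p i}, A i)) : z ∈ ⋃ i ∈ {i | p i}, A i := by
  have h1 : LF (fun i : {i // p i} => A i.1) W := by
    intro y hy
    obtain ⟨U, hU, hfin⟩ := h y hy
    refine ⟨U, hU, ?_⟩
    exact Set.Finite.preimage (f := (Subtype.val : {i // p i} → ι)) Subtype.val_injective.injOn
      hfin
  have h2 : (⋃ i ∈ {i | p i}, A i) = ⋃ i : {i // p i}, A i.1 := by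
    ext y
    constructor
    · intro hy
      obtain ⟨i, hi, hyi⟩ := mem_iUnion₂.1 hy
      exact mem_iUnion.2 ⟨⟨i, hi⟩, hyi⟩
    · intro hy
      obtain ⟨i, hi⟩ := mem_iUnion.1 hy
      exact mem_biUnion (show i.1 ∈ {i | p i} from i.2) hi
  rw [h2] at hcl ⊢
  exact mem_iUnion.2 (mem_iUnion.1 (h1.closed (fun i => hA i.1) hz hcl))

theorem nonAdj_closed (K : Cx3 e0 e1 inc qC Ω) (j : J) {x : V} (hx : x ∈ Ω)
    (h : x ∈ closure (nonAdj K.tile K.cell (cbd K) j)) : x ∈ nonAdj K.tile K.cell (cbd K) j :=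
  closed_of_LF K.clf (fun c => (K.cball c).isClosed) (fun c => ¬ K.tile j ⊆ cbd K c) hx h

theorem cell_disj (K : Cx3 e0 e1 inc qC Ω) {c d : I} (hne : c ≠ d) :
    Disjoint (K.cell c \ cbd K c) (K.cell d) := by
  rw [Set.disjoint_left]
  intro x hx hxd
  exact cell_diff_cx2 K hx (K.cell_cell c d hne ⟨hx.1, hxd⟩)

/-- The region `O` is separated from the body `A` at level `t`: either the whole boundary of the body
is in `O`, or the part of the boundary outside `O` is connected and contains a crossing point. -/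
def Sep (A : Body) (P : Set B) (y : ℝ → B → V) (O : Set V) (t : ℝ) : Prop :=
  frontier (A.at t) ⊆ O ∨
    (IsPreconnected (frontier (A.at t) \ O) ∧ ∃ b ∈ P, y t b ∉ O)

/-- faces and cells which do not meet the boundaries of the body `A` at the admissible levels are
not changed -/
structure Still (K : Cx3 e0 e1 inc qC Ω) (h k' : ConHomeo Ω Λ) (A : Body) : Prop where
  tile : ∀ j, (∀ s ∈ A.T, Disjoint (h.toFun '' K.tile j) (frontier (A.at s))) →
    EqOn k'.toFun h.toFun (K.tile j)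
  cell : ∀ c, (∀ s ∈ A.T, Disjoint (h.toFun '' K.cell c) (frontier (A.at s))) →
    EqOn k'.toFun h.toFun (K.cell c)

/-- one body -/
theorem clean_oneE (hAl : SpecAlex) (hJ : SpecJS) (hPu : SpecPush) (hLev : SpecLevels)
    (K : Cx3 e0 e1 inc qC Ω) (h : ConHomeo Ω Λ) (hΩ : IsOpen Ω) (hΛ : IsOpen Λ) {Z : Set V}
    (hZ : Prot K Z) {A : Body} {P : Set B} {y : ℝ → B → V} (hA : A.Good Λ)
    (hball : ∀ t ∈ A.T, ConBall 3 (A.at t) (frontier (A.at t))) (hP : Pat inc P)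
    (hcr : ∀ t ∈ A.T, Crosses K.toGraph h.toFun (A.at t) P (y t))
    (hZA : ∀ s ∈ A.T, Disjoint (h.toFun '' Z) (A.at s)) {D : Type*} {f : D → J} {O : D → Set V}
    (hO1 : ∀ a, ∀ x ∈ K.tile (f a), h.toFun x ∈ O a)
    (hO2 : ∀ a, ∀ t ∈ A.T, Sep A P y (O a) t) :
    ∃ t ∈ A.T, ∃ k' : ConHomeo Ω Λ, (∀ x ∈ cx1 K, k'.toFun x = h.toFun x) ∧
      (∀ x ∈ Z, k'.toFun x = h.toFun x) ∧ (∀ a, ∀ x ∈ K.tile (f a), k'.toFun x ∈ O a) ∧
      Still K h k' A ∧
      ∃ α : J → Set V, LevArcs K h A P (y t) t α ∧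
        {x | x ∈ cx2 K ∧ bg A (k'.toFun x) = t} = (⋃ j, α j) ∧
        ∀ x ∈ ⋃ j, α j, ∀ᶠ z in 𝓝 x, z ∈ cx2 K → k'.toFun z = h.toFun z := by
  obtain ⟨T', hT', hT'c, α, S, hLS⟩ := hLev Vx B J I e0 e1 inc qC Ω Λ K h hΩ hΛ A P y hA hP hcr
  have hfront : ∀ t ∈ A.T, {z | z ∈ Λ ∧ bg A z = t} = frontier (A.at t) := by
    intro t ht
    ext z
    constructor
    · rintro ⟨-, hz⟩; exact (eq_iff_mem_frontier_at hA (hA.pos t ht)).1 hz
    · intro hz
      exact ⟨hA.sub t ht ((hball t ht).isClosed.frontier_subset hz),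
        (eq_iff_mem_frontier_at hA (hA.pos t ht)).2 hz⟩
  have hΓ : ∀ t ∈ T', ∀ b ∈ P, h.invFun (y t b) ∈ ⋃ j, α t j := by
    intro t ht b hb
    obtain ⟨j, hj⟩ := K.arc_tile b
    have hbj : b ∈ {b | inc b j ∧ b ∈ P} := ⟨hj, hb⟩
    rcases hP.two j with h1 | ⟨b1, b2, hne, h1⟩
    · rw [h1] at hbj; exact hbj.elim
    · have h2 := ((hLS t ht).1.arc j b1 b2 hne h1).1.1
      refine mem_iUnion.2 ⟨j, h2 ?_⟩
      rw [h1] at hbj
      rcases hbj with hbj | hbj
      · rw [hbj]; exact Or.inl rfl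
      · have : b = b2 := hbj
        rw [this]; exact Or.inr rfl
  -- a bound for the number of circles
  obtain ⟨m, hm⟩ : ∃ m : ℕ, ¬ ({t | t ∈ T' ∧ (S t).ncard ≤ m} : Set ℝ).Countable := by
    by_contra hcon
    push Not at hcon
    apply hT'c
    refine (countable_iUnion hcon).mono ?_
    intro t ht
    exact mem_iUnion.2 ⟨(S t).ncard, ht, le_rfl⟩
  obtain ⟨t, ht, k', h1, h2, h3, h4, h5, h6, h7⟩ := circE hAl hJ hPu (ctx_of_cx3 K hΩ hZ)
    (fun i x hx hcl => nonAdj_closed K i hx hcl) (fun j j' hne => cell_disj K hne) (g := bg A)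
    (continuous_bg hA).continuousOn (f := f) (O := O) (fun t => ⋃ j, α t j)
    m h {t | t ∈ T' ∧ (S t).ncard ≤ m} S hm (fun t ht => (hLS t ht.1).2) (fun t ht => ht.2)
    (fun t ht => by
      rw [hfront t (hT' ht.1)]
      exact conBall_jordanSch (hball t (hT' ht.1)) hJ)
    (fun t ht x hx hxZ he => by
      have h6 : h.toFun x ∈ A.at t := by
        rw [← le_iff_mem_at hA (hA.pos t (hT' ht.1))]; exact he.le
      exact Set.disjoint_left.1 (hZA t (hT' ht.1)) (mem_image_of_mem _ hxZ) h6)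
    hO1
    (fun a t ht => by
      rw [hfront t (hT' ht.1)]
      rcases hO2 a t (hT' ht.1) with h6 | ⟨h6, b, hb, hbO⟩
      · exact Or.inl h6
      refine Or.inr ⟨h6, h.invFun (y t b), hΓ t ht.1 b hb, ?_⟩
      obtain ⟨-, -, -, h7⟩ := crossing_point K (hA.sub t (hT' ht.1))
        (hball t (hT' ht.1)).isClosed (hcr t (hT' ht.1)) hb
      rw [h7]; exact hbO)
  have hno : ∀ {X : Set V}, X ⊆ Ω → (∀ s ∈ A.T, Disjoint (h.toFun '' X) (frontier (A.at s))) →
      ∀ s ∈ {t | t ∈ T' ∧ (S t).ncard ≤ m}, ∀ x ∈ X, bg A (h.toFun x) ≠ s := by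
    intro X hX hd s hs x hx he
    refine Set.disjoint_left.1 (hd s (hT' hs.1)) (mem_image_of_mem _ hx) ?_
    rw [← hfront s (hT' hs.1)]
    exact ⟨h.mapsTo (hX hx), he⟩
  refine ⟨t, hT' ht.1, k', h2, fun x hx => h3 x (hZ.sub hx) hx, h5, ⟨fun j hj => ?_, fun c hc => ?_⟩,
    α t, (hLS t ht.1).1, h1, h4⟩
  · exact fun x hx => h6 j (hno ((subset_iUnion _ j).trans (cx2_subset K)) hj) x hx
  · exact fun x hx => h7 c (hno (cell_subset K c) hc) x hx

/-- **(GB2-E)** Cleaning (`GB73.SpecClean`) with control of all faces and cells: `fG a` is a face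
with a region `O a` which contains its image; `Sep` says that the region is separated from the
bodies. Faces and cells which do not meet the boundaries of the bodies are not changed. -/
theorem specCleanE (K : Cx3 e0 e1 inc qC Ω) (h : ConHomeo Ω Λ) (hΩ : IsOpen Ω) (hΛ : IsOpen Λ)
    (F : Finset J) (A : J → Body) (P : J → Set B) (y : J → ℝ → B → V)
    (A0 : Body) (P0 : Set B) (y0 : ℝ → B → V)
    (hAg : ∀ σ ∈ F, (A σ).Good Λ) (hA0g : A0.Good Λ) (hPat : ∀ σ ∈ F, Pat inc (P σ))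
    (hPat0 : Pat inc P0)
    (hCr : ∀ σ ∈ F, ∀ t ∈ (A σ).T, Crosses K.toGraph h.toFun ((A σ).at t) (P σ) (y σ t))
    (hCr0 : ∀ t ∈ A0.T, Crosses K.toGraph h.toFun (A0.at t) P0 (y0 t))
    (hbd : ∀ σ ∈ F, ∀ t ∈ (A σ).T, h.toFun '' (K.toCx2.bd σ) ⊆ interior ((A σ).at t))
    (hsep : ∀ σ ∈ F, ∀ τ ∈ F, σ ≠ τ → ∀ t ∈ (A σ).T, ∀ s ∈ (A τ).T,
      IsPreconnected (frontier ((A τ).at s) \ interior ((A σ).at t)) ∧
      ∃ b ∈ P τ, y τ s b ∉ interior ((A σ).at t))
    (hsep0 : ∀ σ ∈ F, ∀ t ∈ (A σ).T, ∀ s ∈ A0.T,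
      IsPreconnected (frontier (A0.at s) \ interior ((A σ).at t)) ∧
      ∃ b ∈ P0, y0 s b ∉ interior ((A σ).at t))
    (Z : Set V) (hZ : Prot K Z)
    (hZA : ∀ σ ∈ F, ∀ s ∈ (A σ).T, Disjoint (h.toFun '' Z) ((A σ).at s))
    (hZA0 : ∀ s ∈ A0.T, Disjoint (h.toFun '' Z) (A0.at s))
    {G : Type*} (fG : G → J) (O : G → Set V)
    (hO : ∀ a, ∀ x ∈ K.tile (fG a), h.toFun x ∈ O a)
    (hOs : ∀ a, ∀ τ ∈ F, ∀ s ∈ (A τ).T, Sep (A τ) (P τ) (y τ) (O a) s)
    (hOs0 : ∀ a, ∀ s ∈ A0.T, Sep A0 P0 y0 (O a) s) :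
    ∃ (h' : ConHomeo Ω Λ) (t : J → ℝ) (t0 : ℝ),
      (∀ σ ∈ F, t σ ∈ (A σ).T) ∧ t0 ∈ A0.T ∧
      (∀ b, EqOn h'.toFun h.toFun (K.arc b)) ∧
      EqOn h'.toFun h.toFun Z ∧
      (∀ σ ∈ F, h'.toFun '' K.tile σ ⊆ interior ((A σ).at (t σ))) ∧
      (∀ j, {b | inc b j ∧ b ∈ P0} = ∅ → Disjoint (h'.toFun '' K.tile j) (frontier (A0.at t0))) ∧
      (∀ j b b', b ≠ b' → {b | inc b j ∧ b ∈ P0} = {b, b'} →
        ConBall 1 (h'.toFun '' K.tile j ∩ frontier (A0.at t0)) {y0 t0 b, y0 t0 b'}) ∧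
      (∀ j c, qC j c → ∀ z ∈ h'.toFun '' (K.tile j \ K.toCx2.bd j) ∩ frontier (A0.at t0),
        z ∈ closure (h'.toFun '' (K.cell c \ ⋃ s, K.tile s) ∩ frontier (A0.at t0))) ∧
      (∀ a, ∀ x ∈ K.tile (fG a), h'.toFun x ∈ O a) ∧
      (∀ j, (∀ σ ∈ F, ∀ s ∈ (A σ).T, Disjoint (h.toFun '' K.tile j) (frontier ((A σ).at s))) →
        (∀ s ∈ A0.T, Disjoint (h.toFun '' K.tile j) (frontier (A0.at s))) →
        EqOn h'.toFun h.toFun (K.tile j)) ∧
      ∀ c, (∀ σ ∈ F, ∀ s ∈ (A σ).T, Disjoint (h.toFun '' K.cell c) (frontier ((A σ).at s))) →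
        (∀ s ∈ A0.T, Disjoint (h.toFun '' K.cell c) (frontier (A0.at s))) →
        EqOn h'.toFun h.toFun (K.cell c) := by
  have hAl : SpecAlex := ALX.specAlex
  have hJ : SpecJS := H339.jordanSch_sphere
  have hPu : SpecPush := specPush_GB3
  have hLev : SpecLevels := specLevels
  have hAb : ∀ σ ∈ F, ∀ t ∈ (A σ).T, ConBall 3 ((A σ).at t) (frontier ((A σ).at t)) :=
    fun σ hσ => (hAg σ hσ).ball
  have hA0b : ∀ t ∈ A0.T, ConBall 3 (A0.at t) (frontier (A0.at t)) := hA0g.ball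
  classical
  -- cleaning of the faces, one after the other
  have key : ∀ D : Finset J, D ⊆ F → ∃ (k : ConHomeo Ω Λ) (t : J → ℝ),
      (∀ x ∈ cx1 K, k.toFun x = h.toFun x) ∧ (∀ x ∈ Z, k.toFun x = h.toFun x) ∧
      (∀ σ ∈ F, t σ ∈ (A σ).T) ∧
      (∀ σ ∈ D, ∀ x ∈ K.tile σ, k.toFun x ∈ interior ((A σ).at (t σ))) ∧
      (∀ a, ∀ x ∈ K.tile (fG a), k.toFun x ∈ O a) ∧
      (∀ j, (∀ σ ∈ F, ∀ s ∈ (A σ).T, Disjoint (h.toFun '' K.tile j) (frontier ((A σ).at s))) →
        EqOn k.toFun h.toFun (K.tile j)) ∧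
      ∀ c, (∀ σ ∈ F, ∀ s ∈ (A σ).T, Disjoint (h.toFun '' K.cell c) (frontier ((A σ).at s))) →
        EqOn k.toFun h.toFun (K.cell c) := by
    intro D
    induction D using Finset.induction_on with
    | empty =>
      intro _
      have hne : ∀ σ ∈ F, ∃ t, t ∈ (A σ).T := by
        intro σ hσ
        by_contra hcon
        push Not at hcon
        apply (hAg σ hσ).unc
        rw [eq_empty_iff_forall_notMem.2 hcon]
        exact countable_empty
      choose! t ht using hne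
      exact ⟨h, t, fun _ _ => rfl, fun _ _ => rfl, ht, fun σ hσ => by simp at hσ, hO,
        fun _ _ _ _ => rfl, fun _ _ _ _ => rfl⟩
    | insert σ D hσD ih =>
      intro hsub
      have hσF : σ ∈ F := hsub (Finset.mem_insert_self σ D)
      have hDF : D ⊆ F := fun i hi => hsub (Finset.mem_insert_of_mem hi)
      obtain ⟨k, t, hk1, hkZ, ht, hkD, hkO, hkt, hkc⟩ := ih hDF
      have hcrk : ∀ s ∈ (A σ).T, Crosses K.toGraph k.toFun ((A σ).at s) (P σ) (y σ s) :=
        fun s hs => crosses_congr K (hCr σ hσF s hs) hk1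
      have hZk : ∀ s ∈ (A σ).T, Disjoint (k.toFun '' Z) ((A σ).at s) := by
        intro s hs
        rw [image_congr hkZ]; exact hZA σ hσF s hs
      have hneD : ∀ i ∈ D, i ≠ σ := fun i hi he => hσD (he ▸ hi)
      obtain ⟨s, hs, k', hk'1, hk'Z, hk'DO, hstill, α, hα, hαeq, hαev⟩ := clean_oneE hAl hJ hPu
        hLev K k hΩ hΛ hZ (hAg σ hσF) (hAb σ hσF) (hPat σ hσF) hcrk hZk (D := {i // i ∈ D} ⊕ G)
        (f := Sum.elim (fun i => i.1) fG)
        (O := Sum.elim (fun i => interior ((A i.1).at (t i.1))) O)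
        (fun a => by
          rcases a with i | a
          · exact fun x hx => hkD i.1 i.2 x hx
          · exact fun x hx => hkO a x hx)
        (fun a s hs => by
          rcases a with i | a
          · exact Or.inr (hsep i.1 (hDF i.2) σ hσF (hneD i.1 i.2) (t i.1) (ht i.1 (hDF i.2)) s hs)
          · exact hOs a σ hσF s hs)
      have hk'D : ∀ i ∈ D, ∀ x ∈ K.tile i, k'.toFun x ∈ interior ((A i).at (t i)) :=
        fun i hi x hx => hk'DO (Sum.inl ⟨i, hi⟩) x hx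
      have hk'O : ∀ a, ∀ x ∈ K.tile (fG a), k'.toFun x ∈ O a :=
        fun a x hx => hk'DO (Sum.inr a) x hx
      have hk't : ∀ j, (∀ σ ∈ F, ∀ s ∈ (A σ).T,
          Disjoint (h.toFun '' K.tile j) (frontier ((A σ).at s))) →
          EqOn k'.toFun h.toFun (K.tile j) := by
        intro j hj x hx
        have he := hkt j hj
        exact (hstill.tile j (fun s hs => by rw [he.image_eq]; exact hj σ hσF s hs) hx).trans
          (he hx)
      have hk'c : ∀ c, (∀ σ ∈ F, ∀ s ∈ (A σ).T,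
          Disjoint (h.toFun '' K.cell c) (frontier ((A σ).at s))) →
          EqOn k'.toFun h.toFun (K.cell c) := by
        intro c hc x hx
        have he := hkc c hc
        exact (hstill.cell c (fun s hs => by rw [he.image_eq]; exact hc σ hσF s hs) hx).trans
          (he hx)
      have hspos : 0 < s := (hAg σ hσF).pos s hs
      refine ⟨k', Function.update t σ s, fun x hx => (hk'1 x hx).trans (hk1 x hx),
        fun x hx => (hk'Z x hx).trans (hkZ x hx), fun i hi => ?_, fun i hi x hx => ?_, hk'O, hk't,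
        hk'c⟩
      · by_cases hiσ : i = σ
        · rw [hiσ, Function.update_self]; exact hs
        · rw [Function.update_of_ne hiσ]; exact ht i hi
      · rcases Finset.mem_insert.1 hi with hiσ | hiD
        swap
        · rw [Function.update_of_ne (hneD i hiD)]
          exact hk'D i hiD x hx
        subst hiσ
        rw [Function.update_self]
        -- the boundary of the face is inside
        have hbin : ∀ z ∈ K.toCx2.bd i, bg (A i) (k'.toFun z) < s := by
          intro z hz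
          obtain ⟨b, hb, hzb⟩ := mem_iUnion₂.1 hz
          have hz1 : z ∈ cx1 K := arc_sub_cx1 K b hzb
          rw [hk'1 z hz1, hk1 z hz1, lt_iff_mem_interior_at (hAg i hσF) hspos]
          exact hbd i hσF s hs (mem_image_of_mem _ hz)
        have hunc : {b | inc b i ∧ b ∈ P i} = ∅ := by
          rw [eq_empty_iff_forall_notMem]
          rintro b ⟨hbi, hbP⟩
          have hends := (hCr i hσF s hs).ends b hbP
          have hin : ∀ z ∈ K.arc b, h.toFun z ∈ interior ((A i).at s) := fun z hz =>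
            hbd i hσF s hs (mem_image_of_mem _ (mem_biUnion (show b ∈ {b | inc b i} from hbi) hz))
          rcases hends with ⟨-, h2⟩ | ⟨-, h2⟩
          · exact h2 (interior_subset (hin _ (vert_mem_arc1 K b)))
          · exact h2 (interior_subset (hin _ (vert_mem_arc0 K b)))
        have hmiss : ∀ z ∈ K.tile i, bg (A i) (k'.toFun z) ≠ s := by
          intro z hz he
          have h1 : z ∈ ⋃ j, α j := by
            rw [← hαeq]; exact ⟨mem_iUnion.2 ⟨i, hz⟩, he⟩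
          obtain ⟨j, hj⟩ := mem_iUnion.1 h1
          by_cases hij : i = j
          · subst hij
            rw [hα.empty i hunc] at hj; exact hj
          · obtain ⟨b, hb, hzb⟩ := mem_arc_of_mem_tile K hij hz (hα.sub j hj)
            have := hbin z (mem_biUnion (show b ∈ {b | inc b i} from hb) hzb)
            exact this.ne he
        have hcont : ContinuousOn (fun z => bg (A i) (k'.toFun z)) (K.tile i) :=
          (continuous_bg (hAg i hσF)).comp_continuousOn
            (k'.cont.mono ((subset_iUnion _ i).trans (cx2_subset K)))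
        have hpre : IsPreconnected ((fun z => bg (A i) (k'.toFun z)) '' K.tile i) :=
          (K.tball i).isPreconnected.image _ hcont
        obtain ⟨z0, hz0⟩ : (K.toCx2.bd i).Nonempty := (K.tball i).conSphere.nonempty
        rw [← lt_iff_mem_interior_at (hAg i hσF) hspos]
        by_contra hcon
        push Not at hcon
        have h3 : s ∈ (fun z => bg (A i) (k'.toFun z)) '' K.tile i :=
          hpre.ordConnected.out (mem_image_of_mem _ (K.toCx2.bd_subset i hz0))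
            (mem_image_of_mem _ hx) ⟨(hbin z0 hz0).le, hcon⟩
        obtain ⟨z, hz, he⟩ := h3
        exact hmiss z hz he
  obtain ⟨k, t, hk1, hkZ, ht, hkD, hkO, hkt, hkc⟩ := key F (Finset.Subset.refl F)
  -- the last body
  have hcrk : ∀ s ∈ A0.T, Crosses K.toGraph k.toFun (A0.at s) P0 (y0 s) :=
    fun s hs => crosses_congr K (hCr0 s hs) hk1
  have hZk : ∀ s ∈ A0.T, Disjoint (k.toFun '' Z) (A0.at s) := by
    intro s hs
    rw [image_congr hkZ]; exact hZA0 s hs
  obtain ⟨t0, ht0, h', h'1, h'Z, h'DO, hstill, α, hα, hαeq, hαev⟩ := clean_oneE hAl hJ hPu hLev K k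
    hΩ hΛ hZ hA0g hA0b hPat0 hcrk hZk (D := {i // i ∈ F} ⊕ G)
    (f := Sum.elim (fun i => i.1) fG)
    (O := Sum.elim (fun i => interior ((A i.1).at (t i.1))) O)
    (fun a => by
      rcases a with i | a
      · exact fun x hx => hkD i.1 i.2 x hx
      · exact fun x hx => hkO a x hx)
    (fun a s hs => by
      rcases a with i | a
      · exact Or.inr (hsep0 i.1 i.2 (t i.1) (ht i.1 i.2) s hs)
      · exact hOs0 a s hs)
  have h'D : ∀ i ∈ F, ∀ x ∈ K.tile i, h'.toFun x ∈ interior ((A i).at (t i)) :=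
    fun i hi x hx => h'DO (Sum.inl ⟨i, hi⟩) x hx
  have ht0pos : 0 < t0 := hA0g.pos t0 ht0
  have hcr' : Crosses K.toGraph h'.toFun (A0.at t0) P0 (y0 t0) := crosses_congr K (hcrk t0 ht0) h'1
  have hA0sub := hA0g.sub t0 ht0
  have hA0cl : IsClosed (A0.at t0) := (hA0b t0 ht0).isClosed
  have hαev' : ∀ x ∈ ⋃ j, α j, h'.toFun x = k.toFun x := fun x hx =>
    (hαev x hx).self_of_nhds (by rw [← hαeq] at hx; exact hx.1)
  have hinv : ∀ b ∈ P0, h'.invFun (y0 t0 b) = k.invFun (y0 t0 b) := by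
    intro b hb
    obtain ⟨h1, h2, -, h3⟩ := crossing_point K hA0sub hA0cl (hcrk t0 ht0) hb
    have h4 : h'.toFun (k.invFun (y0 t0 b)) = y0 t0 b := by
      rw [h'1 _ (arc_sub_cx1 K b h1), h3]
    have h5 : k.invFun (y0 t0 b) ∈ Ω := k.mapsTo_inv h2
    calc h'.invFun (y0 t0 b) = h'.invFun (h'.toFun (k.invFun (y0 t0 b))) := by rw [h4]
      _ = k.invFun (y0 t0 b) := h'.left_inv h5
  -- a crossing point on an arc
  have harc : ∀ b x, x ∈ K.arc b → h'.toFun x ∈ frontier (A0.at t0) →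
      b ∈ P0 ∧ x = k.invFun (y0 t0 b) := by
    intro b x hx hxf
    have hb : b ∈ P0 := by
      by_contra hb
      exact Set.disjoint_left.1 (hcr'.off b hb) (mem_image_of_mem _ hx) hxf
    refine ⟨hb, ?_⟩
    have h1 : h'.toFun x ∈ ({y0 t0 b} : Set V) := by
      rw [← hcr'.on b hb]; exact ⟨mem_image_of_mem _ hx, hxf⟩
    have h2 : h'.toFun x = y0 t0 b := h1
    rw [← hinv b hb, ← h2, h'.left_inv (cx2_subset K (cx1_subset K (arc_sub_cx1 K b hx)))]
  have hfr : ∀ z, z ∈ frontier (A0.at t0) ↔ bg A0 z = t0 := fun z =>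
    (eq_iff_mem_frontier_at hA0g ht0pos).symm
  have hmem : ∀ j, ∀ x ∈ K.tile j, h'.toFun x ∈ frontier (A0.at t0) → x ∈ ⋃ j, α j := by
    intro j x hx hxf
    rw [← hαeq]
    exact ⟨mem_iUnion.2 ⟨j, hx⟩, (hfr _).1 hxf⟩
  refine ⟨h', t, t0, ht, ht0, fun b x hx => ?_, fun x hx => (h'Z x hx).trans (hkZ x hx),
    fun σ hσ => ?_, fun j hj => ?_, fun j b b' hbb hj => ?_, fun j c hjc z hz => ?_,
    fun a x hx => h'DO (Sum.inr a) x hx, fun j hj hj0 x hx => ?_, fun c hc hc0 x hx => ?_⟩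
  · exact (h'1 x (arc_sub_cx1 K b hx)).trans (hk1 x (arc_sub_cx1 K b hx))
  · rintro _ ⟨x, hx, rfl⟩
    exact h'D σ hσ x hx
  · -- uncrossed faces
    rw [Set.disjoint_left]
    rintro _ ⟨x, hx, rfl⟩ hxf
    obtain ⟨j', hj'⟩ := mem_iUnion.1 (hmem j x hx hxf)
    by_cases hjj : j = j'
    · subst hjj
      rw [hα.empty j hj] at hj'; exact hj'
    · obtain ⟨b, hb, hxb⟩ := mem_arc_of_mem_tile K hjj hx (hα.sub j' hj')
      have : b ∈ {b | inc b j ∧ b ∈ P0} := ⟨hb, (harc b x hxb hxf).1⟩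
      rw [hj] at this; exact this
  · -- crossed faces
    have hbP : b ∈ P0 ∧ b' ∈ P0 := by
      have h1 : b ∈ {b | inc b j ∧ b ∈ P0} := by rw [hj]; exact Or.inl rfl
      have h2 : b' ∈ {b | inc b j ∧ b ∈ P0} := by rw [hj]; exact Or.inr rfl
      exact ⟨h1.2, h2.2⟩
    have hαj := hα.arc j b b' hbb hj
    have hset : h'.toFun '' K.tile j ∩ frontier (A0.at t0) = h'.toFun '' α j := by
      ext z
      constructor
      · rintro ⟨⟨x, hx, rfl⟩, hxf⟩
        obtain ⟨j', hj'⟩ := mem_iUnion.1 (hmem j x hx hxf)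
        by_cases hjj : j = j'
        · subst hjj; exact mem_image_of_mem _ hj'
        · obtain ⟨b2, hb2, hxb⟩ := mem_arc_of_mem_tile K hjj hx (hα.sub j' hj')
          obtain ⟨h1, h2⟩ := harc b2 x hxb hxf
          have h3 : b2 ∈ {b | inc b j ∧ b ∈ P0} := ⟨hb2, h1⟩
          rw [hj] at h3
          refine mem_image_of_mem _ (hαj.1.1 ?_)
          rcases h3 with h3 | h3
          · rw [h2, h3]; exact Or.inl rfl
          · have h3' : b2 = b' := h3
            rw [h2, h3']; exact Or.inr rfl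
      · rintro ⟨x, hx, rfl⟩
        have h1 : x ∈ {x | x ∈ cx2 K ∧ bg A0 (h'.toFun x) = t0} := by
          rw [hαeq]; exact mem_iUnion.2 ⟨j, hx⟩
        exact ⟨mem_image_of_mem _ (hα.sub j hx), (hfr _).2 h1.2⟩
    rw [hset]
    have hαΩ : α j ⊆ Ω := (hα.sub j).trans ((subset_iUnion _ j).trans (cx2_subset K))
    have h4 := hαj.1.image h' hαΩ
    have h5 : ∀ b ∈ P0, h'.toFun (k.invFun (y0 t0 b)) = y0 t0 b := by
      intro b hb
      obtain ⟨h1, h2, -, h3⟩ := crossing_point K hA0sub hA0cl (hcrk t0 ht0) hb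
      rw [h'1 _ (arc_sub_cx1 K b h1), h3]
    rwa [image_pair, h5 b hbP.1, h5 b' hbP.2] at h4
  · -- both sides
    obtain ⟨⟨x, hx, rfl⟩, hxf⟩ := hz
    have hxΓ := hmem j x hx.1 hxf
    have hxk : h'.toFun x = k.toFun x := hαev' x hxΓ
    have hxt : bg A0 (k.toFun x) = t0 := by rw [← hxk]; exact (hfr _).1 hxf
    have hext : ∀ U ∈ 𝓝 x, (∃ z ∈ U ∩ K.tile j, bg A0 (h'.toFun z) < t0) ∧
        ∃ z ∈ U ∩ K.tile j, t0 < bg A0 (h'.toFun z) := by
      intro U hU
      obtain ⟨⟨z1, hz1, h1⟩, z2, hz2, h2⟩ := hα.ext j x hx hxt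
        (U ∩ {z | z ∈ cx2 K → h'.toFun z = k.toFun z}) (inter_mem hU (hαev x hxΓ))
      refine ⟨⟨z1, ⟨hz1.1.1, hz1.2⟩, ?_⟩, z2, ⟨hz2.1.1, hz2.2⟩, ?_⟩
      · have := hz1.1.2 (mem_iUnion.2 ⟨j, hz1.2⟩)
        rw [this]; exact h1
      · have := hz2.1.2 (mem_iUnion.2 ⟨j, hz2.2⟩)
        rw [this]; exact h2
    have hcl := mem_closure_of_not_extremum K (u := fun z => bg A0 (h'.toFun z))
      ((continuous_bg hA0g).comp_continuousOn h'.cont) hjc hx.1 hext
    have hsubΩ : (K.cell c \ cbd K c) ∩ {z | bg A0 (h'.toFun z) = t0} ⊆ Ω := fun z hz =>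
      cell_subset K c hz.1.1
    have hxΩ : x ∈ Ω := cx2_subset K (mem_iUnion.2 ⟨j, hx.1⟩)
    have h6 := ((h'.cont x hxΩ).mono hsubΩ).mem_closure_image hcl
    refine closure_mono ?_ h6
    rintro _ ⟨z, ⟨hz1, hz2⟩, rfl⟩
    refine ⟨mem_image_of_mem _ ⟨hz1.1, ?_⟩, (hfr _).2 hz2⟩
    exact cell_diff_cx2 K hz1
  · have he := hkt j hj
    exact (hstill.tile j (fun s hs => by rw [he.image_eq]; exact hj0 s hs) hx).trans (he hx)
  · have he := hkc c hc
    exact (hstill.cell c (fun s hs => by rw [he.image_eq]; exact hc0 s hs) hx).trans (he hx)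

end P073.H244
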