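import Vale.Agent.P073.H579.ActT

/-!
# P073, H244: **[RT-GIV]**, the numbers of an edge of a given cell

The given map `f` is the map of `[PASS-SIGN]`: over a crossing point `z` the fibre is the piece
`|s| ≤ 1/2` of the fibre `Γ z s`, `|s| ≤ 1`, of the old map `h` (half width `η`), and `f` is linear
in `s` there.  The numbers are controlled by the Lipschitz constant of `h` on the edge.
-/

open Set Metric Topology Filter

namespace P073.H244

open P073 P073.TR P073.H236 P073.H579 P073.H345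
open Vale.Agent.P073.St (V)

/-- a parameter of the line through `a` and `b` -/
theorem exists_par {a b : V} (hab : a ≠ b) : ∃ p : V → ℝ, Continuous p ∧
    (∀ t : ℝ, p (AffineMap.lineMap a b t) = t) ∧
    ∀ x ∈ segment ℝ a b, (AffineMap.lineMap a b (p x) : V) = x ∧ p x ∈ Icc (0:ℝ) 1 := by
  obtain ⟨i, hi⟩ : ∃ i, a i ≠ b i := by
    by_contra hcon
    push Not at hcon
    exact hab (funext hcon)
  have hi' : b i - a i ≠ 0 := sub_ne_zero.2 (Ne.symm hi)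
  have key : ∀ t : ℝ, ((AffineMap.lineMap a b t : V) i - a i) / (b i - a i) = t := by
    intro t
    rw [div_eq_iff hi']
    simp only [AffineMap.lineMap_apply, vsub_eq_sub, vadd_eq_add, Pi.add_apply, Pi.smul_apply,
      Pi.sub_apply, smul_eq_mul]
    ring
  refine ⟨fun x => (x i - a i) / (b i - a i), by fun_prop, key, fun x hx => ?_⟩
  rw [segment_eq_image_lineMap] at hx
  obtain ⟨t, ht, rfl⟩ := hx
  simp only [key t]
  exact ⟨trivial, ht⟩

/-- the fibre through a crossing point, as an interval of the edge -/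
theorem exists_arc {a b : V} (hab : a ≠ b) {G : ℝ → V} {j : Fin 3} {h : V → V} {η t₀ : ℝ}
    (hη : 0 < η) (hc : ContinuousOn G (Icc (-1) 1))
    (hseg : ∀ s ∈ Icc (-1:ℝ) 1, G s ∈ segment ℝ a b) (hna : ∀ s ∈ Icc (-1:ℝ) 1, G s ≠ a)
    (hnb : ∀ s ∈ Icc (-1:ℝ) 1, G s ≠ b)
    (hlev : ∀ s ∈ Icc (-1:ℝ) 1, h (G s) j = t₀ + η * s) :
    ∃ (σ : ℝ) (τ : ℝ → ℝ), (σ = 1 ∨ σ = -1) ∧ StrictMonoOn τ (Icc (-1) 1) ∧
      ContinuousOn τ (Icc (-1) 1) ∧
      (∀ s ∈ Icc (-1:ℝ) 1, (AffineMap.lineMap a b (τ s) : V) = G (σ * s)) ∧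
      0 < τ (-1) ∧ τ 1 < 1 := by
  obtain ⟨p, hp, hp1, hp2⟩ := exists_par hab
  have hpc : ContinuousOn (fun s => p (G s)) (Icc (-1) 1) := hp.comp_continuousOn hc
  have hGinj : InjOn G (Icc (-1) 1) := by
    intro s hs s' hs' he
    have h1 := hlev s hs
    rw [he, hlev s' hs'] at h1
    have h2 : η * s' = η * s := by linarith
    exact (mul_left_cancel₀ hη.ne' h2).symm
  have hpinj : InjOn (fun s => p (G s)) (Icc (-1) 1) := by
    intro s hs s' hs' he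
    refine hGinj hs hs' ?_
    rw [← (hp2 _ (hseg s hs)).1, ← (hp2 _ (hseg s' hs')).1]
    simp only at he
    rw [he]
  have hpos : ∀ s ∈ Icc (-1:ℝ) 1, 0 < p (G s) ∧ p (G s) < 1 := by
    intro s hs
    obtain ⟨h1, h2⟩ := hp2 _ (hseg s hs)
    refine ⟨lt_of_le_of_ne h2.1 fun h0 => hna s hs ?_, lt_of_le_of_ne h2.2 fun h0 => hnb s hs ?_⟩
    · rw [← h1, ← h0, AffineMap.lineMap_apply_zero]
    · rw [← h1, h0, AffineMap.lineMap_apply_one]
  rcases hpc.strictMonoOn_of_injOn_Icc' (by norm_num) hpinj with hm | hm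
  · refine ⟨1, fun s => p (G s), Or.inl rfl, hm, hpc, fun s hs => ?_, (hpos _ (by norm_num)).1,
      (hpos _ (by norm_num)).2⟩
    rw [one_mul]
    exact (hp2 _ (hseg s hs)).1
  · have hneg : MapsTo (fun s : ℝ => -s) (Icc (-1) 1) (Icc (-1) 1) := fun s hs =>
      ⟨by linarith [hs.2], by linarith [hs.1]⟩
    refine ⟨-1, fun s => p (G (-s)), Or.inr rfl, fun s hs s' hs' hss => ?_,
      hpc.comp continuous_neg.continuousOn hneg, fun s hs => ?_, ?_, ?_⟩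
    · exact hm (hneg hs') (hneg hs) (neg_lt_neg hss)
    · rw [neg_one_mul]
      exact (hp2 _ (hseg _ (hneg hs))).1
    · exact (hpos _ (by norm_num)).1
    · exact (hpos _ (by norm_num)).2

/-- **the numbers of an edge of a given cell** -/
theorem edgeNum_pass {Ω Λ : Set V} {a b : V} (hab : a ≠ b) (B : BX 3) {κ : V → V}
    {h' : ConHomeo Ω Λ} {h f γ : V → V} (hsub : segment ℝ a b ⊆ Ω)
    (Z : Zone κ Λ h' (kQ B) (segment ℝ a b))
    (hf : ∀ x ∈ segment ℝ a b, f x ∈ Λ) (hγ : MapsTo γ (segment ℝ a b) (segment ℝ a b))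
    (hκ : ∀ x ∈ segment ℝ a b, κ (f x) = h'.toFun (γ x)) {η Lip La : ℝ} (hη : 0 < η)
    (G : V → ℝ → V)
    (hc : ∀ z, CrsPt a b h'.toFun (LQ B) z → ContinuousOn (G z) (Icc (-1) 1))
    (hseg : ∀ z, CrsPt a b h'.toFun (LQ B) z → ∀ s ∈ Icc (-1:ℝ) 1, G z s ∈ segment ℝ a b)
    (hna : ∀ z, CrsPt a b h'.toFun (LQ B) z → ∀ s ∈ Icc (-1:ℝ) 1, G z s ≠ a)
    (hnb : ∀ z, CrsPt a b h'.toFun (LQ B) z → ∀ s ∈ Icc (-1:ℝ) 1, G z s ≠ b)
    (hlev : ∀ z, CrsPt a b h'.toFun (LQ B) z → ∀ s ∈ Icc (-1:ℝ) 1,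
      h (G z s) B.j = h'.toFun z B.j + η * s)
    (hdis : ∀ z z', CrsPt a b h'.toFun (LQ B) z → CrsPt a b h'.toFun (LQ B) z' → z ≠ z' →
      ∀ s ∈ Icc (-1:ℝ) 1, ∀ s' ∈ Icc (-1:ℝ) 1, G z s ≠ G z' s')
    (hfib : ∀ z, CrsPt a b h'.toFun (LQ B) z → ∀ x ∈ segment ℝ a b,
      (γ x = z ↔ ∃ s : ℝ, |s| ≤ 1 / 2 ∧ G z s = x))
    (hflat : ∀ z, CrsPt a b h'.toFun (LQ B) z → ∀ s : ℝ, |s| ≤ 1 / 2 →
      f (G z s) B.j = h'.toFun z B.j + 2 * B.c * s)
    (hLip : ∀ x ∈ segment ℝ a b, ∀ y ∈ segment ℝ a b, |h x B.j - h y B.j| ≤ Lip * ‖x - y‖)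
    (hLa : 2 * stp B.N B.al B.be * Lip ≤ La * η) :
    ∃ s1 s2 s3 s4 : V → ℝ, EdgeNum a b h'.toFun (kQ B) (LQ B) (loQ B) (hiQ B) (omQ B) La f
      s1 s2 s3 s4 := by
  classical
  have hbn : 0 < ‖b - a‖ := norm_pos_iff.2 (sub_ne_zero.2 hab.symm)
  have hLn : ∀ s s' : ℝ, ‖(AffineMap.lineMap a b s : V) - AffineMap.lineMap a b s'‖ =
      ‖b - a‖ * |s - s'| := by
    intro s s'
    rw [← dist_eq_norm, dist_lineMap_lineMap, Real.dist_eq, dist_eq_norm, norm_sub_rev a b,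
      mul_comm]
  have hinjL : ∀ s s' : ℝ, (AffineMap.lineMap a b s : V) = AffineMap.lineMap a b s' → s = s' := by
    intro s s' he
    have h1 := hLn s s'
    rw [he, sub_self, norm_zero] at h1
    have h2 : |s - s'| = 0 := by
      rcases mul_eq_zero.1 h1.symm with h | h
      · exact absurd h hbn.ne'
      · exact h
    exact sub_eq_zero.1 (abs_eq_zero.1 h2)
  have hex : ∀ z, ∃ (σ : ℝ) (τ : ℝ → ℝ), CrsPt a b h'.toFun (LQ B) z →
      (σ = 1 ∨ σ = -1) ∧ StrictMonoOn τ (Icc (-1) 1) ∧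
      ContinuousOn τ (Icc (-1) 1) ∧
      (∀ s ∈ Icc (-1:ℝ) 1, (AffineMap.lineMap a b (τ s) : V) = G z (σ * s)) ∧
      0 < τ (-1) ∧ τ 1 < 1 := by
    intro z
    by_cases hz : CrsPt a b h'.toFun (LQ B) z
    · obtain ⟨σ, τ, H⟩ := exists_arc hab hη (hc z hz) (hseg z hz) (hna z hz) (hnb z hz)
        (hlev z hz)
      exact ⟨σ, τ, fun _ => H⟩
    · exact ⟨0, fun _ => 0, fun h => absurd h hz⟩
  choose σ τ H using hex
  have m1 : (-1:ℝ) ∈ Icc (-1:ℝ) 1 := by norm_num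
  have m2 : (-(1/2):ℝ) ∈ Icc (-1:ℝ) 1 := by norm_num
  have m3 : ((1/2):ℝ) ∈ Icc (-1:ℝ) 1 := by norm_num
  have m4 : (1:ℝ) ∈ Icc (-1:ℝ) 1 := by norm_num
  -- intermediate values
  have ivt : ∀ z, CrsPt a b h'.toFun (LQ B) z → ∀ s₁ ∈ Icc (-1:ℝ) 1, ∀ s₂ ∈ Icc (-1:ℝ) 1,
      s₁ ≤ s₂ → ∀ t ∈ Icc (τ z s₁) (τ z s₂), ∃ s ∈ Icc s₁ s₂, τ z s = t := by
    intro z hz s₁ h1 s₂ h2 h12 t ht
    have hsub : Icc s₁ s₂ ⊆ Icc (-1:ℝ) 1 := Icc_subset_Icc h1.1 h2.2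
    exact intermediate_value_Icc h12 ((H z hz).2.2.1.mono hsub) ht
  have hσabs : ∀ z, CrsPt a b h'.toFun (LQ B) z → ∀ s, |σ z * s| = |s| := by
    intro z hz s
    rcases (H z hz).1 with h1 | h1 <;> rw [h1, abs_mul] <;> norm_num
  have hσmem : ∀ z, CrsPt a b h'.toFun (LQ B) z → ∀ s ∈ Icc (-1:ℝ) 1,
      σ z * s ∈ Icc (-1:ℝ) 1 := by
    intro z hz s hs
    have h1 := hσabs z hz s
    have h2 : |s| ≤ 1 := abs_le.2 hs
    exact abs_le.1 (h1.trans_le h2)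
  -- the parameters of the pieces
  have hpiece : ∀ z, CrsPt a b h'.toFun (LQ B) z → ∀ s ∈ Icc (-1:ℝ) 1, ∀ s' ∈ Icc (-1:ℝ) 1,
      η * |s - s'| ≤ Lip * (‖b - a‖ * |τ z s - τ z s'|) := by
    intro z hz s hs s' hs'
    have h1 := hLip _ (hseg z hz _ (hσmem z hz s hs)) _ (hseg z hz _ (hσmem z hz s' hs'))
    rw [hlev z hz _ (hσmem z hz s hs), hlev z hz _ (hσmem z hz s' hs'),
      ← (H z hz).2.2.2.1 s hs, ← (H z hz).2.2.2.1 s' hs', hLn] at h1
    have h2 : h'.toFun z B.j + η * (σ z * s) - (h'.toFun z B.j + η * (σ z * s')) =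
        η * (σ z * (s - s')) := by ring
    rw [h2, abs_mul, abs_of_pos hη, hσabs z hz] at h1
    exact h1
  have hom : 0 < stp B.N B.al B.be := stp_pos B
  -- the free pieces
  have hfree : ∀ z, CrsPt a b h'.toFun (LQ B) z → ∀ s ∈ Icc (-1:ℝ) 1, ∀ s' ∈ Icc (-1:ℝ) 1,
      s' - s = 1 / 2 → stp B.N B.al B.be ≤ La * ‖b - a‖ * (τ z s' - τ z s) := by
    intro z hz s hs s' hs' hss
    have h1 := hpiece z hz s' hs' s hs
    have h2 : τ z s < τ z s' := (H z hz).2.1 hs hs' (by linarith)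
    rw [abs_of_pos (sub_pos.2 h2), abs_of_pos (by linarith : 0 < s' - s), hss] at h1
    have h3 : 0 ≤ ‖b - a‖ * (τ z s' - τ z s) := mul_nonneg hbn.le (by linarith)
    have h4 : 2 * stp B.N B.al B.be * Lip * (‖b - a‖ * (τ z s' - τ z s)) ≤
        La * η * (‖b - a‖ * (τ z s' - τ z s)) := mul_le_mul_of_nonneg_right hLa h3
    have h5 : 2 * stp B.N B.al B.be * (η * (1 / 2)) ≤
        2 * stp B.N B.al B.be * (Lip * (‖b - a‖ * (τ z s' - τ z s))) :=
      mul_le_mul_of_nonneg_left h1 (by linarith)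
    have h6 : η * stp B.N B.al B.be ≤ η * (La * ‖b - a‖ * (τ z s' - τ z s)) := by nlinarith
    exact le_of_mul_le_mul_left h6 hη
  have hcrs : ∀ x ∈ segment ℝ a b, ∀ j, h'.toFun x j ∈ LQ B j →
      CrsPt a b h'.toFun (LQ B) x ∧ j = B.j := fun x hx j hj => ⟨⟨hx, j, hj⟩, (mem_LQ.1 hj).1⟩
  refine ⟨fun z => τ z (-1), fun z => τ z (-(1/2)), fun z => τ z (1/2), fun z => τ z 1,
    fun z hz => (H z hz).2.2.2.2.1, fun z hz => (H z hz).2.1 m1 m2 (by norm_num),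
    fun z hz => (H z hz).2.1 m2 m3 (by norm_num), fun z hz => (H z hz).2.1 m3 m4 (by norm_num),
    fun z hz => (H z hz).2.2.2.2.2, ?_, ?_, ?_, ?_, ?_⟩
  · -- disjoint
    intro x y hx hy hxy
    by_contra hcon
    push Not at hcon
    obtain ⟨h1, h2⟩ := hcon
    have h3 : τ x (-1) < τ x 1 := (H x hx).2.1 m1 m4 (by norm_num)
    have h4 : τ y (-1) < τ y 1 := (H y hy).2.1 m1 m4 (by norm_num)
    obtain ⟨s, hs, hs'⟩ := ivt x hx _ m1 _ m4 (by norm_num) (max (τ x (-1)) (τ y (-1)))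
      ⟨le_max_left _ _, max_le h3.le h1.le⟩
    obtain ⟨s', hs1, hs2⟩ := ivt y hy _ m1 _ m4 (by norm_num) (max (τ x (-1)) (τ y (-1)))
      ⟨le_max_right _ _, max_le h2.le h4.le⟩
    refine hdis x y hx hy hxy _ (hσmem x hx s hs) _ (hσmem y hy s' hs1) ?_
    rw [← (H x hx).2.2.2.1 s hs, ← (H y hy).2.2.2.1 s' hs1, hs', hs2]
  · -- fibres
    intro z hz s hs
    have hx : (AffineMap.lineMap a b s : V) ∈ segment ℝ a b := lineMap_mem hs
    have h1 : prodK (kQ B) (f (AffineMap.lineMap a b s)) = h'.toFun z ↔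
        γ (AffineMap.lineMap a b s) = z := by
      constructor
      · intro h2
        have h3 := (Z.z1 (f (AffineMap.lineMap a b s)) (by rw [h2]; exact ⟨z, hz.1, rfl⟩)).2
        rw [h2, hκ _ hx] at h3
        exact h'.injOn (hsub (hγ hx)) (hsub hz.1) h3
      · intro h2
        have h3 := hκ _ hx
        rw [h2] at h3
        rw [← Z.z2 _ (hf _ hx) (by rw [h3]; exact ⟨z, hz.1, rfl⟩), h3]
    rw [h1, hfib z hz _ hx]
    constructor
    · rintro ⟨s', hs', he⟩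
      obtain ⟨c1, c2⟩ := abs_le.1 hs'
      have hm : s' ∈ Icc (-1:ℝ) 1 := ⟨by linarith, by linarith⟩
      have hm' := hσmem z hz s' hm
      have hσσ : σ z * (σ z * s') = s' := by
        rcases (H z hz).1 with h | h <;> rw [h] <;> ring
      have h2 := (H z hz).2.2.2.1 _ hm'
      rw [hσσ, he] at h2
      have h3 := hinjL _ _ h2
      have h4 : |σ z * s'| ≤ 1 / 2 := (hσabs z hz s').trans_le hs'
      obtain ⟨c3, c4⟩ := abs_le.1 h4
      rw [← h3]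
      exact ⟨(H z hz).2.1.monotoneOn m2 hm' (by linarith),
        (H z hz).2.1.monotoneOn hm' m3 (by linarith)⟩
    · rintro ⟨c1, c2⟩
      obtain ⟨s', hs', he⟩ := ivt z hz _ m2 _ m3 (by norm_num) s ⟨c1, c2⟩
      have hm : s' ∈ Icc (-1:ℝ) 1 := ⟨by linarith [hs'.1], by linarith [hs'.2]⟩
      refine ⟨σ z * s', ?_, ?_⟩
      · rw [hσabs z hz]
        exact abs_le.2 ⟨by linarith [hs'.1], hs'.2⟩
      · rw [← (H z hz).2.2.2.1 s' hm, he]
  · intro x hx j hj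
    obtain ⟨h1, -⟩ := hcrs x hx j hj
    exact hfree x h1 _ m1 _ m2 (by norm_num)
  · intro x hx j hj
    obtain ⟨h1, -⟩ := hcrs x hx j hj
    exact hfree x h1 _ m3 _ m4 (by norm_num)
  · intro x hx j hj s hs s' hs'
    obtain ⟨hz, rfl⟩ := hcrs x hx j hj
    obtain ⟨t, ht, hts⟩ := ivt x hz _ m2 _ m3 (by norm_num) s hs
    obtain ⟨t', ht', hts'⟩ := ivt x hz _ m2 _ m3 (by norm_num) s' hs'
    have hm : t ∈ Icc (-1:ℝ) 1 := ⟨by linarith [ht.1], by linarith [ht.2]⟩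
    have hm' : t' ∈ Icc (-1:ℝ) 1 := ⟨by linarith [ht'.1], by linarith [ht'.2]⟩
    have e1 := hflat x hz (σ x * t) (by rw [hσabs x hz]; exact abs_le.2 ⟨by linarith [ht.1], ht.2⟩)
    have e2 := hflat x hz (σ x * t')
      (by rw [hσabs x hz]; exact abs_le.2 ⟨by linarith [ht'.1], ht'.2⟩)
    rw [← (H x hz).2.2.2.1 t hm, hts] at e1
    rw [← (H x hz).2.2.2.1 t' hm', hts'] at e2
    rw [e1, e2, hiQ_sub_loQ]
    have hc0 := B.lvs.c0
    have h2 : h'.toFun x B.j + 2 * B.c * (σ x * t) - (h'.toFun x B.j + 2 * B.c * (σ x * t')) =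
        2 * B.c * (σ x * (t - t')) := by ring
    rw [h2, abs_mul, abs_of_pos (by linarith : 0 < 2 * B.c), hσabs x hz]
    have h3 := hpiece x hz t hm t' hm'
    rw [hts, hts'] at h3
    have h4 : 0 ≤ ‖b - a‖ * |s - s'| := mul_nonneg hbn.le (abs_nonneg _)
    have hLip0 : 0 ≤ Lip := by
      have h5 := hLip a (left_mem_segment ℝ a b) b (right_mem_segment ℝ a b)
      have h6 : 0 ≤ Lip * ‖a - b‖ := (abs_nonneg _).trans h5
      rw [norm_sub_rev] at h6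
      exact nonneg_of_mul_nonneg_left h6 hbn
    show omQ B B.j (h'.toFun x B.j) * (2 * B.c * |t - t'|) ≤ 2 * B.c * (La * ‖b - a‖ * |s - s'|)
    have h7 : omQ B B.j (h'.toFun x B.j) = stp B.N B.al B.be := rfl
    rw [h7]
    have h8 : stp B.N B.al B.be * |t - t'| ≤ La * ‖b - a‖ * |s - s'| := by
      have h9 : stp B.N B.al B.be * (η * |t - t'|) ≤
          stp B.N B.al B.be * (Lip * (‖b - a‖ * |s - s'|)) := mul_le_mul_of_nonneg_left h3 hom.le
      have h10 : 2 * stp B.N B.al B.be * Lip * (‖b - a‖ * |s - s'|) ≤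
          La * η * (‖b - a‖ * |s - s'|) := mul_le_mul_of_nonneg_right hLa h4
      have h11 : 0 ≤ stp B.N B.al B.be * Lip * (‖b - a‖ * |s - s'|) := by positivity
      have h12 : η * (stp B.N B.al B.be * |t - t'|) ≤ η * (La * ‖b - a‖ * |s - s'|) := by
        nlinarith
      exact le_of_mul_le_mul_left h12 hη
    nlinarith

end P073.H244
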