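import Vale.Agent.P073.H244.EdgePass
import Vale.Agent.P073.H345.Stage2

/-!
# P073, H244: **[RT-GIV]**, the field `good` of `Giv`

`PassJ`: the map of `[PASS-SIGN]` on one given cell, with product charts `Γ g m` of the old map `h`
(half width `η g`) over the levels of the new map `h'`.  `PassJ.good`: the numbers of the edges.
-/

open Set Metric Topology Filter

namespace P073.H244

open P073 P073.TR P073.H236 P073.H579 P073.H345
open Vale.Agent.P073.St (V)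
open Vale.Agent.P073.H73 (Mesh)
open Vale.Agent.P073.H193 (Edges)

variable {γ : Type*} {Ω Λ : Set V}

/-- `z` is a point of the level `m` of the box `g`, in the given cell `Q` -/
def LvPt (h' : V → V) (B : γ → BX 3) (W : γ → Set V) (Q : Set V) (g : γ) (m : ℕ) (z : V) : Prop :=
  m < (B g).N ∧ z ∈ Q ∧ h' z (B g).j = (B g).a m ∧ h' z ∈ W g

/-- the thickness is full -/
theorem mu_full (B : BX 3) {y : V} (hy : B.Full y) : mu B y = B.c := bmp_full B.hr hy

/-- the map `f` of `[PASS-SIGN]` on one given cell `Q`, and the collapse `γ'` -/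
structure PassJ (M : Mesh Ω) (E : Edges M) (h h' : ConHomeo Ω Λ) (B : γ → BX 3)
    (W R : γ → Set V) (η : γ → ℝ) (Γ : γ → ℕ → V × ℝ → V) (κ : V → V) (Q : Set V)
    (f γ' : V → V) : Prop where
  sub : Q ⊆ Ω
  mem : ∀ x ∈ Q, f x ∈ Λ
  maps : MapsTo γ' Q Q
  eq : ∀ x ∈ Q, κ (f x) = h'.toFun (γ' x)
  seg : ∀ e, ∀ x ∈ Q, (γ' x ∈ E.seg e ↔ x ∈ E.seg e)
  KW : ∀ g, ∀ y ∈ (B g).K, (B g).al < y (B g).j → y (B g).j < (B g).be → y ∈ W g
  dis : ∀ g g', g ≠ g' → Disjoint (R g) (R g')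
  osc : ∀ g m z, LvPt h'.toFun B W Q g m z → ∀ s ∈ Icc (-1:ℝ) 1, h'.toFun (Γ g m (z, s)) ∈ R g
  keep : ∀ g m z, LvPt h'.toFun B W Q g m z → h'.toFun z (B g).j = h.toFun z (B g).j
  pos : ∀ g, 0 < η g
  band : ∀ g, ∀ m < (B g).N, ∀ m' < (B g).N, m ≠ m' → ∀ t, |t - (B g).a m| ≤ η g →
    ¬ |t - (B g).a m'| ≤ η g
  cont : ∀ g m z, LvPt h'.toFun B W Q g m z → ContinuousOn (fun s => Γ g m (z, s)) (Icc (-1) 1)
  zero : ∀ g m z, LvPt h'.toFun B W Q g m z → Γ g m (z, 0) = z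
  lev : ∀ g m z, LvPt h'.toFun B W Q g m z → ∀ s ∈ Icc (-1:ℝ) 1,
    h.toFun (Γ g m (z, s)) (B g).j = (B g).a m + η g * s
  inj : ∀ g m z, LvPt h'.toFun B W Q g m z → ∀ z', LvPt h'.toFun B W Q g m z' →
    ∀ s ∈ Icc (-1:ℝ) 1, ∀ s' ∈ Icc (-1:ℝ) 1, Γ g m (z, s) = Γ g m (z', s') → z = z' ∧ s = s'
  iseg : ∀ g m z, LvPt h'.toFun B W Q g m z → ∀ s ∈ Icc (-1:ℝ) 1, ∀ e,
    (Γ g m (z, s) ∈ E.seg e ↔ z ∈ E.seg e)
  ivert : ∀ g m z, LvPt h'.toFun B W Q g m z → ∀ s ∈ Icc (-1:ℝ) 1, ∀ x ∈ E.verts,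
    (Γ g m (z, s) = x ↔ z = x)
  chart : ∀ g m z, LvPt h'.toFun B W Q g m z → ∀ s ∈ Icc (-1:ℝ) 1,
    γ' (Γ g m (z, s)) = Γ g m (z, ph 1 (mu (B g) (h'.toFun z) / (2 * (B g).c)) s)
  off : ∀ x ∈ Q, (∀ g m z, LvPt h'.toFun B W Q g m z → ∀ s ∈ Icc (-1:ℝ) 1, Γ g m (z, s) ≠ x) →
    γ' x = x
  flat : ∀ g m z, LvPt h'.toFun B W Q g m z → ∀ s ∈ Icc (-1:ℝ) 1,
    |s| ≤ mu (B g) (h'.toFun z) / (2 * (B g).c) →
    f (Γ g m (z, s)) = Function.update (h'.toFun z) (B g).j ((B g).a m + 2 * (B g).c * s)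

variable {M : Mesh Ω} {E : Edges M} {h h' : ConHomeo Ω Λ} {B : γ → BX 3} {W R : γ → Set V}
  {η : γ → ℝ} {Γ : γ → ℕ → V × ℝ → V} {κ : V → V} {Q : Set V} {f γ' : V → V}

/-- **the numbers of the edges of a given cell** -/
theorem PassJ.edgeNum (P : PassJ M E h h' B W R η Γ κ Q f γ') (H : H345.Fam Λ B)
    (hκ : IsQ B κ) (hreg : RegB M E h' B) {e : E.ε} (he : E.seg e ⊆ Q) {g : γ}
    (hB : InB (B g) (h'.toFun '' E.seg e)) {Lip La : ℝ}
    (hLip : ∀ x ∈ E.seg e, ∀ y ∈ E.seg e,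
      |h.toFun x (B g).j - h.toFun y (B g).j| ≤ Lip * ‖x - y‖)
    (hLa : 2 * stp (B g).N (B g).al (B g).be * Lip ≤ La * η g) :
    ∃ s1 s2 s3 s4 : V → ℝ, EdgeNum (E.a e) (E.b e) h'.toFun (kQ (B g)) (LQ (B g)) (loQ (B g))
      (hiQ (B g)) (omQ (B g)) La f s1 s2 s3 s4 := by
  classical
  have hc0 := (B g).lvs.c0
  -- the level of a crossing point
  have hcr : ∀ z, CrsPt (E.a e) (E.b e) h'.toFun (LQ (B g)) z →
      ∃ m, LvPt h'.toFun B W Q g m z := by
    rintro z ⟨hz, i, hi⟩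
    obtain ⟨rfl, m, hm, hma⟩ := mem_LQ.1 hi
    have e0 := (B g).lvs.c0
    have e1 := (B g).lvs.first_le hm
    have e2 := (B g).lvs.le_last hm
    exact ⟨m, hm, he hz, hma.symm, P.KW g _ (hB _ ⟨z, hz, rfl⟩).1 (by rw [← hma]; linarith)
      (by rw [← hma]; linarith)⟩
  have hex : ∀ z, ∃ m, CrsPt (E.a e) (E.b e) h'.toFun (LQ (B g)) z →
      LvPt h'.toFun B W Q g m z := by
    intro z
    by_cases hz : CrsPt (E.a e) (E.b e) h'.toFun (LQ (B g)) z
    · obtain ⟨m, hm⟩ := hcr z hz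
      exact ⟨m, fun _ => hm⟩
    · exact ⟨0, fun h => absurd h hz⟩
  choose lv hlv using hex
  have hfull : ∀ z, CrsPt (E.a e) (E.b e) h'.toFun (LQ (B g)) z →
      mu (B g) (h'.toFun z) / (2 * (B g).c) = 1 / 2 := by
    intro z hz
    rw [mu_full (B g) (hB _ ⟨z, hz.1, rfl⟩).2]
    field_simp
  have hhalf : ∀ s : ℝ, |s| ≤ 1 / 2 → s ∈ Icc (-1:ℝ) 1 := fun s hs => by
    obtain ⟨h1, h2⟩ := abs_le.1 hs
    exact ⟨by linarith, by linarith⟩
  have hvert : ∀ x ∈ E.verts, ∀ z, CrsPt (E.a e) (E.b e) h'.toFun (LQ (B g)) z →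
      ∀ s ∈ Icc (-1:ℝ) 1, Γ g (lv z) (z, s) ≠ x := by
    intro x hx z hz s hs hsx
    have h1 := (P.ivert g _ z (hlv z hz) s hs x hx).1 hsx
    subst h1
    exact hreg.vert hx (hB _ ⟨z, hz.1, rfl⟩).1 (hlv z hz).1 (hlv z hz).2.2.1
  have hav : E.a e ∈ E.verts := Or.inl ⟨e, rfl⟩
  have hbv : E.b e ∈ E.verts := Or.inr ⟨e, rfl⟩
  refine edgeNum_pass (a := E.a e) (b := E.b e) (E.ne e) (B g) (κ := κ) (h' := h')
    (h := h.toFun) (f := f) (γ := γ') (he.trans P.sub) (zone_of_isQ H hκ hB)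
    (fun x hx => P.mem x (he hx)) (fun x hx => (P.seg e x (he hx)).2 hx)
    (fun x hx => P.eq x (he hx)) (P.pos g) (fun z s => Γ g (lv z) (z, s))
    (fun z hz => P.cont g _ z (hlv z hz))
    (fun z hz s hs => (P.iseg g _ z (hlv z hz) s hs e).2 hz.1)
    (fun z hz s hs => hvert _ hav z hz s hs) (fun z hz s hs => hvert _ hbv z hz s hs)
    (fun z hz s hs => ?_) ?_ ?_ (fun z hz s hs => ?_) hLip hLa
  · show h.toFun (Γ g (lv z) (z, s)) (B g).j = _
    rw [P.lev g _ z (hlv z hz) s hs, (hlv z hz).2.2.1]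
  · -- disjoint
    intro z z' hz hz' hne s hs s' hs' heq
    by_cases hm : lv z = lv z'
    · have h1 := P.inj g _ z (hlv z hz) z' (hm ▸ hlv z' hz') s hs s' hs' (by rw [heq, hm])
      exact hne h1.1
    · have h1 := P.lev g _ z (hlv z hz) s hs
      have h2 := P.lev g _ z' (hlv z' hz') s' hs'
      refine P.band g _ (hlv z hz).1 _ (hlv z' hz').1 hm (h.toFun (Γ g (lv z) (z, s)) (B g).j)
        ?_ ?_
      · rw [h1, add_sub_cancel_left, abs_mul, abs_of_pos (P.pos g)]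
        exact mul_le_of_le_one_right (P.pos g).le (abs_le.2 hs)
      · rw [heq, h2, add_sub_cancel_left, abs_mul, abs_of_pos (P.pos g)]
        exact mul_le_of_le_one_right (P.pos g).le (abs_le.2 hs')
  · -- the fibre
    intro z hz x hx
    constructor
    · intro hzx
      by_cases hcase : ∀ g' m' z', LvPt h'.toFun B W Q g' m' z' → ∀ s ∈ Icc (-1:ℝ) 1,
          Γ g' m' (z', s) ≠ x
      · have h1 := P.off x (he hx) hcase
        rw [h1] at hzx
        subst hzx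
        exact absurd (P.zero g _ x (hlv x hz)) (hcase g _ x (hlv x hz) 0 (by norm_num))
      · push Not at hcase
        obtain ⟨g', m', z', hz', s, hs, rfl⟩ := hcase
        rw [P.chart g' m' z' hz' s hs] at hzx
        set s₂ := ph 1 (mu (B g') (h'.toFun z') / (2 * (B g').c)) s with hs₂
        have hmem : s₂ ∈ Icc (-1:ℝ) 1 := by
          have h1 : |s₂| ≤ |s| := abs_ph_le
          exact abs_le.1 (h1.trans (abs_le.2 hs))
        -- the same box
        have hgg : g' = g := by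
          by_contra hne
          have h1 := P.osc g' m' z' hz' s₂ hmem
          have h2 := P.osc g _ z (hlv z hz) 0 (by norm_num)
          rw [hzx] at h1
          rw [P.zero g _ z (hlv z hz)] at h2
          exact Set.disjoint_left.1 (P.dis g' g hne) h1 h2
        subst hgg
        -- the same level
        have hmm : m' = lv z := by
          by_contra hne
          refine P.band g' m' hz'.1 _ (hlv z hz).1 hne (h.toFun z (B g').j) ?_ ?_
          · rw [← hzx, P.lev g' m' z' hz' s₂ hmem, add_sub_cancel_left, abs_mul,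
              abs_of_pos (P.pos g')]
            exact mul_le_of_le_one_right (P.pos g').le (abs_le.2 hmem)
          · rw [← P.keep g' _ z (hlv z hz), (hlv z hz).2.2.1, sub_self, abs_zero]
            exact (P.pos g').le
        subst hmm
        obtain ⟨h3, h4⟩ := P.inj g' _ z' hz' z (hlv z hz) s₂ hmem 0 (by norm_num)
          (by rw [hzx, P.zero g' _ z (hlv z hz)])
        subst h3
        refine ⟨s, ?_, rfl⟩
        rw [hs₂, hfull z' hz] at h4
        exact (ph_zero_iff (by norm_num) (by norm_num)).1 h4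
    · rintro ⟨s, hs, rfl⟩
      rw [P.chart g _ z (hlv z hz) s (hhalf s hs), hfull z hz,
        (ph_zero_iff (by norm_num) (by norm_num)).2 hs, P.zero g _ z (hlv z hz)]
  · show f (Γ g (lv z) (z, s)) (B g).j = _
    rw [P.flat g _ z (hlv z hz) s (hhalf s hs) (by rw [hfull z hz]; exact hs),
      Function.update_self, (hlv z hz).2.2.1]

/-- **the field `good` of `Giv`** for one given cell -/
theorem PassJ.good (P : PassJ M E h h' B W R η Γ κ Q f γ') (H : H345.Fam Λ B)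
    (hκ : IsQ B κ) (hreg : RegB M E h' B) {Ac : γ → M.κ → Prop}
    (hAc : ∀ g k, Ac g k → FAct M h' B g k) {We Lip : E.ε → ℝ}
    {e : E.ε} (he : E.seg e ⊆ Q)
    (hLip : ∀ x ∈ E.seg e, ∀ y ∈ E.seg e, ‖h.toFun x - h.toFun y‖ ≤ Lip e * ‖x - y‖)
    (hWe : ∀ g, EAct E Ac g e → stp (B g).N (B g).al (B g).be * Lip e * ‖E.b e - E.a e‖ ≤
      4 * We e * η g) :
    GEd E h' B Ac We e f := by
  rintro g ⟨k, hk, hek⟩
  have hne : 0 < ‖E.b e - E.a e‖ := norm_pos_iff.2 (sub_ne_zero.2 (E.ne e).symm)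
  refine P.edgeNum H hκ hreg he ((hAc g k hk).1.mono (image_mono hek)) (Lip := Lip e)
    (fun x hx y hy => ?_) ?_
  · refine le_trans ?_ (hLip x hx y hy)
    have := norm_le_pi_norm (h.toFun x - h.toFun y) (B g).j
    rwa [Pi.sub_apply, Real.norm_eq_abs] at this
  · have h1 := hWe g ⟨k, hk, hek⟩
    unfold laE
    rw [div_mul_eq_mul_div, le_div_iff₀ hne]
    linarith

end P073.H244
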