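import Vale.Agent.P073.H244.GivPt2
import Vale.Agent.P073.H236.SA4
import Vale.Agent.P073.H238.RT0

/-!
# P073, H244: **[RT-GIV]**, the oscillation of the level coordinate on a given cell

`st_ax`: displacement of the staircase.  `PassJ.oscv`: the clamped level coordinate after insertion
and staircase: oscillation at most the oscillation of `h` plus small.
-/

open Set Metric Topology Filter

namespace P073.H244

open _root_.P073 _root_.P073.Net _root_.P073.PA691 _root_.P073.H236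
  _root_.P073.H345 _root_.P073.H196
open _root_.P073.H579 hiding clm
open Vale.Agent.P073.St (V)
open Vale.Agent.P073.H471 Vale.Agent.P073.H267 Vale.Agent.P073.H267.Geo Vale.Agent.P073.H669
open Vale.Agent.P073.H73 (Mesh)
open Vale.Agent.P073.H193 (Edges)
open Vale.Agent.P073.H579 (TStageW cell_subW)
open Vale.Agent.P073.H238 (TMid)
open Vale.Agent.P073.H238.K3 (clm)

variable {Ω Λ : Set V} {v : V} {K : BoxCx Λ v} {S : Rad K} {Wd : Wid K S} {B : Boxes Wd}
  {G : Geo B} {M : Mesh Ω} {E : Edges M} {h h' : ConHomeo Ω Λ} {ω : TBx K → ℝ}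
  {T : TBx K → Finset (ℝ × ℝ)} {ηn : ℝ} {τ : Type*} {A : τ → Set V} {C : Set ℝ} {εE : E.ε → ℝ}
  {δ : TBx K → ℝ} {Pr Wc : Set M.ι} {Act₀ : Set M.κ} {G₀ : Set (TBx K)} {κ : V → V}
  {L : TLv G E h ω T ηn A C εE δ} {c : TBx K → ℝ} {hc0 : ∀ b, 0 < c b}
  {hc : ∀ b, c b ≤ δ b / 8} {W R : G₀ → Set V} {η : G₀ → ℝ}
  {Γ : G₀ → ℕ → V × ℝ → V} {f γ' : V → V}

/-! ### the displacement of the staircase -/

section st

variable {e : TBx K → ℝ} {he : ∀ b, 0 < e b} {he2 : ∀ b, 2 * e b < δ b} {V₀ : G₀ → Finset ℝ}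
  {X : FixD (F1 L hc0 hc he he2 G₀) V₀} {Hα H₁ Tf : ConHomeo Λ Λ}

/-- nothing moves at the ends of the windows -/
theorem ph_end (b : G₀) (y : V) {t : ℝ} (ht : t ≤ G.tlo true b.1 b.1.ax ∨
    G.thi true b.1 b.1.ax ≤ t) : ph X b y t = t := by
  have h0 : thai L hc0 hc b.1 t = t := by
    have h1 : tha L c b.1 t = t := th_out (thk L b.1).lvs ht
    have h2 := (l1_tha L hc0 hc b.1).left t
    rwa [h1] at h2
  unfold P073.H236.ph
  rw [cl_fix (hgtA_nonneg b y) h0]
  have h1 := ((F1 L hc0 hc he he2 G₀).X b).l1.out t ht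
  have h2 := (X.fix b).out t ht
  have h1' : (sm1 L c e b.1 ∘ tha L c b.1) t = t := h1
  rw [cl_fix (hgt1_nonneg b y) h1', cl_fix (hgt1_nonneg b y) h2]

/-- **the displacement of the level coordinate**, at all points of the box -/
theorem st_ax (H : RTS L hc0 hc he he2 X Hα H₁ Tf) {b : G₀} {y : V} (hy : y ∈ G.TB false b.1) :
    |((Hα.trans H₁).trans Tf).toFun y b.1.ax - y b.1.ax| ≤
      2 * dsp (T b.1) (δ b.1) + δ b.1 := by
  have HF := H.vrt
  have h1 := L.dsp_nonneg b.1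
  have h0 := L.δ0 b.1
  by_cases hex : ∃ b' : G₀, y ∈ rtK G ω b'.1 60
  · obtain ⟨b', hb'⟩ := hex
    have e1 := HF.on b' y hb'
    rw [e1]
    by_cases hbb : b' = b
    · subst hbb
      show |Function.update y b'.1.ax (ph X b' y (y b'.1.ax)) b'.1.ax - y b'.1.ax| ≤ _
      rw [Function.update_self]
      refine (abs_ph_sub_self_le b' y _).trans ?_
      have h2 : X.d b' ≤ dsp (T b'.1) (δ b'.1) + δ b'.1 / 8 := X.dD b'
      linarith
    · have h2 := end_of_other L (fun h3 => hbb (Subtype.ext h3)) hy hb'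
      have h3 : ph X b' y (y b'.1.ax) = y b'.1.ax := ph_end b' y h2
      show |Function.update y b'.1.ax (ph X b' y (y b'.1.ax)) b.1.ax - y b.1.ax| ≤ _
      rw [h3, Function.update_eq_self, sub_self, abs_zero]
      linarith
  · push Not at hex
    rw [HF.off y hex, sub_self, abs_zero]
    linarith

end st

/-! ### the oscillation -/

theorem convex_cell (M : Mesh Ω) (i : M.ι) : Convex ℝ (M.Q i) := by
  obtain ⟨n, ν, t, h⟩ := (M.poly i).half
  rw [h]
  intro x hx y hy α β hα hβ hαβ j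
  rw [map_add, map_smul, map_smul, smul_eq_mul, smul_eq_mul]
  calc α * ν j x + β * ν j y ≤ α * t j + β * t j :=
        add_le_add (mul_le_mul_of_nonneg_left (hx j) hα) (mul_le_mul_of_nonneg_left (hy j) hβ)
    _ = t j := by rw [← add_mul, hαβ, one_mul]

/-- the insertion fixes the levels -/
theorem isQ_lev (L : TLv G E h ω T ηn A C εE δ)
    (hκ : IsQ (fun b : G₀ => L.bxQ c hc0 hc b.1) κ) {b : G₀} {y : V}
    (hy : y ∈ G.TB false b.1) {k : ℕ} (hk : k < L.N b.1) (hya : y b.1.ax = L.a b.1 k) :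
    κ y b.1.ax = L.a b.1 k := by
  have hω := L.ω0 b.1
  obtain ⟨w1, w2⟩ := L.mem_win (b := b.1) hk
  by_cases hex : ∃ b' : G₀, y ∈ (L.bxQ c hc0 hc b'.1).K
  · obtain ⟨b', hb'⟩ := hex
    by_cases hbb : b' = b
    · subst hbb
      rw [hκ.on b' y hb']
      have h1 : |y (L.bxQ c hc0 hc b'.1).j - (L.bxQ c hc0 hc b'.1).a k| ≤
          2 * (L.bxQ c hc0 hc b'.1).c := by
        have h2 : y (L.bxQ c hc0 hc b'.1).j = (L.bxQ c hc0 hc b'.1).a k := hya
        rw [h2, sub_self, abs_zero]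
        have := (L.bxQ c hc0 hc b'.1).lvs.c0
        linarith
      rw [Q_eq_kap (L.bxQ c hc0 hc b'.1) hk h1]
      have h3 := kap_self (L.bxQ c hc0 hc b'.1).j ((L.bxQ c hc0 hc b'.1).a k)
        (2 * (L.bxQ c hc0 hc b'.1).c) (mu (L.bxQ c hc0 hc b'.1)) y
      have h2 : y (L.bxQ c hc0 hc b'.1).j - (L.bxQ c hc0 hc b'.1).a k = 0 := by
        show y b'.1.ax - L.a b'.1 k = 0
        rw [hya, sub_self]
      rw [h2, (ph_zero_iff (mu_nonneg _ _) (by
        have := mu_le (L.bxQ c hc0 hc b'.1) y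
        have := (L.bxQ c hc0 hc b'.1).lvs.c0
        linarith)).2 (by rw [abs_zero]; exact mu_nonneg _ _), add_zero] at h3
      exact h3
    · have h4 := (L.mem_K hc0 hc).1 hb'
      have h5 : y ∈ G.TB false b'.1 := rtK_sub L (u := 40) (by norm_num) h4
      have h6 := (junc_ax (fun h7 => hbb (Subtype.ext h7.symm)) hy h5 hy h5).2
      rcases h6 with h6 | h6 <;> linarith
  · push Not at hex
    rw [hκ.off y hex, hya]

/-- **[OSCV]**: the oscillation of the clamped level coordinate on a given cell -/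
theorem PassJ.oscv (i : M.ι) (hi : i ∈ Wc)
    (P : PassJ M E h h' (fun b : G₀ => L.bxQ c hc0 hc b.1) W R η Γ κ (M.Q i) f γ')
    (hf : ContinuousOn f (M.Q i))
    (hΛ : IsOpen Λ) (O : TStageW G M h h' Pr Wc Act₀ G₀ L.lev ω)
    (hκ : IsQ (fun b : G₀ => L.bxQ c hc0 hc b.1) κ)
    (hW : ∀ b : G₀, W b ⊆ rtK G ω b.1 45)
    {lam : G₀ → ℝ} (hlam : ∀ b : G₀, lam b ≤ ω b.1 / 2) (hcω : ∀ b : G₀, c b.1 ≤ ω b.1)
    (hΓ : ∀ (b : G₀) m z, LvPt h'.toFun (fun b : G₀ => L.bxQ c hc0 hc b.1) W (M.Q i) b m z →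
      ∀ s ∈ Icc (-1:ℝ) 1, ‖h.toFun (Γ b m (z, s)) - h.toFun z‖ ≤ lam b)
    (hosc : ∀ b ∈ G₀, ∀ x ∈ M.Q i, ∀ y ∈ M.Q i, h.toFun x ∈ G.TB false b →
      dist (h.toFun x) (h.toFun y) ≤ ω b)
    {b : G₀} {lo hi' : ℝ} (hlo : G.tlo true b.1 b.1.ax + 50 * ω b.1 ≤ lo)
    (hhi : hi' ≤ G.thi true b.1 b.1.ax - 50 * ω b.1)
    (hdω : dsp (T b.1) (δ b.1) + δ b.1 ≤ ω b.1) {Bd : ℝ}
    (hBd : ∀ x ∈ M.Q i, ∀ y ∈ M.Q i, |h.toFun x b.1.ax - h.toFun y b.1.ax| ≤ Bd)
    {F : V → V} {D : ℝ} (hF : ∀ y ∈ G.TB false b.1, |F y b.1.ax - y b.1.ax| ≤ D)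
    {x y : V} (hx : x ∈ M.Q i) (hy : y ∈ M.Q i) (hxb : h.toFun x ∈ G.TB false b.1)
    (hyb : h.toFun y ∈ G.TB false b.1) :
    |clm lo hi' (F (f x) b.1.ax) - clm lo hi' (F (f y) b.1.ax)| ≤
      Bd + 2 * (dsp (T b.1) (δ b.1) + δ b.1) + 2 * D := by
  have hω := L.ω0 b.1
  have hδ := L.δ0 b.1
  have hd0 := L.dsp_nonneg b.1
  have hB0 : 0 ≤ Bd := (abs_nonneg _).trans (hBd x hx x hx)
  -- the main part
  have key : ∀ x ∈ M.Q i, ∀ y ∈ M.Q i, h.toFun x ∈ G.TB false b.1 → h.toFun y ∈ G.TB false b.1 →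
      f x b.1.ax ≤ f y b.1.ax →
      clm lo hi' (f y b.1.ax) - clm lo hi' (f x b.1.ax) ≤
        Bd + 2 * (dsp (T b.1) (δ b.1) + δ b.1) := by
    intro x hx y hy hxb hyb hle
    by_cases hcl : clm lo hi' (f y b.1.ax) ≤ clm lo hi' (f x b.1.ax)
    · linarith
    push Not at hcl
    unfold clm at hcl ⊢
    have hp1 : f x b.1.ax < hi' := by
      by_contra hcon
      push Not at hcon
      rw [min_eq_left hcon, min_eq_left (hcon.trans hle)] at hcl
      exact lt_irrefl _ hcl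
    have hq1 : lo < f y b.1.ax := by
      by_contra hcon
      push Not at hcon
      have h1 : max lo (min hi' (f y b.1.ax)) = lo :=
        max_eq_left ((min_le_right _ _).trans hcon)
      rw [h1] at hcl
      exact absurd hcl (not_lt.2 (le_max_left _ _))
    have nx := abs_le.1 (P.ax_near i hi hΛ O hκ hW hlam hcω hΓ hx hxb)
    have ny := abs_le.1 (P.ax_near i hi hΛ O hκ hW hlam hcω hΓ hy hyb)
    have hd : ∀ z ∈ M.Q i, ∀ j, |h.toFun z j - h.toFun x j| ≤ ω b.1 := by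
      intro z hz j
      have h1 := hosc b.1 b.2 x hx z hz hxb
      rw [dist_comm, dist_eq_norm] at h1
      exact abs_apply_sub_le h1 j
    have dxy := abs_le.1 (hd y hy b.1.ax)
    have deep : ∀ z ∈ M.Q i, G.tlo true b.1 b.1.ax + 40 * ω b.1 ≤ h.toFun z b.1.ax ∧
        h.toFun z b.1.ax ≤ G.thi true b.1 b.1.ax - 40 * ω b.1 := by
      intro z hz
      have h1 := abs_le.1 (hd z hz b.1.ax)
      constructor <;> linarith
    by_cases hin : ∃ z₀ ∈ M.Q i, h.toFun z₀ ∈ rtK G ω b.1 60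
    · -- the image of the cell is deep inside of the box
      obtain ⟨z₀, hz₀, hz₀K⟩ := hin
      have hint : ∀ z ∈ M.Q i, h.toFun z ∈ interior (G.TB false b.1) := by
        intro z hz
        have h1 := hosc b.1 b.2 z₀ hz₀ z hz (rtK_sub L (u := 60) (by norm_num) hz₀K)
        rw [dist_comm, dist_eq_norm] at h1
        obtain ⟨d1, d2⟩ := deep z₀ hz₀
        exact (deep_int L le_rfl (by norm_num) hz₀K (by linarith) (by linarith) h1).2
      have hlev : ∀ k < L.N b.1, f x b.1.ax < L.a b.1 k → L.a b.1 k < f y b.1.ax →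
          ∃ z ∈ M.Q i, h.toFun z b.1.ax = L.a b.1 k := by
        intro k hk h1 h2
        have hpc : IsPreconnected (M.Q i) := (convex_cell M i).isPreconnected
        obtain ⟨z, hz, hza⟩ := hpc.intermediate_value hx hy
          ((continuous_apply b.1.ax).comp_continuousOn hf) ⟨h1.le, h2.le⟩
        have hza' : f z b.1.ax = L.a b.1 k := hza
        have hzT : f z ∈ G.TB false b.1 :=
          (P.mem_TB i hi hΛ O hκ hW hlam hΓ hz b.1).2 (interior_subset (hint z hz))
        have h3 := isQ_lev L hκ hzT hk hza'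
        rw [P.eq z hz] at h3
        have hgz := P.maps hz
        have h4 : h'.toFun (γ' z) ∈ G.TB false b.1 :=
          (O.mem b.1 _ (M.sub i hgz)).2 (interior_subset (hint _ hgz))
        have h5 := (O.keep b.1 (γ' z) (cell_subW M hi hgz) h4
          ⟨k, hk, h3⟩).self_of_nhds
        exact ⟨γ' z, hgz, by rw [← h5]; exact h3⟩
      refine clamp_gap (N := L.N b.1) (a := L.a b.1) (fun k l hkl hl => lev_lt L hkl hl)
        (L.pos b.1) (gap := dsp (T b.1) (δ b.1) + δ b.1) ?_ ?_ (fun k hk => lev_gap L hk)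
        (by linarith) hB0 (fun k hk l hl a1 a2 a3 a4 => ?_) hle
      · have := L.first_le b.1
        linarith
      · have := L.le_last b.1
        linarith
      · obtain ⟨z, hz, hza⟩ := hlev k hk a1 a2
        obtain ⟨z', hz', hza'⟩ := hlev l hl a3 a4
        rw [← hza, ← hza']
        exact (le_abs_self _).trans (hBd z' hz' z hz)
    · -- nothing changes at `x` and `y`
      push Not at hin
      have heq : ∀ z ∈ M.Q i, h.toFun z ∈ G.TB false b.1 → f z = h.toFun z := by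
        intro z hz hzb
        rcases P.ptOk i hi hΛ O hκ hW hlam hcω hΓ hz with ⟨b', -, h1, h2, h3⟩ | h1
        · exfalso
          by_cases hbb : b' = b
          · subst hbb
            exact hin z hz h1
          · have h5 := rtK_sub L (u := 60) (by norm_num) h1
            have h6 := (junc_ax (fun h7 => hbb (Subtype.ext h7.symm)) hzb h5 hzb h5).2
            obtain ⟨d1, d2⟩ := deep z hz
            rcases h6 with h6 | h6 <;> linarith
        · exact h1
      have h1 := abs_clamp_sub_le lo hi' (f y b.1.ax) (f x b.1.ax)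
      have h2 := hBd y hy x hx
      rw [heq x hx hxb, heq y hy hyb] at h1 ⊢
      have h3 := le_abs_self (max lo (min hi' (h.toFun y b.1.ax)) -
        max lo (min hi' (h.toFun x b.1.ax)))
      linarith
  have kx := hF (f x) ((P.mem_TB i hi hΛ O hκ hW hlam hΓ hx b.1).2 hxb)
  have ky := hF (f y) ((P.mem_TB i hi hΛ O hκ hW hlam hΓ hy b.1).2 hyb)
  have cx := (abs_clamp_sub_le lo hi' (F (f x) b.1.ax) (f x b.1.ax)).trans kx
  have cy := (abs_clamp_sub_le lo hi' (F (f y) b.1.ax) (f y b.1.ax)).trans ky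
  have main : |clm lo hi' (f x b.1.ax) - clm lo hi' (f y b.1.ax)| ≤
      Bd + 2 * (dsp (T b.1) (δ b.1) + δ b.1) := by
    rcases le_total (f x b.1.ax) (f y b.1.ax) with hle | hle
    · have h1 := key x hx y hy hxb hyb hle
      have h2 : clm lo hi' (f x b.1.ax) ≤ clm lo hi' (f y b.1.ax) :=
        max_le_max le_rfl (min_le_min le_rfl hle)
      rw [abs_sub_comm, abs_of_nonneg (by linarith)]
      exact h1
    · have h1 := key y hy x hx hyb hxb hle
      have h2 : clm lo hi' (f y b.1.ax) ≤ clm lo hi' (f x b.1.ax) :=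
        max_le_max le_rfl (min_le_min le_rfl hle)
      rw [abs_of_nonneg (by linarith)]
      exact h1
  unfold clm at main ⊢
  obtain ⟨a1, a2⟩ := abs_le.1 cx
  obtain ⟨b1, b2⟩ := abs_le.1 cy
  obtain ⟨m1, m2⟩ := abs_le.1 main
  rw [abs_le]
  constructor <;> linarith

end P073.H244
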