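import Vale.Agent.P073.H399.GivD
import Vale.Agent.P073.H244.GivGood

/-!
# P073, H244: **[RT-GIV]**, the output of H399 has the form `PassJ`

`GVout.passJ`, `GVout.good`: the field `good` of `Giv`.
-/

open Set Metric Topology Filter

namespace P073.H244

open P073 P073.TR P073.H236 P073.H579 P073.H345 P073.H399 P073.H936
open Vale.Agent.P073.St (V)
open Vale.Agent.P073.H73 (Mesh)
open Vale.Agent.P073.H193 (Edges)

/-- the flat part of the inserted map -/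
theorem ym_flat' {n : ℕ} {h : V → Fin n → ℝ} {i : Fin n} {b η r : ℝ} {μ : (Fin n → ℝ) → ℝ}
    {Γ : V × ℝ → V} {z : V} {s : ℝ} (hr : 0 < r) (h0 : 0 ≤ μ (h z)) (h1 : r * μ (h z) ≤ 1 / 2)
    (hz : Γ (z, 0) = z) (hb : h z i = b) (hs : |s| ≤ r * μ (h z)) :
    ym h i b η r μ Γ (z, s) = Function.update (h z) i (b + s / r) := by
  have hrm : rm h r μ (z, s) = 0 := by
    unfold rm
    simp only
    exact (ph_zero_iff (mul_nonneg hr.le h0) h1).2 hs
  have hcm : cm h r μ Γ (z, s) = z := by rw [cm, hrm]; exact hz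
  have hR : |s / r| ≤ μ (h z) := by
    rw [abs_div, abs_of_pos hr, div_le_iff₀ hr]
    linarith
  have hdm : dm h i b η r μ Γ (z, s) = s / r := by
    rw [dm, hcm, hrm, max_self, min_self]
    simp only
    rw [hz, hb, sub_self]
    exact ds_zero hR
  rw [ym, hcm, hdm]

variable {γ : Type*} {Ω Λ : Set V} {M : Mesh Ω} {E : Edges M} {h h' : ConHomeo Ω Λ}
  {B : γ → BX 3} {Gv : Set M.ι} {W R : γ → Set V} {C : γ → Set V} {w : γ → ℝ}
  {Γ : ∀ (g : γ) (m : Fin (B g).N), ConHomeo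
      (lev (C g) (uG h B g) ((B g).a m) ×ˢ Icc (-1:ℝ) 1)
      (band (C g) (uG h B g) ((B g).a m) (w g))}
  {c : γ → ℝ} {h0 : ∀ g, 0 < c g} {h1 : ∀ g, c g ≤ (B g).c} {κ : V → V}
  {Ψ : ∀ j ∈ Gv, ConHomeo (M.Q j) (Pre κ Λ h' (M.Q j))} {φ : M.ι → V → V}

/-- the charts as functions -/
noncomputable def Γf (Γ : ∀ (g : γ) (m : Fin (B g).N), ConHomeo
      (lev (C g) (uG h B g) ((B g).a m) ×ˢ Icc (-1:ℝ) 1)
      (band (C g) (uG h B g) ((B g).a m) (w g))) (g : γ) (m : ℕ) (q : V × ℝ) : V :=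
  if hm : m < (B g).N then (Γ g ⟨m, hm⟩).toFun q else q.1

theorem Γf_eq {g : γ} {m : ℕ} (hm : m < (B g).N) (q : V × ℝ) :
    Γf Γ g m q = (Γ g ⟨m, hm⟩).toFun q := by
  unfold Γf
  rw [dif_pos hm]

/-- level points of given cells are in the domains of the charts -/
theorem lev_of_lvPt (I : GVch M E h h' B Gv W R C w Γ) {j : M.ι} (hj : j ∈ Gv) {g : γ} {m : ℕ}
    {z : V} (hm : m < (B g).N) (hz : z ∈ M.Q j) (hza : h'.toFun z (B g).j = (B g).a m)
    (hzW : h'.toFun z ∈ W g) : z ∈ lev (C g) (uG h B g) ((B g).a m) ∧ h'.toFun z = h.toFun z := by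
  have hzR := I.WR g hzW
  have h2 := (I.keep j hj g z hz hzR m hm hza).self_of_nhds
  refine ⟨⟨I.Ccov j hj g z hz hzR, ?_⟩, h2⟩
  show h.toFun z (B g).j = _
  rw [← h2]; exact hza

/-- **the form `PassJ`** -/
theorem GVout.passJ (I : GVch M E h h' B Gv W R C w Γ)
    (O : GVout M E h h' B Gv W C w Γ c h0 h1 κ Ψ φ) {j : M.ι} (hj : j ∈ Gv) :
    PassJ M E h h' (fun g => thin (B g) (c g) (h0 g) (h1 g)) W R w (Γf Γ) κ (M.Q j)
      (Ψ j hj).toFun (φ j) := by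
  have key : ∀ g m z, LvPt h'.toFun (fun g => thin (B g) (c g) (h0 g) (h1 g)) W (M.Q j) g m z →
      ∃ hm : m < (B g).N, z ∈ lev (C g) (uG h B g) ((B g).a m) ∧ h'.toFun z = h.toFun z ∧
      ∀ q, Γf Γ g m q = (Γ g ⟨m, hm⟩).toFun q := by
    rintro g m z ⟨hm, hz, hza, hzW⟩
    obtain ⟨a1, a2⟩ := lev_of_lvPt I hj hm hz hza hzW
    exact ⟨hm, a1, a2, Γf_eq hm⟩
  refine
    { sub := M.sub j
      mem := fun x hx => ((Ψ j hj).mapsTo hx).1
      maps := O.maps j hj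
      eq := O.eq j hj
      seg := fun e x hx => O.iff j hj (Sum.inr (Sum.inr (Sum.inl e))) x hx
      KW := I.KW
      dis := I.dis
      osc := fun g m z hz s hs => ?_
      keep := fun g m z hz => ?_
      pos := I.w0
      band := fun g m hm m' hm' hne t ht ht' => ?_
      cont := fun g m z hz => ?_
      zero := fun g m z hz => ?_
      lev := fun g m z hz s hs => ?_
      inj := fun g m z hz z' hz' s hs s' hs' he => ?_
      iseg := fun g m z hz s hs e => ?_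
      ivert := fun g m z hz s hs x hx => ?_
      chart := fun g m z hz s hs => ?_
      off := fun x hx hno => ?_
      flat := fun g m z hz s hs hsm => ?_ }
  · obtain ⟨hm, a1, a2, a3⟩ := key g m z hz
    rw [a3]
    exact I.win j hj g ⟨m, hm⟩ z a1 hz.2.1 hz.2.2.2 s hs
  · obtain ⟨hm, a1, a2, a3⟩ := key g m z hz
    rw [a2]
  · obtain ⟨c1, c2⟩ := abs_le.1 ht
    obtain ⟨c3, c4⟩ := abs_le.1 ht'
    have e1 : (thin (B g) (c g) (h0 g) (h1 g)).a = (B g).a := rfl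
    rw [e1] at c1 c2 c3 c4
    rcases lt_or_gt_of_ne hne with h5 | h5
    · have := I.sep g m hm m' hm' h5
      linarith
    · have := I.sep g m' hm' m hm h5
      linarith
  · obtain ⟨hm, a1, a2, a3⟩ := key g m z hz
    simp only [a3]
    exact (Γ g ⟨m, hm⟩).cont.comp (by fun_prop) fun s hs => ⟨a1, hs⟩
  · obtain ⟨hm, a1, a2, a3⟩ := key g m z hz
    rw [a3]
    exact I.zero g ⟨m, hm⟩ z a1
  · obtain ⟨hm, a1, a2, a3⟩ := key g m z hz
    rw [a3]
    exact I.level g ⟨m, hm⟩ z a1 s hs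
  · obtain ⟨hm, a1, a2, a3⟩ := key g m z hz
    obtain ⟨hm', a1', a2', a3'⟩ := key g m z' hz'
    rw [a3, a3] at he
    have q1 : ((z, s) : V × ℝ) ∈ lev (C g) (uG h B g) ((B g).a m) ×ˢ Icc (-1:ℝ) 1 := ⟨a1, hs⟩
    have q2 : ((z', s') : V × ℝ) ∈ lev (C g) (uG h B g) ((B g).a m) ×ˢ Icc (-1:ℝ) 1 :=
      ⟨a1', hs'⟩
    exact Prod.mk.inj ((Γ g ⟨m, hm⟩).injOn q1 q2 he)
  · obtain ⟨hm, a1, a2, a3⟩ := key g m z hz
    rw [a3]
    exact I.inv g ⟨m, hm⟩ (Sum.inr (Sum.inr (Sum.inl e))) z a1 s hs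
  · obtain ⟨hm, a1, a2, a3⟩ := key g m z hz
    rw [a3]
    exact I.inv g ⟨m, hm⟩ (Sum.inr (Sum.inr (Sum.inr ⟨x, hx⟩))) z a1 s hs
  · obtain ⟨hm, a1, a2, a3⟩ := key g m z hz
    rw [a3, (O.form j hj g ⟨m, hm⟩ z hz.2.1 hz.2.2.1 hz.2.2.2 s hs).1, a3, cm, rm]
    simp only
    congr 3
    show 1 / (2 * c g) * _ = _ / (2 * c g)
    ring
  · refine (O.off j hj x hx fun g m z hz hza hzW s hs he => ?_).2
    refine hno g m z ⟨m.2, hz, hza, hzW⟩ s hs ?_
    rw [Γf_eq m.2]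
    exact he
  · obtain ⟨hm, a1, a2, a3⟩ := key g m z hz
    have hc0 := h0 g
    rw [a3, (O.form j hj g ⟨m, hm⟩ z hz.2.1 hz.2.2.1 hz.2.2.2 s hs).2]
    have hmu0 := mu_nonneg (thin (B g) (c g) (h0 g) (h1 g)) (h'.toFun z)
    have hmu1 : mu (thin (B g) (c g) (h0 g) (h1 g)) (h'.toFun z) ≤ c g :=
      mu_le (thin (B g) (c g) (h0 g) (h1 g)) (h'.toFun z)
    have e1 : 1 / (2 * c g) * mu (thin (B g) (c g) (h0 g) (h1 g)) (h'.toFun z) =
        mu (thin (B g) (c g) (h0 g) (h1 g)) (h'.toFun z) / (2 * c g) := by ring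
    have hr : 0 < 1 / (2 * c g) := by positivity
    have hle : 1 / (2 * c g) * mu (thin (B g) (c g) (h0 g) (h1 g)) (h'.toFun z) ≤ 1 / 2 := by
      rw [e1, div_le_iff₀ (by positivity)]
      linarith
    have hs2 : |s| ≤ 1 / (2 * c g) * mu (thin (B g) (c g) (h0 g) (h1 g)) (h'.toFun z) := by
      rw [e1]; exact hsm
    have e2 := ym_flat' (b := (B g).a m) (η := 2 * c g) hr hmu0 hle (I.zero g ⟨m, hm⟩ z a1)
      hz.2.2.1 hs2
    refine Eq.trans e2 ?_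
    have e3 : (B g).a m + s / (1 / (2 * c g)) = (B g).a m + 2 * c g * s := by
      rw [div_div_eq_mul_div, div_one]
      ring
    show Function.update (h'.toFun z) (B g).j ((B g).a m + s / (1 / (2 * c g))) =
      Function.update (h'.toFun z) (B g).j ((B g).a m + 2 * c g * s)
    rw [e3]

/-- **the field `good` of `Giv`** -/
theorem GVout.good (I : GVch M E h h' B Gv W R C w Γ)
    (O : GVout M E h h' B Gv W C w Γ c h0 h1 κ Ψ φ) (H : H345.Fam Λ B)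
    (hκ : IsQ (fun g => thin (B g) (c g) (h0 g) (h1 g)) κ)
    (hreg : RegB M E h' fun g => thin (B g) (c g) (h0 g) (h1 g)) {Ac : γ → M.κ → Prop}
    (hAc : ∀ g k, Ac g k → FAct M h' (fun g => thin (B g) (c g) (h0 g) (h1 g)) g k)
    {We Lip : E.ε → ℝ} {j : M.ι} (hj : j ∈ Gv) {e : E.ε} (he : E.seg e ⊆ M.Q j)
    (hLip : ∀ x ∈ E.seg e, ∀ y ∈ E.seg e, ‖h.toFun x - h.toFun y‖ ≤ Lip e * ‖x - y‖)
    (hWe : ∀ g, EAct E Ac g e → stp (B g).N (B g).al (B g).be * Lip e * ‖E.b e - E.a e‖ ≤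
      4 * We e * w g) :
    GEd E h' (fun g => thin (B g) (c g) (h0 g) (h1 g)) Ac We e (Ψ j hj).toFun :=
  (GVout.passJ I O hj).good (H.thin h0 h1) hκ hreg hAc he hLip hWe

end P073.H244
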