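import Vale.Agent.P073.H244.GivPt
import Vale.Agent.P073.H244.GivOut
import Vale.Agent.P073.H196.RTProt
import Vale.Agent.P073.H579.RTA

/-!
# P073, H244: **[RT-GIV]**, given maps: the boxes, the protected cells, the oscillation

`PassJ.mem_TB`: the boxes are preserved.  `PassJ.ptpOk`: small displacement on protected cells.
`PassJ.oscv`: oscillation of the (clamped) level coordinate on a given cell, after a staircase with
small displacement.
-/

open Set Metric Topology Filter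

namespace P073.H244

open _root_.P073 _root_.P073.Net _root_.P073.PA691 _root_.P073.H236 _root_.P073.H579
  _root_.P073.H345
open Vale.Agent.P073.St (V)
open Vale.Agent.P073.H471 Vale.Agent.P073.H267 Vale.Agent.P073.H267.Geo Vale.Agent.P073.H669
open Vale.Agent.P073.H73 (Mesh)
open Vale.Agent.P073.H193 (Edges)
open Vale.Agent.P073.H579 (TStageW cell_subW)
open Vale.Agent.P073.H238 (TMid)

/-! ### one dimension -/

theorem abs_clamp_sub_le (lo hi s t : ℝ) : |max lo (min hi s) - max lo (min hi t)| ≤ |s - t| := by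
  have h1 : |max lo (min hi s) - max lo (min hi t)| ≤ |min hi s - min hi t| := by
    rw [max_comm lo, max_comm lo]
    exact abs_max_sub_max_le_abs _ _ _
  refine h1.trans ?_
  rw [min_comm hi, min_comm hi]
  exact abs_inf_sub_inf_le_abs _ _ _

/-- the distance of two clamped values is controlled by the levels between them -/
theorem clamp_gap {N : ℕ} {a : ℕ → ℝ} (hmono : ∀ k l, k < l → l < N → a k < a l) (hN : 0 < N)
    {gap lo hi p q Bd : ℝ} (ha0 : a 0 ≤ lo) (haN : hi ≤ a (N - 1))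
    (hgap : ∀ k, k + 1 < N → a (k + 1) - a k ≤ gap) (hg0 : 0 ≤ gap) (hB0 : 0 ≤ Bd)
    (hBd : ∀ k < N, ∀ l < N, p < a k → a k < q → p < a l → a l < q → a l - a k ≤ Bd)
    (hpq : p ≤ q) : max lo (min hi q) - max lo (min hi p) ≤ Bd + 2 * gap := by
  classical
  set p' := max lo (min hi p) with hp'
  set q' := max lo (min hi q) with hq'
  by_cases hlt : q' ≤ p'
  · linarith
  push Not at hlt
  have hp1 : p < hi := by
    by_contra hcon
    push Not at hcon
    have e1 : p' = max lo hi := by rw [hp', min_eq_left hcon]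
    have e2 : q' = max lo hi := by rw [hq', min_eq_left (hcon.trans hpq)]
    linarith
  have hq1 : lo < q := by
    by_contra hcon
    push Not at hcon
    have e1 : q' = lo := by rw [hq', max_eq_left ((min_le_right _ _).trans hcon)]
    have e2 : lo ≤ p' := le_max_left _ _
    linarith
  have hlohi : lo ≤ hi := by
    by_contra hcon
    push Not at hcon
    have e1 : q' = lo := by rw [hq', max_eq_left ((min_le_left _ _).trans hcon.le)]
    have e2 : lo ≤ p' := le_max_left _ _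
    linarith
  have hpp' : p ≤ p' := by
    rw [hp', min_eq_right hp1.le]; exact le_max_right _ _
  have hqq' : q' ≤ q := by
    rw [hq']; exact max_le hq1.le (min_le_right _ _)
  have hp'lo : lo ≤ p' := le_max_left _ _
  have hq'hi : q' ≤ hi := by
    rw [hq']; exact max_le hlohi (min_le_left _ _)
  have ex1 : ∃ k, k < N ∧ p' < a k := ⟨N - 1, by omega, by linarith⟩
  have ex3 : ∃ k, k < N ∧ q' ≤ a k := ⟨N - 1, by omega, by linarith⟩
  obtain ⟨f1, f2⟩ := Nat.find_spec ex1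
  obtain ⟨f3, f4⟩ := Nat.find_spec ex3
  set k₁ := Nat.find ex1 with hk₁
  set k₃ := Nat.find ex3 with hk₃
  have m1 : ∀ k < k₁, a k ≤ p' := by
    intro k hk
    have := Nat.find_min ex1 hk
    push Not at this
    exact this (hk.trans f1)
  have m3 : ∀ k < k₃, a k < q' := by
    intro k hk
    have := Nat.find_min ex3 hk
    push Not at this
    exact this (hk.trans f3)
  have k₁0 : 0 < k₁ := by
    by_contra hcon
    have : k₁ = 0 := by omega
    rw [this] at f2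
    linarith
  have k₃0 : 0 < k₃ := by
    by_contra hcon
    have : k₃ = 0 := by omega
    rw [this] at f4
    linarith
  have g1 : a k₁ - a (k₁ - 1) ≤ gap := by
    have := hgap (k₁ - 1) (by omega)
    rwa [Nat.sub_add_cancel k₁0] at this
  have g3 : a k₃ - a (k₃ - 1) ≤ gap := by
    have := hgap (k₃ - 1) (by omega)
    rwa [Nat.sub_add_cancel k₃0] at this
  have g2 := m1 (k₁ - 1) (by omega)
  have g4 := m3 (k₃ - 1) (by omega)
  have hle : k₁ ≤ k₃ := by
    by_contra hcon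
    push Not at hcon
    have := m1 k₃ hcon
    linarith
  rcases hle.eq_or_lt with h | h
  · rw [← h] at f4
    linarith
  · have e1 := m3 k₁ h
    have e2 : a k₁ ≤ a (k₃ - 1) := by
      rcases (show k₁ ≤ k₃ - 1 by omega).eq_or_lt with h5 | h5
      · rw [← h5]
      · exact (hmono _ _ h5 (by omega)).le
    have e3 := hBd k₁ f1 (k₃ - 1) (by omega) (by linarith) (by linarith) (by linarith)
      (by linarith)
    linarith

variable {Ω Λ : Set V} {v : V} {K : BoxCx Λ v} {S : Rad K} {Wd : Wid K S} {B : Boxes Wd}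
  {G : Geo B} {M : Mesh Ω} {E : Edges M} {h h' : ConHomeo Ω Λ} {ω : TBx K → ℝ}
  {T : TBx K → Finset (ℝ × ℝ)} {ηn : ℝ} {τ : Type*} {A : τ → Set V} {C : Set ℝ} {εE : E.ε → ℝ}
  {δ : TBx K → ℝ} {Pr Wc : Set M.ι} {Act₀ : Set M.κ} {G₀ : Set (TBx K)} {κ : V → V}
  {L : TLv G E h ω T ηn A C εE δ} {c : TBx K → ℝ} {hc0 : ∀ b, 0 < c b}
  {hc : ∀ b, c b ≤ δ b / 8} {W R : G₀ → Set V} {η : G₀ → ℝ}
  {Γ : G₀ → ℕ → V × ℝ → V} {f γ' : V → V}

/-- consecutive levels -/
theorem lev_gap (L : TLv G E h ω T ηn A C εE δ) {b : TBx K} {k : ℕ} (hk : k + 1 < L.N b) :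
    L.a b (k + 1) - L.a b k ≤ dsp (T b) (δ b) + δ b := by
  have h1 := (L.cells b).disp_le (k + 1) hk
  have h2 := (L.cells b).disp_nonneg k (by omega)
  have h3 := (L.cells b).lt_a (L.δ0 b) L.η4 (k + 1)
  have h4 := (L.cells b).lt_a (L.δ0 b) L.η4 k
  have h5 := L.δ0 b
  unfold dsp
  push_cast at h1
  have h6 : (2 * ((T b).card : ℝ) + 1) * δ b = 2 * (T b).card * δ b + δ b := by ring
  rw [h6]
  linarith [h3.2, h4.1]

theorem lev_lt (L : TLv G E h ω T ηn A C εE δ) {b : TBx K} {k l : ℕ} (hkl : k < l)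
    (hl : l < L.N b) : L.a b k < L.a b l := by
  have h0 := L.δ0 b
  have h1 := (L.cells b).lt_a h0 L.η4 k
  have h2 := (L.cells b).lt_a h0 L.η4 l
  have h3 : L.x b k + δ b ≤ L.x b l := (L.cells b).add_le h0 hkl hl
  linarith [h1.2, h2.1]

/-! ### the boxes -/

/-- two boxes meet at ends of their windows -/
theorem junc_ax {b b' : TBx K} (hne : b ≠ b') {y y' : V} (hy : y ∈ G.TB false b)
    (hy' : y ∈ G.TB false b') (hz : y' ∈ G.TB false b) (hz' : y' ∈ G.TB false b') :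
    y b.ax = y' b.ax ∧ (y b.ax = G.tlo true b b.ax ∨ y b.ax = G.thi true b b.ax) := by
  have hab : ∀ e : K.G, K.a e ≠ K.b e := fun e hab => by
    have := K.ab_dir e
    rw [hab] at this
    exact lt_irrefl _ this
  rcases b with e | k <;> rcases b' with e' | k'
  · exact absurd hy' ((disjoint_TB_inl (G := G) fun hh => hne (by rw [hh])).notMem_of_mem_left hy)
  · obtain ⟨hd, h1⟩ := junction hy hy'
    obtain ⟨-, h2⟩ := junction hz hz'
    have e1 : TBx.ax (.inl e : TBx K) = K.dir e := rfl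
    rw [e1]
    simp only [Geo.tlo, Geo.thi, if_true]
    rw [hd]
    rcases h1 with ⟨i1, j1⟩ | ⟨i1, j1⟩ <;> rcases h2 with ⟨i2, j2⟩ | ⟨i2, j2⟩
    · refine ⟨by rw [j1, j2], Or.inl ?_⟩
      rw [j1, i1]
    · exact absurd (i1.symm.trans i2) (hab e)
    · exact absurd (i2.symm.trans i1) (hab e)
    · refine ⟨by rw [j1, j2], Or.inr ?_⟩
      rw [j1, i1]
  · obtain ⟨hd, h1⟩ := junction hy' hy
    obtain ⟨-, h2⟩ := junction hz' hz
    have e1 : TBx.ax (.inr k : TBx K) = k.l := rfl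
    rw [e1]
    simp only [Geo.tlo, Geo.thi, if_true]
    rcases h1 with ⟨i1, j1⟩ | ⟨i1, j1⟩ <;> rcases h2 with ⟨i2, j2⟩ | ⟨i2, j2⟩
    · exact ⟨by rw [j1, j2], Or.inr j1⟩
    · exact absurd (i1.symm.trans i2) (hab e')
    · exact absurd (i2.symm.trans i1) (hab e')
    · exact ⟨by rw [j1, j2], Or.inl j1⟩
  · exfalso
    by_cases hi : k.i = k'.i
    · have hs : k.s ≠ k'.s := fun hs => hne (by rw [hang_eq hi hs])
      exact (disjoint_ss (W := Wd) hs).notMem_of_mem_left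
        (Zs_subset (TB_subset_Zs k hy)) (Zs_subset (TB_subset_Zs k' hy'))
    · have hb := G.be_pos k.i
      have hb' := G.be_pos k'.i
      have h32 := G.be_r k.i
      have h32' := G.be_r k'.i
      refine (S.U_disj _ _ hi).notMem_of_mem_left
        (closedBall_subset_closedBall (by linarith) (TB_inr_ball k hy))
        (closedBall_subset_closedBall (by linarith) (TB_inr_ball k' hy'))

/-- the insertion preserves the boxes -/
theorem isQ_mem_TB (L : TLv G E h ω T ηn A C εE δ) (hΛ : IsOpen Λ)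
    (hκ : IsQ (fun b : G₀ => L.bxQ c hc0 hc b.1) κ) {b : TBx K} {y : V} :
    κ y ∈ G.TB false b ↔ y ∈ G.TB false b := by
  have hfam : H345.Fam Λ fun b : G₀ => L.bxQ c hc0 hc b.1 :=
    fam_comp (L.fam345 hc0 hc hΛ) Subtype.val_injective
  by_cases hex : ∃ b' : G₀, y ∈ (L.bxQ c hc0 hc b'.1).K
  · obtain ⟨b', hb'⟩ := hex
    have hκb' : κ y ∈ (L.bxQ c hc0 hc b'.1).K := hκ.mapsK hb'
    have e1 : y ∈ rtK G ω b'.1 60 := rtK_mono L (by norm_num) ((L.mem_K hc0 hc).1 hb')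
    have e2 : κ y ∈ rtK G ω b'.1 60 := rtK_mono L (by norm_num) ((L.mem_K hc0 hc).1 hκb')
    by_cases hbb : b'.1 = b
    · subst hbb
      exact ⟨fun _ => rtK_sub L (by norm_num) e1, fun _ => rtK_sub L (by norm_num) e2⟩
    · constructor
      · intro h1
        have h2 := H196.end_of_other L hbb h1 e2
        rw [hκ.on b' y hb'] at h2 h1
        rwa [eq_Q_of_end _ h2] at h1
      · intro h1
        have h2 := H196.end_of_other L hbb h1 e1
        rwa [hκ.on b' y hb', Q_eq_self_of_end _ h2]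
  · push Not at hex
    rw [hκ.off y hex]

/-- **the two cases** -/
theorem PassJ.two (i : M.ι) (hi : i ∈ Wc)
    (P : PassJ M E h h' (fun b : G₀ => L.bxQ c hc0 hc b.1) W R η Γ κ (M.Q i) f γ')
    (O : TStageW G M h h' Pr Wc Act₀ G₀ L.lev ω)
    (hW : ∀ b : G₀, W b ⊆ rtK G ω b.1 45) {lam : G₀ → ℝ}
    (hΓ : ∀ (b : G₀) m z, LvPt h'.toFun (fun b : G₀ => L.bxQ c hc0 hc b.1) W (M.Q i) b m z →
      ∀ s ∈ Icc (-1:ℝ) 1, ‖h.toFun (Γ b m (z, s)) - h.toFun z‖ ≤ lam b)
    {x : V} (hx : x ∈ M.Q i) :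
    γ' x = x ∨ ∃ (b : G₀) (z : V), z ∈ M.Q i ∧ h.toFun z ∈ rtK G ω b.1 45 ∧
      G.tlo true b.1 b.1.ax + 30 * ω b.1 < h.toFun z b.1.ax ∧
      h.toFun z b.1.ax < G.thi true b.1 b.1.ax - 30 * ω b.1 ∧
      ‖h.toFun x - h.toFun z‖ ≤ lam b ∧ ‖h.toFun (γ' x) - h.toFun z‖ ≤ lam b := by
  have hQW : M.Q i ⊆ Vale.Agent.P073.H579.skelW M Wc := cell_subW M hi
  by_cases hcase : ∀ (b : G₀) m z,
      LvPt h'.toFun (fun b : G₀ => L.bxQ c hc0 hc b.1) W (M.Q i) b m z →
      ∀ s ∈ Icc (-1:ℝ) 1, Γ b m (z, s) ≠ x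
  · exact Or.inl (P.off x hx hcase)
  · push Not at hcase
    obtain ⟨b, m, z, hz, s, hs, rfl⟩ := hcase
    right
    have hzW : h'.toFun z ∈ rtK G ω b.1 45 := hW b hz.2.2.2
    have hk : ∀ᶠ y in 𝓝 z, h'.toFun y = h.toFun y := by
      refine O.keep b.1 z (hQW hz.2.1) (rtK_sub L (u := 45) (by norm_num) hzW) ?_
      exact ⟨m, hz.1, hz.2.2.1⟩
    have hzz : h'.toFun z = h.toFun z := hk.self_of_nhds
    have hzl : h.toFun z b.1.ax = L.a b.1 m := by
      rw [← hzz]; exact hz.2.2.1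
    obtain ⟨a1, a2⟩ := L.mem_win (b := b.1) (k := m) hz.1
    have hmem : ph 1 (mu (L.bxQ c hc0 hc b.1) (h'.toFun z) /
        (2 * (L.bxQ c hc0 hc b.1).c)) s ∈ Icc (-1:ℝ) 1 :=
      abs_le.1 (abs_ph_le.trans (abs_le.2 hs))
    have hch := P.chart b m z hz s hs
    refine ⟨b, z, hz.2.1, hzz ▸ hzW, by rw [hzl]; exact a1, by rw [hzl]; exact a2,
      hΓ b m z hz s hs, ?_⟩
    rw [hch]
    exact hΓ b m z hz _ hmem

/-- points with images near a point deep in a box -/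
theorem deep_int (L : TLv G E h ω T ηn A C εE δ) {b : TBx K} {y z : V} {d u : ℝ}
    (hd : d ≤ ω b) (hu : u ≤ 98) (hz : z ∈ rtK G ω b u)
    (h1 : G.tlo true b b.ax + 2 * ω b ≤ z b.ax) (h2 : z b.ax ≤ G.thi true b b.ax - 2 * ω b)
    (hyz : ‖y - z‖ ≤ d) : y ∈ rtK G ω b (u + 1) ∧ y ∈ interior (G.TB false b) := by
  have h0 := L.ω0 b
  obtain ⟨c1, c2⟩ := abs_le.1 (abs_apply_sub_le hyz b.ax)
  have h3 : y ∈ rtK G ω b (u + 1) :=
    rtK_near hz hyz (by linarith) (by linarith) (by linarith)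
  exact ⟨h3, int_of_rtK L (by linarith) h3 (by linarith) (by linarith)⟩

/-- **the boxes are preserved** -/
theorem PassJ.mem_TB (i : M.ι) (hi : i ∈ Wc)
    (P : PassJ M E h h' (fun b : G₀ => L.bxQ c hc0 hc b.1) W R η Γ κ (M.Q i) f γ')
    (hΛ : IsOpen Λ) (O : TStageW G M h h' Pr Wc Act₀ G₀ L.lev ω)
    (hκ : IsQ (fun b : G₀ => L.bxQ c hc0 hc b.1) κ)
    (hW : ∀ b : G₀, W b ⊆ rtK G ω b.1 45) {lam : G₀ → ℝ} (hlam : ∀ b : G₀, lam b ≤ ω b.1 / 2)
    (hΓ : ∀ (b : G₀) m z, LvPt h'.toFun (fun b : G₀ => L.bxQ c hc0 hc b.1) W (M.Q i) b m z →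
      ∀ s ∈ Icc (-1:ℝ) 1, ‖h.toFun (Γ b m (z, s)) - h.toFun z‖ ≤ lam b)
    {x : V} (hx : x ∈ M.Q i) (b : TBx K) :
    f x ∈ G.TB false b ↔ h.toFun x ∈ G.TB false b := by
  rw [← isQ_mem_TB L hΛ hκ (b := b), P.eq x hx, O.mem b _ (M.sub i (P.maps hx))]
  rcases P.two i hi O hW hΓ hx with h1 | ⟨b', z, hz, hzK, z1, z2, hxz, hyz⟩
  · rw [h1]
  · have h0 := L.ω0 b'.1
    have hl := hlam b'
    obtain ⟨-, e1⟩ := deep_int L (by linarith) (by norm_num) hzK (by linarith) (by linarith) hxz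
    obtain ⟨-, e2⟩ := deep_int L (by linarith) (by norm_num) hzK (by linarith) (by linarith) hyz
    by_cases hbb : b'.1 = b
    · subst hbb
      exact ⟨fun _ => interior_subset e1, fun _ => interior_subset e2⟩
    · have hdis := disjoint_TB (G := G) hbb
      exact ⟨fun h2 => absurd h2 (hdis.notMem_of_mem_left e2),
        fun h2 => absurd h2 (hdis.notMem_of_mem_left e1)⟩

/-- **[PTP]**: small displacement on the protected cells -/
theorem PassJ.ptpOk (i : M.ι) (hi : i ∈ Wc) (hiP : i ∈ Pr)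
    (P : PassJ M E h h' (fun b : G₀ => L.bxQ c hc0 hc b.1) W R η Γ κ (M.Q i) f γ')
    (hΛ : IsOpen Λ) (O : TStageW G M h h' Pr Wc Act₀ G₀ L.lev ω)
    (hκ : IsQ (fun b : G₀ => L.bxQ c hc0 hc b.1) κ)
    (hW : ∀ b : G₀, W b ⊆ rtK G ω b.1 45)
    {lam : G₀ → ℝ} (hlam : ∀ b : G₀, lam b ≤ ω b.1 / 2) (hcl : ∀ b : G₀, c b.1 ≤ lam b)
    (hΓ : ∀ (b : G₀) m z, LvPt h'.toFun (fun b : G₀ => L.bxQ c hc0 hc b.1) W (M.Q i) b m z →
      ∀ s ∈ Icc (-1:ℝ) 1, ‖h.toFun (Γ b m (z, s)) - h.toFun z‖ ≤ lam b)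
    {x : V} (hx : x ∈ M.Q i) :
    (∃ b : G₀, h.toFun x ∈ interior (G.TB false b.1) ∧ h.toFun x ∈ rtK G ω b.1 60 ∧
      f x ∈ rtK G ω b.1 60 ∧ ‖f x - h.toFun x‖ ≤ 3 * lam b) ∨ f x = h.toFun x := by
  have hfam : H345.Fam Λ fun b : G₀ => L.bxQ c hc0 hc b.1 :=
    fam_comp (L.fam345 hc0 hc hΛ) Subtype.val_injective
  have hhh : ∀ y ∈ M.Q i, h'.toFun y = h.toFun y := fun y hy =>
    (O.wall i hiP y hy).self_of_nhds
  have D2 : f x = h.toFun (γ' x) ∨ ∃ b : G₀, h.toFun (γ' x) ∈ interior (G.TB false b.1) ∧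
      f x ∈ rtK G ω b.1 40 ∧
      h.toFun (γ' x) ∈ rtK G ω b.1 40 ∧ ‖f x - h.toFun (γ' x)‖ ≤ c b.1 := by
    rw [← hhh _ (P.maps hx)]
    by_cases hex : ∃ b : G₀, f x ∈ (L.bxQ c hc0 hc b.1).K
    · obtain ⟨b, hb⟩ := hex
      have hK : h'.toFun (γ' x) ∈ rtK G ω b.1 40 := (L.mem_K hc0 hc).1 (by
        rw [← P.eq x hx]
        exact (hκ.mem_iff hfam (g := b)).2 hb)
      by_cases hend : h'.toFun (γ' x) b.1.ax ≤ G.tlo true b.1 b.1.ax ∨
          G.thi true b.1 b.1.ax ≤ h'.toFun (γ' x) b.1.ax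
      · left
        rw [← P.eq x hx, hκ.on b _ hb] at hend ⊢
        exact (eq_Q_of_end (L.bxQ c hc0 hc b.1) hend).symm
      · push Not at hend
        right
        refine ⟨b, int_of_rtK L (by norm_num) hK hend.1 hend.2, (L.mem_K hc0 hc).1 hb, hK, ?_⟩
        rw [← P.eq x hx, hκ.on b _ hb, norm_sub_rev]
        exact (L.bxQ c hc0 hc b.1).norm_Q_sub_le _
    · push Not at hex
      left
      rw [← P.eq x hx, hκ.off _ hex]
  rcases P.two i hi O hW hΓ hx with h1 | ⟨b, z, hz, hzK, z1, z2, hxz, hyz⟩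
  · rw [h1] at D2
    rcases D2 with h2 | ⟨b, h1', h2, h3, h4⟩
    · exact Or.inr h2
    · refine Or.inl ⟨b, h1', rtK_mono L (by norm_num) h3, rtK_mono L (by norm_num) h2, ?_⟩
      have := hcl b
      have := hc0 b.1
      linarith
  · left
    have h0 := L.ω0 b.1
    have hl := hlam b
    obtain ⟨x1, x2⟩ := deep_int L (by linarith) (by norm_num) hzK (by linarith) (by linarith) hxz
    obtain ⟨y1, y2⟩ := deep_int L (by linarith) (by norm_num) hzK (by linarith) (by linarith) hyz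
    have hxy : ‖h.toFun (γ' x) - h.toFun x‖ ≤ 2 * lam b := by
      have e2 := norm_sub_le_norm_sub_add_norm_sub (h.toFun (γ' x)) (h.toFun z) (h.toFun x)
      rw [norm_sub_rev (h.toFun z)] at e2
      linarith
    refine ⟨b, x2, rtK_mono L (by norm_num) x1, ?_, ?_⟩
    · rcases D2 with h1 | ⟨b', -, h1, h2, h3⟩
      · rw [h1]; exact rtK_mono L (by norm_num) y1
      · have hbb : b' = b := by
          by_contra hne
          exact Set.disjoint_left.1 (Geo.disjoint_TB (G := G) (b := b.1) (b' := b'.1)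
            fun h => hne (Subtype.ext h.symm)) y2 (rtK_sub L (u := 40) (by norm_num) h2)
        subst hbb
        exact rtK_mono L (by norm_num) h1
    · rcases D2 with h1 | ⟨b', -, h1, h2, h3⟩
      · rw [h1]
        have := hcl b
        have := hc0 b.1
        linarith
      · have hbb : b' = b := by
          by_contra hne
          exact Set.disjoint_left.1 (Geo.disjoint_TB (G := G) (b := b.1) (b' := b'.1)
            fun h => hne (Subtype.ext h.symm)) y2 (rtK_sub L (u := 40) (by norm_num) h2)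
        subst hbb
        have h8 := norm_sub_le_norm_sub_add_norm_sub (f x) (h.toFun (γ' x)) (h.toFun x)
        have h9 := hcl b'
        linarith

/-- the level coordinate at a point of the box -/
theorem PassJ.ax_near (i : M.ι) (hi : i ∈ Wc)
    (P : PassJ M E h h' (fun b : G₀ => L.bxQ c hc0 hc b.1) W R η Γ κ (M.Q i) f γ')
    (hΛ : IsOpen Λ) (O : TStageW G M h h' Pr Wc Act₀ G₀ L.lev ω)
    (hκ : IsQ (fun b : G₀ => L.bxQ c hc0 hc b.1) κ)
    (hW : ∀ b : G₀, W b ⊆ rtK G ω b.1 45)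
    {lam : G₀ → ℝ} (hlam : ∀ b : G₀, lam b ≤ ω b.1 / 2) (hcω : ∀ b : G₀, c b.1 ≤ ω b.1)
    (hΓ : ∀ (b : G₀) m z, LvPt h'.toFun (fun b : G₀ => L.bxQ c hc0 hc b.1) W (M.Q i) b m z →
      ∀ s ∈ Icc (-1:ℝ) 1, ‖h.toFun (Γ b m (z, s)) - h.toFun z‖ ≤ lam b)
    {x : V} (hx : x ∈ M.Q i) {b : TBx K} (hb : h.toFun x ∈ G.TB false b) :
    |f x b.ax - h.toFun x b.ax| ≤ 8 * ω b := by
  have h0 := L.ω0 b
  rcases P.ptOk i hi hΛ O hκ hW hlam hcω hΓ hx with ⟨b', -, h1, h2, h3⟩ | h1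
  · by_cases hbb : b = b'.1
    · subst hbb
      exact abs_apply_sub_le h3 _
    · have h4 := (P.mem_TB i hi hΛ O hκ hW hlam hΓ hx b).2 hb
      have h5 := (junc_ax hbb h4 (rtK_sub L (u := 60) (by norm_num) h2) hb
        (rtK_sub L (u := 60) (by norm_num) h1)).1
      rw [h5, sub_self, abs_zero]
      linarith
  · rw [h1, sub_self, abs_zero]
    linarith

end P073.H244
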