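import Vale.Agent.P073.H238.RT1Defs

/-!
# P073, H244: **[OFF-K]**: outside of the full zones `rtK 60` of the processed boxes nothing
happens at the points of the given cells

For the map `Ψ` of [T-END] (H228 #13957, H236).
-/

open Set Metric Topology Filter

namespace P073.H244

open _root_.P073 _root_.P073.Net _root_.P073.PA691 _root_.P073.H236 _root_.P073.H196
open _root_.P073.H345 (PK IsQ)
open Vale.Agent.P073.St (V)
open Vale.Agent.P073.H471 Vale.Agent.P073.H267 Vale.Agent.P073.H267.Geo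
open Vale.Agent.P073.H73 (Mesh)
open Vale.Agent.P073.H193 (Edges)
open Vale.Agent.P073.H669 (TLv)
open Vale.Agent.P073.H579 (TStageW)
open Vale.Agent.P073.H238.K3 (Wc Gv Act GivOut)
open Vale.Agent.P073.H926

variable {c₀ n δ : ℝ} {j : ℕ} {Ω Λ : Set V} {v w : V} {ρ : V → ℝ} {M : Mesh Ω}
  {h : ConHomeo Ω Λ} {J₀ J : Set (ℕ × (Fin 3 → ℤ))} {P Z : Set M.ι} {K : BoxCx Λ w}
  {D : KIn3 c₀ n j δ v w ρ M h J₀ J P Z} {C : Cells ρ w K} {E : Edges M}
  {Tt : TBx K → Finset (ℝ × ℝ)} {η : ℝ} {εE : E.ε → ℝ} {dl : TBx K → ℝ}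
  {L : TLv (D.G C) E h (ω3T δ C) Tt η (fun _ : Empty => (∅ : Set V)) ∅ εE dl}
  {c : TBx K → ℝ} {hc0 : ∀ b, 0 < c b} {hc : ∀ b, c b ≤ dl b / 8} {A₁ : ℝ} {lamb : TBx K → ℝ}
  {h' g : ConHomeo Ω Λ} {e : TBx K → ℝ} {he : ∀ b, 0 < e b} {he2 : ∀ b, 2 * e b < dl b}
  {V₀ : pB C J₀ → Finset ℝ} {X : FixD (F1 L hc0 hc he he2 (pB C J₀)) V₀}
  {Hα H₁ Tf : ConHomeo Λ Λ}

/-- the staircase is the identity outside of the zones -/
theorem st_off (H : RTS L hc0 hc he he2 X Hα H₁ Tf) {y : V}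
    (hy : ∀ b ∈ pB C J₀, y ∉ rtK (D.G C) (ω3T δ C) b 60) :
    ((Hα.trans H₁).trans Tf).toFun y = y :=
  H.vrt.off y fun b => hy b.1 b.2

/-- the staircase preserves the zones -/
theorem st_mem (H : RTS L hc0 hc he he2 X Hα H₁ Tf) {y : V} {b : TBx K} (hb : b ∈ pB C J₀)
    (hy : y ∈ rtK (D.G C) (ω3T δ C) b 60) :
    ((Hα.trans H₁).trans Tf).toFun y ∈ rtK (D.G C) (ω3T δ C) b 60 :=
  H.vrt.mem (b := ⟨b, hb⟩) hy

/-- **[OFF-K], given cells**: if `h x` is outside of the zones, nothing happens at `x` -/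
theorem offK (GO : GivOut D C E L hc0 hc A₁ lamb h' g) (H : RTS L hc0 hc he he2 X Hα H₁ Tf)
    {i : M.ι} (hi : i ∈ P ∪ Wc D C) {x : V} (hx : x ∈ M.Q i)
    (hxK : ∀ b ∈ pB C J₀, h.toFun x ∉ rtK (D.G C) (ω3T δ C) b 60) :
    g.toFun x = h.toFun x ∧ ((Hα.trans H₁).trans Tf).toFun (g.toFun x) = h.toFun x := by
  have h1 : g.toFun x = h.toFun x := by
    rcases GO.pt i hi x hx with ⟨b, hb, -, h2, -⟩ | h2
    · exact absurd h2 (hxK b hb)
    · exact h2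
  exact ⟨h1, by rw [h1]; exact st_off H hxK⟩

/-- **[OFF-K], given cells, in the target**: if the new point is outside of the zones, nothing
happens at `x` -/
theorem offK' (GO : GivOut D C E L hc0 hc A₁ lamb h' g) (H : RTS L hc0 hc he he2 X Hα H₁ Tf)
    {i : M.ι} (hi : i ∈ P ∪ Wc D C) {x : V} (hx : x ∈ M.Q i)
    (hxK : ∀ b ∈ pB C J₀,
      ((Hα.trans H₁).trans Tf).toFun (g.toFun x) ∉ rtK (D.G C) (ω3T δ C) b 60) :
    g.toFun x = h.toFun x ∧ ((Hα.trans H₁).trans Tf).toFun (g.toFun x) = h.toFun x := by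
  have h0 : ∀ b ∈ pB C J₀, g.toFun x ∉ rtK (D.G C) (ω3T δ C) b 60 := fun b hb h1 =>
    hxK b hb (st_mem H hb h1)
  have h1 : g.toFun x = h.toFun x := by
    rcases GO.pt i hi x hx with ⟨b, hb, -, -, h2, -⟩ | h2
    · exact absurd h2 (h0 b hb)
    · exact h2
  exact ⟨h1, (st_off H h0).trans h1⟩

/-- **[OFF-K], cells which miss the boxes** -/
theorem offK_miss (O : TStageW (D.G C) M h h' P (P ∪ Wc D C) (Act D C) (pB C J₀) L.lev
      (ω3T δ C)) (GO : GivOut D C E L hc0 hc A₁ lamb h' g)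
    (H : RTS L hc0 hc he he2 X Hα H₁ Tf) {i : M.ι}
    (hi : ∀ x ∈ M.Q i, ∀ b ∈ pB C J₀, h.toFun x ∉ (D.G C).TB false b) {x : V}
    (hx : x ∈ M.Q i) :
    g.toFun x = h.toFun x ∧ ((Hα.trans H₁).trans Tf).toFun (g.toFun x) = h.toFun x := by
  have h1 : g.toFun x = h.toFun x := by
    rw [GO.miss i hi hx]
    exact (O.off x (M.sub i hx) fun b hb h2 => hi x hx b hb (interior_subset h2)).self_of_nhds
  refine ⟨h1, ?_⟩
  rw [h1]
  exact st_off H fun b hb h2 => hi x hx b hb (rtK_sub L (by norm_num) h2)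

end P073.H244
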