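import Vale.Agent.P073.H244.GivOsc
import Vale.Agent.P073.H238.TSep

/-!
# P073, H244: **[OSC-F]**, the oscillation of the clamped level coordinate on a face, set form

After ROUND T the image of a face `F` is `Pre κ Λ h' F`.  `face_lift`: a point of the new image is a
point of the old image, or both are in the support of one box and near each other.  `side_of_near`:
two boxes.  `oscf_of`: if `F` meets the box (before the round), the oscillation of the clamped level
coordinate on `F` is at most the oscillation of the level coordinate of `h` plus small.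
-/

open Set Metric Topology Filter

namespace P073.H244

open _root_.P073 _root_.P073.Net _root_.P073.PA691 _root_.P073.H236
  _root_.P073.H345 _root_.P073.H196
open _root_.P073.H579 hiding clm
open Vale.Agent.P073.St (V)
open Vale.Agent.P073.H471 Vale.Agent.P073.H267 Vale.Agent.P073.H267.Geo Vale.Agent.P073.H669
open Vale.Agent.P073.H73 (Mesh)
open Vale.Agent.P073.H193 (Edges)
open Vale.Agent.P073.H579 (TStageW skelW)
open Vale.Agent.P073.H238 (TMid TB_sep)
open Vale.Agent.P073.H238.K3 (clm)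

variable {Ω Λ : Set V} {v : V} {K : BoxCx Λ v} {S : Rad K} {Wd : Wid K S} {B : Boxes Wd}
  {G : Geo B} {M : Mesh Ω} {E : Edges M} {h h' : ConHomeo Ω Λ} {ω : TBx K → ℝ}
  {T : TBx K → Finset (ℝ × ℝ)} {ηn : ℝ} {τ : Type*} {A : τ → Set V} {C : Set ℝ} {εE : E.ε → ℝ}
  {δ : TBx K → ℝ} {Pr W : Set M.ι} {Act₀ : Set M.κ} {G₀ : Set (TBx K)} {κ : V → V}
  {L : TLv G E h ω T ηn A C εE δ} {c : TBx K → ℝ} {hc0 : ∀ b, 0 < c b}
  {hc : ∀ b, c b ≤ δ b / 8} {g : ConHomeo Ω Λ} {F : Set V}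

/-- **two boxes**: near a point of the box `b`, the other box is on one side of the window of `b` -/
theorem side_of_near (L : TLv G E h ω T ηn A C εE δ) {b b' : TBx K} (hne : b ≠ b') {y p q : V}
    (hy : y ∈ G.TB false b) (hp : p ∈ G.TB false b') (hq : q ∈ G.TB false b')
    (hpd : dist y p ≤ 15 * (ω b + ω b')) (hqd : dist y q ≤ 15 * (ω b + ω b')) :
    (p b.ax ≤ G.tlo true b b.ax ∧ q b.ax ≤ G.tlo true b b.ax) ∨
      (G.thi true b b.ax ≤ p b.ax ∧ G.thi true b b.ax ≤ q b.ax) := by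
  have h0 := L.ω0 b
  have h0' := L.ω0 b'
  have sep : ∀ z ∈ G.TB false b', dist y z ≤ 15 * (ω b + ω b') →
      z b.ax ≤ G.tlo true b b.ax ∨ G.thi true b b.ax ≤ z b.ax := fun z hz hd =>
    TB_sep G hne hy hz h0 (L.ωo b) h0' (L.ωo b') hd
  have hlt : G.tlo true b b.ax < G.thi true b b.ax := by
    obtain ⟨h1, h2⟩ := L.mem_win (b := b) (L.pos b)
    linarith
  have cross : ∀ z ∈ G.TB false b', ∀ z' ∈ G.TB false b', dist y z ≤ 15 * (ω b + ω b') →
      dist y z' ≤ 15 * (ω b + ω b') → z b.ax ≤ G.tlo true b b.ax →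
      G.thi true b b.ax ≤ z' b.ax → False := by
    intro z hz z' hz' hd hd' h1 h2
    have hc1 : Convex ℝ (G.TB false b' ∩ closedBall y (15 * (ω b + ω b'))) :=
      (convex_Icc _ _).inter (convex_closedBall _ _)
    obtain ⟨u, ⟨hu, hud⟩, hua⟩ := hc1.isPreconnected.intermediate_value
      ⟨hz, by rwa [mem_closedBall, dist_comm]⟩ ⟨hz', by rwa [mem_closedBall, dist_comm]⟩
      (continuous_apply b.ax).continuousOn
      (show (G.tlo true b b.ax + G.thi true b b.ax) / 2 ∈ Icc (z b.ax) (z' b.ax) from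
        ⟨by linarith, by linarith⟩)
    have hua' : u b.ax = (G.tlo true b b.ax + G.thi true b b.ax) / 2 := hua
    rcases sep u hu (by rwa [mem_closedBall, dist_comm] at hud) with h3 | h3 <;> linarith
  rcases sep p hp hpd with h1 | h1 <;> rcases sep q hq hqd with h2 | h2
  · exact Or.inl ⟨h1, h2⟩
  · exact (cross p hp q hq hpd hqd h1 h2).elim
  · exact (cross q hq p hp hqd hpd h2 h1).elim
  · exact Or.inr ⟨h1, h2⟩

/-- the middle zone -/
theorem tmid_rtK {b : TBx K} {z : V} (hz : z ∈ TMid G b (ω b)) : z ∈ rtK G ω b 10 := by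
  refine ⟨?_, fun j hj => ?_⟩
  · have h1 := hz.1 b.ax
    have h2 := hz.2 b.ax
    simp only [if_pos] at h1 h2
    exact ⟨h1, h2⟩
  · have h1 := hz.1 j
    have h2 := hz.2 j
    simp only [if_neg hj] at h1 h2
    exact ⟨h1, h2⟩

/-- **the lift of a point of a face** -/
theorem face_lift (D : St2W L hc0 hc Pr W Act₀ G₀ h' κ g) (hcω : ∀ b : G₀, c b.1 ≤ ω b.1)
    (hFΩ : F ⊆ Ω) (hF : g.toFun '' F = Pre κ Λ h' F) (hFs : F ⊆ skelW M W) {x : V}
    (hx : x ∈ F) : ∃ z ∈ F, κ (g.toFun x) = h'.toFun z ∧ (g.toFun x = h.toFun z ∨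
      ∃ b : G₀, h.toFun z ∈ interior (G.TB false b.1) ∧ h.toFun z ∈ rtK G ω b.1 60 ∧
        g.toFun x ∈ interior (G.TB false b.1) ∧ g.toFun x ∈ rtK G ω b.1 60 ∧
        ‖g.toFun x - h.toFun z‖ ≤ 8 * ω b.1) := by
  have ω0 := L.ω0
  have O := D.O
  have hκ := D.isQ
  have hfam : H345.Fam Λ fun b : G₀ => L.bxQ c hc0 hc b.1 := D.fam
  have h1 : g.toFun x ∈ Pre κ Λ h' F := by rw [← hF]; exact ⟨x, hx, rfl⟩
  obtain ⟨-, z, hz, he⟩ := h1
  have he : κ (g.toFun x) = h'.toFun z := he.symm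
  have hzΩ : z ∈ Ω := hFΩ hz
  refine ⟨z, hz, he, ?_⟩
  have D3 : h'.toFun z = h.toFun z ∨ ∃ b : G₀, h.toFun z ∈ interior (G.TB false b.1) ∧
      h'.toFun z ∈ interior (G.TB false b.1) ∧ h.toFun z ∈ rtK G ω b.1 10 ∧
      h'.toFun z ∈ rtK G ω b.1 10 ∧ ‖h'.toFun z - h.toFun z‖ ≤ 6 * ω b.1 := by
    by_cases hex : ∃ b ∈ G₀, h.toFun z ∈ interior (TMid G b (ω b))
    · obtain ⟨b, hb, hyb⟩ := hex
      right
      have h2 := interior_mono (Vale.Agent.P073.H238.TMid_sub G b (ω0 b) (L.ωo b)) hyb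
      refine ⟨⟨b, hb⟩, h2, (O.memI b z hzΩ).2 h2, tmid_rtK (interior_subset hyb),
        tmid_rtK (interior_subset ((O.memM b z hzΩ).2 hyb)), ?_⟩
      have h3 := O.near b z (hFs hz) (interior_subset h2)
      rwa [dist_eq_norm] at h3
    · push Not at hex
      left
      exact (O.off' z hzΩ hex).self_of_nhds
  have D2 : g.toFun x = h'.toFun z ∨ ∃ b : G₀, h'.toFun z ∈ interior (G.TB false b.1) ∧
      g.toFun x ∈ interior (G.TB false b.1) ∧ g.toFun x ∈ rtK G ω b.1 40 ∧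
      h'.toFun z ∈ rtK G ω b.1 40 ∧ ‖g.toFun x - h'.toFun z‖ ≤ c b.1 := by
    by_cases hex : ∃ b : G₀, g.toFun x ∈ (L.bxQ c hc0 hc b.1).K
    · obtain ⟨b, hb⟩ := hex
      have hK : h'.toFun z ∈ rtK G ω b.1 40 := (L.mem_K hc0 hc).1 (by
        rw [← he]
        exact (hκ.mem_iff hfam (g := b)).2 hb)
      have hgK : g.toFun x ∈ rtK G ω b.1 40 := (L.mem_K hc0 hc).1 hb
      by_cases hend : h'.toFun z b.1.ax ≤ G.tlo true b.1 b.1.ax ∨
          G.thi true b.1 b.1.ax ≤ h'.toFun z b.1.ax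
      · left
        rw [← he, hκ.on b _ hb] at hend ⊢
        exact (eq_Q_of_end (L.bxQ c hc0 hc b.1) hend).symm
      · by_cases hend' : g.toFun x b.1.ax ≤ G.tlo true b.1 b.1.ax ∨
            G.thi true b.1 b.1.ax ≤ g.toFun x b.1.ax
        · left
          rw [← he, hκ.on b _ hb]
          exact (Q_eq_self_of_end (L.bxQ c hc0 hc b.1) hend').symm
        · push Not at hend hend'
          right
          refine ⟨b, int_of_rtK L (by norm_num) hK hend.1 hend.2,
            int_of_rtK L (by norm_num) hgK hend'.1 hend'.2, hgK, hK, ?_⟩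
          rw [← he, hκ.on b _ hb, norm_sub_rev]
          exact (L.bxQ c hc0 hc b.1).norm_Q_sub_le _
    · push Not at hex
      left
      rw [← he, hκ.off _ hex]
  rcases D2 with h2 | ⟨b, i1, i2, k1, k2, n1⟩
  · rcases D3 with h3 | ⟨b, j1, j2, l1, l2, n2⟩
    · exact Or.inl (h2.trans h3)
    · refine Or.inr ⟨b, j1, rtK_mono L (by norm_num) l1, h2 ▸ j2,
        h2 ▸ rtK_mono L (by norm_num) l2, ?_⟩
      rw [h2]
      linarith [ω0 b.1]
  · rcases D3 with h3 | ⟨b', j1, j2, l1, l2, n2⟩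
    · refine Or.inr ⟨b, h3 ▸ i1, h3 ▸ rtK_mono L (by norm_num) k2, i2,
        rtK_mono L (by norm_num) k1, ?_⟩
      rw [← h3]
      linarith [ω0 b.1, hcω b]
    · have hbb : b' = b := by
        by_contra hne
        exact Set.disjoint_left.1 (Geo.disjoint_TB (G := G) (b := b.1) (b' := b'.1)
          fun h => hne (Subtype.ext h.symm)) i1 (interior_subset j2)
      subst hbb
      refine Or.inr ⟨b', j1, rtK_mono L (by norm_num) l1, i2, rtK_mono L (by norm_num) k1, ?_⟩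
      have h8 := norm_sub_le_norm_sub_add_norm_sub (g.toFun x) (h'.toFun z) (h.toFun z)
      have h9 := hcω b'
      have h10 := ω0 b'.1
      linarith

theorem clm_of_lo {lo hi t : ℝ} (h : lo ≤ hi) (ht : t ≤ lo) : clm lo hi t = lo := by
  unfold clm
  rw [min_eq_right (ht.trans h), max_eq_left ht]

theorem clm_of_hi {lo hi t : ℝ} (h : lo ≤ hi) (ht : hi ≤ t) : clm lo hi t = hi := by
  unfold clm
  rw [min_eq_left ht, max_eq_right h]

/-- **the staircase** at the lift of a point of the box -/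
theorem clm_stair (D : St2W L hc0 hc Pr W Act₀ G₀ h' κ g) (hcω : ∀ b : G₀, c b.1 ≤ ω b.1)
    (hFΩ : F ⊆ Ω) (hF : g.toFun '' F = Pre κ Λ h' F) (hFs : F ⊆ skelW M W)
    (hosc : ∀ b : G₀, ∀ x ∈ F, ∀ y ∈ F, h.toFun x ∈ G.TB false b.1 →
      dist (h.toFun x) (h.toFun y) ≤ ω b.1)
    {Sm : V → V} {r : G₀ → ℝ} (HM : Mv (fun b : G₀ => rtK G ω b.1 60) r Sm)
    (hr : ∀ b, r b ≤ 6 * ω b.1) {b : G₀} {Dd : ℝ}
    (hS : ∀ y ∈ G.TB false b.1, |Sm y b.1.ax - y b.1.ax| ≤ Dd)
    {lo hi' : ℝ} (hlo : G.tlo true b.1 b.1.ax ≤ lo) (hle : lo ≤ hi')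
    (hhi : hi' ≤ G.thi true b.1 b.1.ax) {u₀ : V} (hu₀ : u₀ ∈ F)
    (hub : h.toFun u₀ ∈ G.TB false b.1) {x : V} (hx : x ∈ F) :
    |clm lo hi' (Sm (g.toFun x) b.1.ax) - clm lo hi' (g.toFun x b.1.ax)| ≤ Dd := by
  have hω := L.ω0 b.1
  have hD0 : 0 ≤ Dd := (abs_nonneg _).trans (hS _ hub)
  obtain ⟨z, hz, -, hl⟩ := face_lift D hcω hFΩ hF hFs hx
  have hxz := hosc b u₀ hu₀ z hz hub
  by_cases hex : ∃ b' : G₀, g.toFun x ∈ rtK G ω b'.1 60
  · obtain ⟨b', hb'⟩ := hex
    by_cases hbb : b = b'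
    · subst hbb
      exact (abs_clamp_sub_le lo hi' _ _).trans (hS _ (rtK_sub L (u := 60) (by norm_num) hb'))
    · have hω' := L.ω0 b'.1
      have hd : dist (h.toFun u₀) (g.toFun x) ≤ ω b.1 + 8 * ω b'.1 := by
        rcases hl with h1 | ⟨b₁, -, -, h2, -, h3⟩
        · rw [h1]; linarith
        · have h4 : b₁ = b' := by
            by_contra hne
            exact Set.disjoint_left.1 (Geo.disjoint_TB (G := G) (b := b₁.1) (b' := b'.1)
              fun h => hne (Subtype.ext h)) h2 (rtK_sub L (u := 60) (by norm_num) hb')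
          subst h4
          have h5 := dist_triangle (h.toFun u₀) (h.toFun z) (g.toFun x)
          rw [dist_comm (h.toFun z), dist_eq_norm (g.toFun x)] at h5
          linarith
      have hn := HM.near b' _ hb'
      have hm := HM.mem b' _ hb'
      have hd' : dist (h.toFun u₀) (Sm (g.toFun x)) ≤ 15 * (ω b.1 + ω b'.1) := by
        have h5 := dist_triangle (h.toFun u₀) (g.toFun x) (Sm (g.toFun x))
        rw [dist_comm (g.toFun x), dist_eq_norm (Sm (g.toFun x))] at h5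
        linarith [hr b']
      rcases side_of_near L (fun h => hbb (Subtype.ext h)) hub
        (rtK_sub L (u := 60) (by norm_num) hm) (rtK_sub L (u := 60) (by norm_num) hb') hd'
        (by linarith) with ⟨h6, h7⟩ | ⟨h6, h7⟩
      · rw [clm_of_lo hle (h6.trans hlo), clm_of_lo hle (h7.trans hlo), sub_self, abs_zero]
        exact hD0
      · rw [clm_of_hi hle (hhi.trans h6), clm_of_hi hle (hhi.trans h7), sub_self, abs_zero]
        exact hD0
  · push Not at hex
    rw [HM.off _ hex, sub_self, abs_zero]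
    exact hD0

/-- the lift of a point of the box: the level coordinate -/
theorem ax_lift (D : St2W L hc0 hc Pr W Act₀ G₀ h' κ g) (hcω : ∀ b : G₀, c b.1 ≤ ω b.1)
    (hFΩ : F ⊆ Ω) (hF : g.toFun '' F = Pre κ Λ h' F) (hFs : F ⊆ skelW M W)
    (hosc : ∀ b : G₀, ∀ x ∈ F, ∀ y ∈ F, h.toFun x ∈ G.TB false b.1 →
      dist (h.toFun x) (h.toFun y) ≤ ω b.1) {b : G₀}
    {lo hi' : ℝ} (hlo : G.tlo true b.1 b.1.ax + 50 * ω b.1 ≤ lo) (hle : lo ≤ hi')
    (hhi : hi' ≤ G.thi true b.1 b.1.ax - 50 * ω b.1) {u₀ : V} (hu₀ : u₀ ∈ F)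
    (hub : h.toFun u₀ ∈ G.TB false b.1) {x : V} (hx : x ∈ F) :
    (g.toFun x b.1.ax < hi' → h.toFun u₀ b.1.ax < G.thi true b.1 b.1.ax - 41 * ω b.1) ∧
      (lo < g.toFun x b.1.ax → G.tlo true b.1 b.1.ax + 41 * ω b.1 < h.toFun u₀ b.1.ax) := by
  have hω := L.ω0 b.1
  obtain ⟨z, hz, -, hl⟩ := face_lift D hcω hFΩ hF hFs hx
  have hxz := hosc b u₀ hu₀ z hz hub
  have hxz' := hxz
  rw [dist_comm, dist_eq_norm] at hxz'
  obtain ⟨a1, a2⟩ := abs_le.1 (abs_apply_sub_le hxz' b.1.ax)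
  rcases hl with h1 | ⟨b₁, h1, -, h2, -, h3⟩
  · rw [h1]
    constructor <;> intro h4 <;> linarith
  · by_cases hbb : b = b₁
    · subst hbb
      obtain ⟨c1, c2⟩ := abs_le.1 (abs_apply_sub_le h3 b.1.ax)
      constructor <;> intro h4 <;> linarith
    · have hω' := L.ω0 b₁.1
      have hd : dist (h.toFun u₀) (g.toFun x) ≤ ω b.1 + 8 * ω b₁.1 := by
        have h5 := dist_triangle (h.toFun u₀) (h.toFun z) (g.toFun x)
        rw [dist_comm (h.toFun z), dist_eq_norm (g.toFun x)] at h5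
        linarith
      rcases side_of_near L (fun h => hbb (Subtype.ext h)) hub (interior_subset h1)
        (interior_subset h2) (by linarith) (by linarith) with ⟨h6, h7⟩ | ⟨h6, h7⟩
      · constructor <;> intro h4 <;> linarith
      · constructor <;> intro h4 <;> linarith

/-- **[OSC-F]**: the oscillation of the clamped level coordinate on a face -/
theorem oscf_of (D : St2W L hc0 hc Pr W Act₀ G₀ h' κ g) (hcω : ∀ b : G₀, c b.1 ≤ ω b.1)
    (hFΩ : F ⊆ Ω) (hFc : Convex ℝ F) (hF : g.toFun '' F = Pre κ Λ h' F) (hFs : F ⊆ skelW M W)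
    (hosc : ∀ b : G₀, ∀ x ∈ F, ∀ y ∈ F, h.toFun x ∈ G.TB false b.1 →
      dist (h.toFun x) (h.toFun y) ≤ ω b.1)
    {Sm : V → V} {r : G₀ → ℝ} (HM : Mv (fun b : G₀ => rtK G ω b.1 60) r Sm)
    (hr : ∀ b, r b ≤ 6 * ω b.1) {b : G₀} {Dd : ℝ}
    (hS : ∀ y ∈ G.TB false b.1, |Sm y b.1.ax - y b.1.ax| ≤ Dd)
    {lo hi' : ℝ} (hlo : G.tlo true b.1 b.1.ax + 50 * ω b.1 ≤ lo) (hle : lo ≤ hi')
    (hhi : hi' ≤ G.thi true b.1 b.1.ax - 50 * ω b.1)
    (hdω : dsp (T b.1) (δ b.1) + δ b.1 ≤ ω b.1) {Bd : ℝ}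
    (hBd : ∀ x ∈ F, ∀ y ∈ F, |h.toFun x b.1.ax - h.toFun y b.1.ax| ≤ Bd)
    {u₀ : V} (hu₀ : u₀ ∈ F) (hub : h.toFun u₀ ∈ G.TB false b.1)
    {x y : V} (hx : x ∈ F) (hy : y ∈ F) :
    |clm lo hi' (Sm (g.toFun x) b.1.ax) - clm lo hi' (Sm (g.toFun y) b.1.ax)| ≤
      Bd + 2 * (dsp (T b.1) (δ b.1) + δ b.1) + 2 * Dd := by
  have hω := L.ω0 b.1
  have hδ := L.δ0 b.1
  have hd0 := L.dsp_nonneg b.1
  have hB0 : 0 ≤ Bd := (abs_nonneg _).trans (hBd x hx x hx)
  have O := D.O
  have hκ := D.isQ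
  -- the main part
  have key : ∀ x ∈ F, ∀ y ∈ F, g.toFun x b.1.ax ≤ g.toFun y b.1.ax →
      clm lo hi' (g.toFun y b.1.ax) - clm lo hi' (g.toFun x b.1.ax) ≤
        Bd + 2 * (dsp (T b.1) (δ b.1) + δ b.1) := by
    intro x hx y hy hlexy
    by_cases hcl : clm lo hi' (g.toFun y b.1.ax) ≤ clm lo hi' (g.toFun x b.1.ax)
    · linarith
    push Not at hcl
    have hp1 : g.toFun x b.1.ax < hi' := by
      by_contra hcon
      push Not at hcon
      rw [clm_of_hi hle hcon, clm_of_hi hle (hcon.trans hlexy)] at hcl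
      exact lt_irrefl _ hcl
    have hq1 : lo < g.toFun y b.1.ax := by
      by_contra hcon
      push Not at hcon
      rw [clm_of_lo hle hcon, clm_of_lo hle (hlexy.trans hcon)] at hcl
      exact lt_irrefl _ hcl
    have nx := (ax_lift D hcω hFΩ hF hFs hosc hlo hle hhi hu₀ hub hx).1 hp1
    have ny := (ax_lift D hcω hFΩ hF hFs hosc hlo hle hhi hu₀ hub hy).2 hq1
    have deep : ∀ z ∈ F, G.tlo true b.1 b.1.ax + 40 * ω b.1 ≤ h.toFun z b.1.ax ∧
        h.toFun z b.1.ax ≤ G.thi true b.1 b.1.ax - 40 * ω b.1 := by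
      intro z hz
      have h1 := hosc b u₀ hu₀ z hz hub
      rw [dist_comm, dist_eq_norm] at h1
      have h2 := abs_le.1 (abs_apply_sub_le h1 b.1.ax)
      constructor <;> linarith
    by_cases hin : ∃ z₀ ∈ F, h.toFun z₀ ∈ rtK G ω b.1 60
    · -- the image of the face is deep inside of the box
      obtain ⟨z₀, hz₀, hz₀K⟩ := hin
      have hint : ∀ z ∈ F, h.toFun z ∈ interior (G.TB false b.1) := by
        intro z hz
        have h1 := hosc b z₀ hz₀ z hz (rtK_sub L (u := 60) (by norm_num) hz₀K)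
        rw [dist_comm, dist_eq_norm] at h1
        obtain ⟨d1, d2⟩ := deep z₀ hz₀
        exact (deep_int L le_rfl (by norm_num) hz₀K (by linarith) (by linarith) h1).2
      have hlev : ∀ k < L.N b.1, g.toFun x b.1.ax < L.a b.1 k → L.a b.1 k < g.toFun y b.1.ax →
          ∃ z ∈ F, h.toFun z b.1.ax = L.a b.1 k := by
        intro k hk h1 h2
        obtain ⟨z, hz, hza⟩ := hFc.isPreconnected.intermediate_value hx hy
          ((continuous_apply b.1.ax).comp_continuousOn (g.cont.mono hFΩ)) ⟨h1.le, h2.le⟩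
        have hza' : g.toFun z b.1.ax = L.a b.1 k := hza
        obtain ⟨u, hu, hκu, -⟩ := face_lift D hcω hFΩ hF hFs hz
        have h3 : h'.toFun u ∈ G.TB false b.1 :=
          interior_subset ((O.memI b.1 u (hFΩ hu)).2 (hint u hu))
        have hzT : g.toFun z ∈ G.TB false b.1 := (isQ_mem_TB L D.hΛ hκ).1 (by rwa [hκu])
        have h4 := isQ_lev L hκ hzT hk hza'
        rw [hκu] at h4
        have h5 := (O.keep b.1 u (hFs hu) h3 ⟨k, hk, h4⟩).self_of_nhds
        exact ⟨u, hu, by rw [← h5]; exact h4⟩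
      refine clamp_gap (N := L.N b.1) (a := L.a b.1) (fun k l hkl hl => lev_lt L hkl hl)
        (L.pos b.1) (gap := dsp (T b.1) (δ b.1) + δ b.1) ?_ ?_ (fun k hk => lev_gap L hk)
        (by linarith) hB0 (fun k hk l hl a1 a2 a3 a4 => ?_) hlexy
      · have := L.first_le b.1
        linarith
      · have := L.le_last b.1
        linarith
      · obtain ⟨z, hz, hza⟩ := hlev k hk a1 a2
        obtain ⟨z', hz', hza'⟩ := hlev l hl a3 a4
        rw [← hza, ← hza']
        exact (le_abs_self _).trans (hBd z' hz' z hz)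
    · -- nothing changes
      push Not at hin
      have heq : ∀ u ∈ F, ∃ z ∈ F, g.toFun u = h.toFun z := by
        intro u hu
        obtain ⟨z, hz, -, hl⟩ := face_lift D hcω hFΩ hF hFs hu
        rcases hl with h1 | ⟨b₁, h1, h2, -, -, -⟩
        · exact ⟨z, hz, h1⟩
        · exfalso
          by_cases hbb : b = b₁
          · subst hbb
            exact hin z hz h2
          · have hω' := L.ω0 b₁.1
            have h4 := hosc b u₀ hu₀ z hz hub
            obtain ⟨d1, d2⟩ := deep z hz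
            rcases TB_sep G (fun h => hbb (Subtype.ext h)) hub (interior_subset h1) hω
              (L.ωo b.1) hω' (L.ωo b₁.1) (by linarith) with h5 | h5 <;> linarith
      obtain ⟨z, hz, hzx⟩ := heq x hx
      obtain ⟨z', hz', hzy⟩ := heq y hy
      have h1 := (abs_clamp_sub_le lo hi' (g.toFun y b.1.ax) (g.toFun x b.1.ax))
      have h2 := hBd z' hz' z hz
      rw [← hzx, ← hzy] at h2
      have h3 := le_abs_self (clm lo hi' (g.toFun y b.1.ax) - clm lo hi' (g.toFun x b.1.ax))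
      unfold clm at h3 ⊢
      linarith
  have hlo' : G.tlo true b.1 b.1.ax ≤ lo := by linarith
  have hhi' : hi' ≤ G.thi true b.1 b.1.ax := by linarith
  have cx := clm_stair D hcω hFΩ hF hFs hosc HM hr hS hlo' hle hhi' hu₀ hub hx
  have cy := clm_stair D hcω hFΩ hF hFs hosc HM hr hS hlo' hle hhi' hu₀ hub hy
  have main : |clm lo hi' (g.toFun x b.1.ax) - clm lo hi' (g.toFun y b.1.ax)| ≤
      Bd + 2 * (dsp (T b.1) (δ b.1) + δ b.1) := by
    rcases le_total (g.toFun x b.1.ax) (g.toFun y b.1.ax) with hl | hl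
    · have h1 := key x hx y hy hl
      have h2 : clm lo hi' (g.toFun x b.1.ax) ≤ clm lo hi' (g.toFun y b.1.ax) :=
        max_le_max le_rfl (min_le_min le_rfl hl)
      rw [abs_sub_comm, abs_of_nonneg (by linarith)]
      exact h1
    · have h1 := key y hy x hx hl
      have h2 : clm lo hi' (g.toFun y b.1.ax) ≤ clm lo hi' (g.toFun x b.1.ax) :=
        max_le_max le_rfl (min_le_min le_rfl hl)
      rw [abs_of_nonneg (by linarith)]
      exact h1
  obtain ⟨a1, a2⟩ := abs_le.1 cx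
  obtain ⟨b1, b2⟩ := abs_le.1 cy
  obtain ⟨m1, m2⟩ := abs_le.1 main
  rw [abs_le]
  constructor <;> linarith

end P073.H244
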