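import Vale.Agent.P073.H340.PEspec

/-!
# P073, H244, [PRE-2]: **[OSCD]**, the oscillation of `f` on the minimal squares outside of the cells

`exists_oscTh`: thresholds for the generations of the divided cubes; `oscD_of`: the field `oscD` of
`H340.PE` from `MeshOut.gen`.
-/

set_option autoImplicit false

namespace Vale.Agent.P073.H244

open MeasureTheory Set Filter Topology Metric Vale.Agent.P073.St Vale.Agent.P073.AB
open Vale.Agent.P073.H340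
open _root_.P073 (ConHomeo)
open _root_.P073.Net (dyc dyo IsTile SizeFn len)
open Vale.Agent.P073.H73 (MinEdge Bix ctr WLe segP onSeg)
open Vale.Agent.P073.H194 (refine Big wH zo so co MeshOut MeshIn bInt Oc cellT Bk GoodC sInt Gen)
open Vale.Agent.P073.H333 (lay gap core out base inet Mid PD0)
open scoped ENNReal

/-- uniform continuity on one dyadic cube -/
theorem exists_osc_cube {f : V → V} {v : V} {q : Idx} (hf : ContinuousOn f (dyc v q.1 q.2))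
    {ω : ℝ} (hω : 0 < ω) : ∃ t : ℕ, ∀ s : Idx × Fin 3, t ≤ s.1.1 → squ v s ⊆ dyc v q.1 q.2 →
      ∀ x ∈ squ v s, ∀ y ∈ squ v s, ‖f x - f y‖ ≤ ω := by
  have hu := (P86.isCompact_dyc v q.1 q.2).uniformContinuousOn_of_continuous hf
  rw [Metric.uniformContinuousOn_iff] at hu
  obtain ⟨d, hd, hd'⟩ := hu ω hω
  obtain ⟨t, ht⟩ := H194.exists_t (half_pos hd) 1
  refine ⟨t, fun s hs hsq x hx y hy => ?_⟩
  have h1 := H234.squ_dist hx hy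
  have h2 := ht s.1.1 hs
  have h3 := hd' x (hsq hx) y (hsq hy) (by rw [dist_eq_norm]; linarith)
  rw [dist_eq_norm] at h3
  exact h3.le

/-- **thresholds** -/
theorem exists_oscTh {Ω : Set V} {f : V → V} (hf : ContinuousOn f Ω) (v : V) {ω : ℝ}
    (hω : 0 < ω) : ∃ th : Idx → ℕ, ∀ q : Idx, dyc v q.1 q.2 ⊆ Ω → ∀ s : Idx × Fin 3,
      th q ≤ s.1.1 → squ v s ⊆ dyc v q.1 q.2 → ∀ x ∈ squ v s, ∀ y ∈ squ v s,
        ‖f x - f y‖ ≤ ω := by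
  classical
  have h : ∀ q : Idx, ∃ t : ℕ, dyc v q.1 q.2 ⊆ Ω → ∀ s : Idx × Fin 3, t ≤ s.1.1 →
      squ v s ⊆ dyc v q.1 q.2 → ∀ x ∈ squ v s, ∀ y ∈ squ v s, ‖f x - f y‖ ≤ ω := by
    intro q
    by_cases hq : dyc v q.1 q.2 ⊆ Ω
    · obtain ⟨t, ht⟩ := exists_osc_cube (hf.mono hq) hω
      exact ⟨t, fun _ => ht⟩
    · exact ⟨0, fun h => absurd h hq⟩
  choose th hth using h
  exact ⟨th, hth⟩

/-- the divided cubes outside of the cells -/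
theorem out_mem {Ω : Set V} {v : V} {n k₁ k₀ : ℕ} {J : Finset (Fin 3 → ℤ)} {q : Idx}
    (hq : q ∈ out Ω v n k₁ k₀ J \ olay v n k₁ k₀ J) :
    q ∈ base Ω v n k₁ k₀ J \ kept v n k₁ k₀ J := by
  obtain ⟨h1, h2⟩ := hq
  refine ⟨Or.inl (Or.inl (Or.inl h1)), ?_⟩
  rintro ((h3 | h3) | h3)
  · obtain ⟨-, z, hz, h4, -⟩ := h3
    exact h1.2 z hz h4
  · obtain ⟨-, z, hz, h4, -⟩ := h3
    exact h1.2 z hz (h4.trans (_root_.P073.Gauge.C110.boxB_subset _ _ _ _))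
  · exact h2 h3

/-- **[OSCD]** the field `oscD` of `PE` -/
theorem oscD_of {ι : Type*} {p δ : ℝ} {Ω Λ : Set V} {f : V → V} {G : V → ℝ≥0∞} {v : V}
    {n k₁ k₀ : ℕ} {J : Finset (Fin 3 → ℤ)} {A : (Fin 3 → ℤ) → V → V}
    {L : (Fin 3 → ℤ) → V →L[ℝ] V} {Bx : Finset Bix} {z : ι → V} {σ : ι → ℝ}
    {c : ι → V} {e : Idx → ℝ≥0∞} {τ : Idx → ℝ} {B : Set Idx} {nf : Idx → ℕ} {nr : ℕ}
    (hF : H669.Fine Ω v n k₁ k₀ J)
    (Mh : MeshOut p δ Ω Λ f G v n k₁ J A L (base Ω v n k₁ k₀ J) (kept v n k₁ k₀ J) Bx z σ c e τ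
      B nf nr) {ω : ℝ} {th : Idx → ℕ}
    (hth : ∀ q : Idx, dyc v q.1 q.2 ⊆ Ω → ∀ s : Idx × Fin 3, th q ≤ s.1.1 →
      squ v s ⊆ dyc v q.1 q.2 → ∀ x ∈ squ v s, ∀ y ∈ squ v s, ‖f x - f y‖ ≤ ω)
    (hnf : ∀ q ∈ base Ω v n k₁ k₀ J \ kept v n k₁ k₀ J, th q ≤ nf q) :
    ∀ s, MinSq v (rI2 Ω v n k₁ k₀ J B nf) s → ∀ q ∈ out Ω v n k₁ k₀ J \ olay v n k₁ k₀ J,
      squ v s ⊆ dyc v q.1 q.2 → ∀ x ∈ squ v s, ∀ y ∈ squ v s, ‖f x - f y‖ ≤ ω := by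
  intro s hs q hq hsq
  have h1 := out_mem hq
  refine hth q ?_ s ((hnf q h1).trans (Mh.gen s hs q h1 hsq)) hsq
  exact hF.part_base.sub q h1.1

end Vale.Agent.P073.H244
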