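import Vale.Agent.P073.H340.PE
import Vale.Agent.P073.H687.PD4a

/-!
# P073, [PRE-2] (`p = 2`), [E5]: general lemmas for the sum over the kept cubes

* `kept_sum2`: squares on kept cubes, the bound of one square and the volume of the cubes;
* `tch_sum_le`: one square between two tiles which touch the good cells;
* `olay_volume`: the volume of the outer layer.
-/

open Set Metric Topology Filter Module MeasureTheory
open scoped ENNReal

namespace Vale.Agent.P073.H244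

open Vale.Agent.P073.St (V)
open Vale.Agent.P073.SQ (ev)
open Vale.Agent.P073.H73 (MinEdge segP)
open Vale.Agent.P073.H194 (cellT refine)
open Vale.Agent.P073.H333 (lay gap core out base)
open Vale.Agent.P073.H340 (olay kept)
open Vale.Agent.P073.H234 (Touch Tch dn)
open Vale.Agent.P073.AB Vale.Agent.P073.AB.P86
open Vale.Agent.P073.AB.S308 (edge_sub_squ edgeOf_of_face dyc_coarse gbox gbox_eq_pi volume_gbox
  dyc_sub_of_mem_dyo)
open Vale.Agent.P073.H687 (tsum_minEdge finite_minEdge minEdge_sub sum_minEdge_le term_le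
  card_sqE_le' tsum_sub_le area_le ofReal_cube tsum_split)
open _root_.P073.Net (dyc dyo)

variable {Ω : Set V} {v : V} {I : Set Idx}

/-- one square, the densities of its four edges are bounded -/
theorem square_le {p : ℝ} (hp : 1 ≤ p) (hΩ : IsOpen Ω) (hI : Part Ω v I) {g : V → ℝ≥0∞}
    {K : ℝ≥0∞} {ℓ : Idx × Fin 3 → ℝ≥0∞} {s : Idx × Fin 3} (hs : MinSq v I s)
    (hown : ∀ e, EdgeOfSq e s → eInt v e (fun x => g x ^ p) ≤ K * ENNReal.ofReal (1 / 2 ^ s.1.1))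
    (hℓ : ∀ e, MinEdge v I e → edge v e ⊆ squ v s → ℓ e ≤ eInt v e g) :
    ∑' e : {e : Idx × Fin 3 // MinEdge v I e ∧ edge v e ⊆ squ v s},
      ENNReal.ofReal ((1 / 2 ^ e.1.1.1) ^ (1 - p)) * ℓ e.1 ^ p ≤
      4 * K * ENNReal.ofReal (1 / 2 ^ s.1.1) := by
  rw [tsum_minEdge hI hs fun e => ENNReal.ofReal ((1 / 2 ^ e.1.1) ^ (1 - p)) * ℓ e ^ p]
  calc ∑ e ∈ (finite_minEdge hI hs).toFinset, ENNReal.ofReal ((1 / 2 ^ e.1.1) ^ (1 - p)) * ℓ e ^ p
      ≤ ∑ e ∈ (finite_minEdge hI hs).toFinset, eInt v e fun x => g x ^ p := by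
        refine Finset.sum_le_sum fun e he => ?_
        have he' : MinEdge v I e ∧ edge v e ⊆ squ v s := by simpa using he
        exact term_le hp v e g (hℓ e he'.1 he'.2)
    _ ≤ ∑ e ∈ sqE s, eInt v e fun x => g x ^ p := sum_minEdge_le hΩ hI hs _
    _ ≤ ∑ _e ∈ sqE s, K * ENNReal.ofReal (1 / 2 ^ s.1.1) :=
        Finset.sum_le_sum fun e he => hown e (mem_sqE.1 he)
    _ = (sqE s).card * (K * ENNReal.ofReal (1 / 2 ^ s.1.1)) := by
        rw [Finset.sum_const, nsmul_eq_mul]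
    _ ≤ 4 * (K * ENNReal.ofReal (1 / 2 ^ s.1.1)) := by
        gcongr
        exact card_sqE_le' s
    _ = 4 * K * ENNReal.ofReal (1 / 2 ^ s.1.1) := by rw [mul_assoc]

/-- squares on kept cubes: the bound of one square and the volume of the cubes -/
theorem kept_sum2 {p : ℝ} (hΩ : IsOpen Ω) (hI : Part Ω v I) {Q : Idx → Prop}
    (hQ : ∀ i, Q i → i ∈ I) {S : Idx × Fin 3 → Prop} {K : ℝ≥0∞} {ℓ : Idx × Fin 3 → ℝ≥0∞}
    (hsq : ∀ s, MinSq v I s → S s →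
      ∑' e : {e : Idx × Fin 3 // MinEdge v I e ∧ edge v e ⊆ squ v s},
        ENNReal.ofReal ((1 / 2 ^ e.1.1.1) ^ (1 - p)) * ℓ e.1 ^ p ≤
        4 * K * ENNReal.ofReal (1 / 2 ^ s.1.1)) :
    ∑' i : {i : Idx // Q i},
      ∑' s : {s : Idx × Fin 3 // MinSq v I s ∧ squ v s ⊆ dyc v i.1.1 i.1.2 ∧ S s},
        ∑' e : {e : Idx × Fin 3 // MinEdge v I e ∧ edge v e ⊆ squ v s.1},
          ENNReal.ofReal (1 / 2 ^ i.1.1 * (1 / 2 ^ s.1.1.1)) *
            (ENNReal.ofReal ((1 / 2 ^ e.1.1.1) ^ (1 - p)) * ℓ e.1 ^ p) ≤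
      24 * K * ∑' i : {i : Idx // Q i}, ENNReal.ofReal ((1 / 2 ^ i.1.1) ^ 3) := by
  rw [← ENNReal.tsum_mul_left]
  refine ENNReal.tsum_le_tsum fun i => ?_
  have hr : (0:ℝ) ≤ 1 / 2 ^ i.1.1 := by positivity
  calc _ ≤ ∑' s : {s : Idx × Fin 3 // MinSq v I s ∧ squ v s ⊆ dyc v i.1.1 i.1.2 ∧ S s},
        4 * K * ENNReal.ofReal (1 / 2 ^ i.1.1) * ENNReal.ofReal ((1 / 2 ^ s.1.1.1) ^ 2) := by
        refine ENNReal.tsum_le_tsum fun s => ?_
        rw [ENNReal.tsum_mul_left]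
        calc _ ≤ ENNReal.ofReal (1 / 2 ^ i.1.1 * (1 / 2 ^ s.1.1.1)) *
              (4 * K * ENNReal.ofReal (1 / 2 ^ s.1.1.1)) := by
              gcongr
              exact hsq s.1 s.2.1 s.2.2.2
          _ = _ := by
              rw [ENNReal.ofReal_mul hr, pow_two, ENNReal.ofReal_mul (by positivity)]
              ring
    _ = 4 * K * ENNReal.ofReal (1 / 2 ^ i.1.1) *
        ∑' s : {s : Idx × Fin 3 // MinSq v I s ∧ squ v s ⊆ dyc v i.1.1 i.1.2 ∧ S s},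
          ENNReal.ofReal ((1 / 2 ^ s.1.1.1) ^ 2) := ENNReal.tsum_mul_left
    _ ≤ 4 * K * ENNReal.ofReal (1 / 2 ^ i.1.1) *
        ∑' s : {s : Idx × Fin 3 // MinSq v I s ∧ squ v s ⊆ dyc v i.1.1 i.1.2},
          ENNReal.ofReal ((1 / 2 ^ s.1.1.1) ^ 2) := by
        gcongr
        exact tsum_sub_le
          (Q := fun s : Idx × Fin 3 => MinSq v I s ∧ squ v s ⊆ dyc v i.1.1 i.1.2 ∧ S s)
          (Q' := fun s : Idx × Fin 3 => MinSq v I s ∧ squ v s ⊆ dyc v i.1.1 i.1.2)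
          (fun s h => ⟨h.1, h.2.1⟩) fun s => ENNReal.ofReal ((1 / 2 ^ s.1.1) ^ 2)
    _ ≤ 4 * K * ENNReal.ofReal (1 / 2 ^ i.1.1) * ENNReal.ofReal (6 * (1 / 2 ^ i.1.1) ^ 2) := by
        gcongr
        exact area_le hI (hQ _ i.2) hΩ
    _ = 24 * K * ENNReal.ofReal ((1 / 2 ^ i.1.1) ^ 3) := by
        rw [pow_succ (1 / 2 ^ i.1.1 : ℝ) 2, ENNReal.ofReal_mul (by norm_num),
          ENNReal.ofReal_mul (by positivity)]
        have : ENNReal.ofReal 6 = 6 := by norm_num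
        rw [this]
        ring

/-! ### the outer layer -/

/-- the neighbourhood of the good cell -/
def nbh (v : V) (n N : ℕ) (z : Fin 3 → ℤ) : Set V :=
  {x | ∀ k, v k + z k / 2 ^ n - 1 / 2 ^ N ≤ x k ∧ x k ≤ v k + (z k + 1) / 2 ^ n + 1 / 2 ^ N}

theorem volume_nbh (v : V) (n N : ℕ) (z : Fin 3 → ℤ) :
    volume (nbh v n N z) = ENNReal.ofReal ((1 / 2 ^ n + 2 * (1 / 2 ^ N)) ^ 3) := by
  have h1 : nbh v n N z = Set.pi univ fun k =>
      Icc (v k + z k / 2 ^ n - 1 / 2 ^ N) (v k + (z k + 1) / 2 ^ n + 1 / 2 ^ N) := by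
    ext x
    simp only [Set.mem_pi, mem_univ, true_implies]
    rfl
  have h : ∀ l, v l + ((z l : ℝ) + 1) / 2 ^ n + 1 / 2 ^ N - (v l + z l / 2 ^ n - 1 / 2 ^ N) =
      1 / 2 ^ n + 2 * (1 / 2 ^ N) := by
    intro l
    rw [add_div]; ring
  rw [h1, pi_univ_Icc, Real.volume_Icc_pi]
  simp_rw [h]
  rw [Finset.prod_const, Finset.card_univ, Fintype.card_fin, ENNReal.ofReal_pow (by positivity)]

theorem dyc_sub_nbh (v : V) (n N : ℕ) (z : Fin 3 → ℤ) : dyc v n z ⊆ nbh v n N z := by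
  intro x hx k
  have h1 := hx k
  have hp : (0:ℝ) < 1 / 2 ^ N := by positivity
  constructor <;> linarith [h1.1, h1.2]

theorem touch_sub_nbh {n N : ℕ} {z u : Fin 3 → ℤ} (h : Touch v n N z u) :
    dyc v N u ⊆ nbh v n N z := by
  obtain ⟨w, hw, hwz⟩ := h
  intro x hx k
  have h1 := hw k
  have h2 := hwz k
  have h3 := hx k
  have e : ((u k : ℝ) + 1) / 2 ^ N = u k / 2 ^ N + 1 / 2 ^ N := by ring
  rw [e] at h1 h3
  constructor <;> linarith [h1.1, h1.2, h2.1, h2.2, h3.1, h3.2]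

/-- the volume of the shell -/
theorem volume_shell (v : V) {n N k₁ : ℕ} (hk : 2 ≤ k₁) (hN : n + k₁ ≤ N) (z : Fin 3 → ℤ) :
    volume (nbh v n N z \ dyc v n z) ≤ ENNReal.ofReal (12 / 2 ^ k₁ * (1 / 2 ^ n) ^ 3) := by
  have hm : MeasurableSet (dyc v n z) := (isCompact_dyc v n z).isClosed.measurableSet
  rw [measure_sdiff (dyc_sub_nbh v n N z) hm.nullMeasurableSet
    (by rw [H687.volume_dyc]; exact ENNReal.ofReal_ne_top), volume_nbh, H687.volume_dyc,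
    ← ENNReal.ofReal_sub _ (by positivity)]
  apply ENNReal.ofReal_le_ofReal
  set s : ℝ := 1 / 2 ^ n with hs
  set t : ℝ := 1 / 2 ^ N with ht
  have hs0 : 0 < s := by positivity
  have ht0 : 0 < t := by positivity
  set q : ℝ := 1 / 2 ^ k₁ with hq
  have hq0 : 0 < q := by positivity
  have h4 : q ≤ 1 / 4 := by
    rw [hq]
    apply one_div_le_one_div_of_le (by norm_num)
    calc (4:ℝ) = 2 ^ 2 := by norm_num
      _ ≤ 2 ^ k₁ := pow_le_pow_right₀ (by norm_num) hk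
  have htq : t ≤ s * q := by
    rw [ht, hs, hq, one_div_mul_one_div, ← pow_add]
    apply one_div_le_one_div_of_le (by positivity)
    exact pow_le_pow_right₀ (by norm_num) hN
  have e12 : (12 / 2 ^ k₁ : ℝ) = 12 * q := by rw [hq]; ring
  rw [e12]
  have h1 : (s + 2 * t) ^ 3 - s ^ 3 = 6 * s ^ 2 * t + 12 * s * t ^ 2 + 8 * t ^ 3 := by ring
  rw [h1]
  have h2 : t ≤ s / 4 := htq.trans (by nlinarith)
  have h5 : t ^ 2 ≤ s / 4 * t := by nlinarith
  have h6 : t ^ 3 ≤ s ^ 2 / 16 * t := by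
    calc t ^ 3 = t ^ 2 * t := by ring
      _ ≤ (s / 4 * t) * t := by gcongr
      _ = s / 4 * t ^ 2 := by ring
      _ ≤ s / 4 * (s / 4 * t) := by gcongr
      _ = _ := by ring
  calc 6 * s ^ 2 * t + 12 * s * t ^ 2 + 8 * t ^ 3
      ≤ 6 * s ^ 2 * t + 12 * s * (s / 4 * t) + 8 * (s ^ 2 / 16 * t) := by gcongr
    _ = 19 / 2 * (s ^ 2 * t) := by ring
    _ ≤ 12 * (s ^ 2 * t) := by
        have : 0 ≤ s ^ 2 * t := by positivity
        linarith
    _ ≤ 12 * (s ^ 2 * (s * q)) := by gcongr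
    _ = 12 * q * s ^ 3 := by ring

variable {n k₁ k₀ : ℕ} {J : Finset (Fin 3 → ℤ)}

/-- the open cubes of the outer layer are in the shells -/
theorem olay_sub_shell {i : Idx} (hi : i ∈ olay v n k₁ k₀ J) :
    ∃ z ∈ J, dyo v i.1 i.2 ⊆ nbh v n (n + k₁ + k₀) z \ dyc v n z := by
  obtain ⟨hg, ⟨z, hz, hT⟩, h2⟩ := hi
  refine ⟨z, hz, fun x hx => ⟨touch_sub_nbh hT ?_, fun hxz => h2 z hz ?_⟩⟩
  · rw [← hg]
    exact dyo_sub_dyc hx
  · exact H669.dyo_sub_of_dyo (by rw [hg]; omega) hx hxz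

/-- **the volume of the outer layer** -/
theorem olay_volume (hI : Part Ω v I) (hk : 2 ≤ k₁) (hIP : olay v n k₁ k₀ J ⊆ I) :
    ∑' i : {i : Idx // i ∈ olay v n k₁ k₀ J}, ENNReal.ofReal ((1 / 2 ^ i.1.1) ^ 3) ≤
      ∑ _z ∈ J, ENNReal.ofReal (12 / 2 ^ k₁ * (1 / 2 ^ n) ^ 3) := by
  have hm : ∀ i : Idx, MeasurableSet (dyo v i.1 i.2) := fun i => by
    rw [← H194.interior_dyc]
    exact isOpen_interior.measurableSet
  have h1 : ∀ i : {i : Idx // i ∈ olay v n k₁ k₀ J},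
      ENNReal.ofReal ((1 / 2 ^ i.1.1) ^ 3) = volume (dyo v i.1.1 i.1.2) := by
    intro i
    rw [S308.volume_dyo, ofReal_cube]
  simp_rw [h1]
  have hd : Pairwise fun a b : {i : Idx // i ∈ olay v n k₁ k₀ J} =>
      Disjoint (dyo v a.1.1 a.1.2) (dyo v b.1.1 b.1.2) := by
    intro a b hab
    exact (hI.disj a.1 (hIP a.2) b.1 (hIP b.2) fun h => hab (Subtype.ext h)).mono_right
      dyo_sub_dyc
  calc ∑' i : {i : Idx // i ∈ olay v n k₁ k₀ J}, volume (dyo v i.1.1 i.1.2)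
      ≤ volume (⋃ i : {i : Idx // i ∈ olay v n k₁ k₀ J}, dyo v i.1.1 i.1.2) :=
        tsum_meas_le_meas_iUnion_of_disjoint
          (As := fun i : {i : Idx // i ∈ olay v n k₁ k₀ J} => dyo v i.1.1 i.1.2)
          volume (fun i => hm i.1) hd
    _ ≤ volume (⋃ z ∈ J, nbh v n (n + k₁ + k₀) z \ dyc v n z) := by
        refine measure_mono (iUnion_subset fun i => ?_)
        obtain ⟨z, hz, hsub⟩ := olay_sub_shell i.2
        exact hsub.trans (subset_iUnion₂ (s := fun z (_ : z ∈ J) =>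
          nbh v n (n + k₁ + k₀) z \ dyc v n z) z hz)
    _ ≤ ∑ z ∈ J, volume (nbh v n (n + k₁ + k₀) z \ dyc v n z) := measure_biUnion_finset_le _ _
    _ ≤ ∑ _z ∈ J, ENNReal.ofReal (12 / 2 ^ k₁ * (1 / 2 ^ n) ^ 3) :=
        Finset.sum_le_sum fun z _ => volume_shell v hk (by omega) z

/-- **the volume of all the kept cubes** -/
theorem kept_volume2 (hI : Part Ω v I) (hk : 2 ≤ k₁) (hIP : kept v n k₁ k₀ J ⊆ I) :
    ∑' i : {i : Idx // i ∈ kept v n k₁ k₀ J}, ENNReal.ofReal ((1 / 2 ^ i.1.1) ^ 3) ≤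
      2 * ∑ _z ∈ J, ENNReal.ofReal (12 / 2 ^ k₁ * (1 / 2 ^ n) ^ 3) := by
  have h1 := tsum_split (fun i => i ∈ kept v n k₁ k₀ J)
    (fun i => i ∈ lay v n k₁ k₀ J ∪ gap v n k₁ J)
    (E := fun i : Idx => ENNReal.ofReal ((1 / 2 ^ i.1) ^ 3))
    (H₁ := fun i : Idx => ENNReal.ofReal ((1 / 2 ^ i.1) ^ 3))
    (H₂ := fun i : Idx => ENNReal.ofReal ((1 / 2 ^ i.1) ^ 3))
    (fun _ _ _ => le_rfl) (fun _ _ _ => le_rfl)
  refine h1.trans ?_
  rw [two_mul]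
  refine add_le_add ?_ ?_
  · refine (tsum_sub_le (Q := fun i => i ∈ kept v n k₁ k₀ J ∧
      i ∈ lay v n k₁ k₀ J ∪ gap v n k₁ J) (Q' := fun i => i ∈ lay v n k₁ k₀ J ∪ gap v n k₁ J)
      (fun i h => h.2) fun i : Idx => ENNReal.ofReal ((1 / 2 ^ i.1) ^ 3)).trans ?_
    exact H687.kept_volume hI fun i hi => hIP (Or.inl hi)
  · refine (tsum_sub_le (Q := fun i => i ∈ kept v n k₁ k₀ J ∧
      ¬ i ∈ lay v n k₁ k₀ J ∪ gap v n k₁ J) (Q' := fun i => i ∈ olay v n k₁ k₀ J)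
      (fun i h => h.1.resolve_left h.2) fun i : Idx =>
        ENNReal.ofReal ((1 / 2 ^ i.1) ^ 3)).trans ?_
    exact olay_volume hI hk fun i hi => hIP (Or.inr hi)

end Vale.Agent.P073.H244
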