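import Vale.Agent.P073.H244.RTGiv2
import Vale.Agent.P073.H581.T5G
import Vale.Agent.P073.H238.RT1D

/-! # P073, H244: ROUND T, unconditional -/

namespace P073.H244

open Vale.Agent.P073.H238.K3

/-- **ROUND T** -/
theorem roundT3 : RoundT3 :=
  roundT3_of (by norm_num) (by norm_num) givT3 Vale.Agent.P073.H581.t5G

end P073.H244
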