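import Vale.Agent.P073.H244.RTGivA
import Vale.Agent.P073.H196.LipS
import Vale.Agent.P073.H471.KillLast

/-!
# P073, H244: **[RT-GIV]**, `GivT3 35`

The order of the choices and the composition.
-/

open Set Metric Topology Filter

namespace P073.H244

open _root_.P073 _root_.P073.Net _root_.P073.PA691 _root_.P073.H236
  _root_.P073.H345 _root_.P073.H196 _root_.P073.H399
open _root_.P073.H579 hiding clm
open _root_.P073.H936 (lev band)
open _root_.P073.H605 (tcell gX Vert isCompact_gX gX_sub)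
open Vale.Agent.P073.St (V)
open Vale.Agent.P073.H471 Vale.Agent.P073.H267 Vale.Agent.P073.H267.Geo
open Vale.Agent.P073.H669 (TLv rtO rtO_sub bxG GamS GamOk exists_gam3)
open Vale.Agent.P073.H73 (Mesh)
open Vale.Agent.P073.H193 (Edges)
open Vale.Agent.P073.H579 (TStageW cell_subW)
open Vale.Agent.P073.H238.K3 (clm Wc Gv Act GivT3 GivOut)
open Vale.Agent.P073.H926

/-- **[LPs]**: the local structure of the inserted map on the given cells. `f₁`, `f₂`, `f₃`: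
constants, functions of the Lipschitz constants of `h` and of the product structures -/
def LpsH (f₁ f₂ f₃ : ℝ → ℝ → ℝ) : Prop :=
  ∀ (c₀ n δ : ℝ) (j : ℕ) (Ω Λ : Set V) (v w : V) (ρ : V → ℝ) (M : Mesh Ω) (h : ConHomeo Ω Λ)
    (J₀ J : Set (ℕ × (Fin 3 → ℤ))) (P Z : Set M.ι) (K : BoxCx Λ w)
    (D : KIn3 c₀ n j δ v w ρ M h J₀ J P Z) (C : Cells ρ w K) (E : Edges M)
    (Lb lam : TBx K → ℝ) (Tt : TBx K → Finset (ℝ × ℝ)) (ηn : ℝ) (εE : E.ε → ℝ) (dl : TBx K → ℝ)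
    (L : TLv (D.G C) E h (ω3T δ C) Tt ηn (fun _ : Empty => (∅ : Set V)) ∅ εE dl)
    (η : TBx K → ℝ)
    (Γ : ∀ (b : pB C J₀) (m : Fin (L.N b.1)),
      Vale.Agent.P073.H669.Cht h (gX D C b.1) b.1.ax (L.a b.1 m) (η b.1))
    (h' : ConHomeo Ω Λ) (cB : TBx K → ℝ) (hB0 : ∀ b, 0 < cB b) (hB : ∀ b, cB b ≤ dl b / 8)
    (c : TBx K → ℝ) (hc0 : ∀ b, 0 < c b) (hc : ∀ b, c b ≤ dl b / 8)
    (h0 : ∀ g : pB C J₀, 0 < c g.1) (h1 : ∀ g : pB C J₀, c g.1 ≤ (bxG L hB0 hB (pB C J₀) g).c)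
    (κ : V → V) (Ψ : ∀ i ∈ Gv D C, ConHomeo (M.Q i) (Pre κ Λ h' (M.Q i))) (φ : M.ι → V → V)
    (g : ConHomeo Ω Λ) (Kb : TBx K → ℝ),
    GamS D C E Lb lam L η Γ → (∀ b, η b = dl b / 4) → (∀ b, 0 ≤ Lb b) →
    TStageW (D.G C) M h h' P (P ∪ Wc D C) (Act D C) (pB C J₀) L.lev (ω3T δ C) →
    GVch M E h h' (bxG L hB0 hB (pB C J₀)) (Gv D C)
      (fun b => rtO (D.G C) (ω3T δ C) b.1 45) (fun b => rtO (D.G C) (ω3T δ C) b.1 60)
      (fun b => gX D C b.1) (fun b => η b.1) Γ →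
    GVout M E h h' (bxG L hB0 hB (pB C J₀)) (Gv D C)
      (fun b => rtO (D.G C) (ω3T δ C) b.1 45) (fun b => gX D C b.1) (fun b => η b.1) Γ
      (fun b => c b.1) h0 h1 κ Ψ φ →
    IsQ (fun b : pB C J₀ => L.bxQ c hc0 hc b.1) κ →
    (∀ b, lam b ≤ ω3T δ C b / 20) → (∀ b ∈ pB C J₀, c b ≤ ω3T δ C b / 8) →
    (∀ b, dsp (Tt b) (dl b) + dl b ≤ ω3T δ C b) → (∀ b, dl b ≤ 1) →
    (∀ b, Lb b * dl b ≤ 1) → (∀ b, dl b * (Kb b * Lb b + 1) ≤ ω3T δ C b) →
    (∀ i (hi : i ∈ Gv D C), EqOn g.toFun (Ψ i hi).toFun (M.Q i)) → (∀ b, 0 ≤ Kb b) →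
    (∀ b, ∀ x ∈ gX D C b, ∀ y ∈ gX D C b, ‖h.toFun x - h.toFun y‖ ≤ Kb b * ‖x - y‖) →
    ∀ i ∈ P ∪ Wc D C, ∀ b ∈ pB C J₀, ∀ x ∈ M.Q i, h.toFun x ∈ (D.G C).TB false b →
      (i ∈ Wc D C → (D.G C).tlo true b b.ax + 40 * ω3T δ C b ≤ h.toFun x b.ax ∧
        h.toFun x b.ax ≤ (D.G C).thi true b b.ax - 40 * ω3T δ C b) →
      LPs L c κ g.toFun (M.Q i) b (dl b / 4) (f₁ (Kb b) (Lb b)) (f₂ (Kb b) (Lb b))
        (dl b / ω3T δ C b * f₃ (Kb b) (Lb b)) x

/-- **[RT-GIV]** -/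
theorem givT3_of {f₁ f₂ f₃ : ℝ → ℝ → ℝ} (hlps : LpsH f₁ f₂ f₃) : GivT3 35 := by
  intro c₀ n j δ Ω Λ v w ρ M h J₀ J P Z D K C E V₀ σ₀ lamb hσ₀ hlamb
  classical
  have hΩ : IsOpen Ω := D.bΩ.1
  have hΛ : IsOpen Λ := D.bΛ.1
  have hω : ∀ b, 0 < ω3T δ C b := fun b => D.ω3T_pos C b
  -- the Lipschitz constants of `h`
  choose Kb hK0 hK using fun b =>
    exists_lip_compact hΩ h.conical h.cont (isCompact_gX D C b) (gX_sub D C b)
  -- small numbers
  set lam : TBx K → ℝ := fun b => min (lamb b) (ω3T δ C b / 20) with hlamdef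
  have hlam0 : ∀ b, 0 < lam b := fun b => lt_min (hlamb b) (by have := hω b; positivity)
  set mm : TBx K → ℝ := fun b => min (ω3T δ C b) (lamb b / 8) with hmmdef
  have hmm0 : ∀ b, 0 < mm b := fun b => lt_min (hω b) (by have := hlamb b; positivity)
  set σ' : TBx K → ℝ := fun b => min (σ₀ b) (mm b / 2) with hσ'def
  have hσ'0 : ∀ b, 0 < σ' b := fun b => lt_min (hσ₀ b) (half_pos (hmm0 b))
  obtain ⟨Tt, Lb, dmax, hT, hsum, hpts, hLb, hd, H⟩ := exists_gam3 D C E V₀ (σ₀ := σ')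
    (lam := lam) hσ'0 hlam0
  set F : TBx K → ℝ := fun b => |f₁ (Kb b) (Lb b)| + |f₂ (Kb b) (Lb b)| + |f₃ (Kb b) (Lb b)| + 1
    with hFdef
  have hF1 : ∀ b, 1 ≤ F b := fun b => by
    have h1 := abs_nonneg (f₁ (Kb b) (Lb b))
    have h2 := abs_nonneg (f₂ (Kb b) (Lb b))
    have h3 := abs_nonneg (f₃ (Kb b) (Lb b))
    show 1 ≤ |f₁ (Kb b) (Lb b)| + |f₂ (Kb b) (Lb b)| + |f₃ (Kb b) (Lb b)| + 1
    linarith
  set dm : TBx K → ℝ := fun b => min (min (dmax b) (mm b / (2 * (2 * (Tt b).card + 2))))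
    (min (min 1 (1 / (Lb b + 1))) (min (lamb b * ω3T δ C b / (100 * F b))
      (ω3T δ C b / (Kb b * Lb b + 1)))) with hdmdef
  have hdm0 : ∀ b, 0 < dm b := fun b => by
    have h1 := hmm0 b
    have h2 := hLb b
    have h3 := hlamb b
    have h4 := hω b
    have h5 := hF1 b
    have h6 := hK0 b
    exact lt_min (lt_min (hd b) (by positivity)) (lt_min (lt_min one_pos (by positivity))
      (lt_min (by positivity) (by positivity)))
  refine ⟨Tt, dm, hT, fun b => (hsum b).trans (min_le_left _ _), hpts, hdm0, ?_⟩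
  intro ηn εE dl L hdl h' O
  have hdl0 : ∀ b, 0 < dl b := L.δ0
  obtain ⟨Γ, HS⟩ := H ηn εE dl L (fun b => dl b / 4) (fun b => by have := hdl0 b; positivity)
    (fun b => le_rfl) (fun b => by
      have h1 := (hdl b).trans ((min_le_left _ _).trans (min_le_left _ _))
      have h2 := hdl0 b
      linarith)
  -- numbers
  have hlam20 : ∀ b, lam b ≤ ω3T δ C b / 20 := fun b => min_le_right _ _
  have hlam : ∀ b, lam b ≤ ω3T δ C b / 2 := fun b => by
    have h1 := hlam20 b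
    have h2 := hω b
    linarith
  have hdω : ∀ b, dsp (Tt b) (dl b) + dl b ≤ mm b := by
    intro b
    have h1 := (hdl b).trans ((min_le_left _ _).trans (min_le_right _ _))
    have h2 := (hsum b).trans (min_le_right _ _)
    have h3 : (0:ℝ) < 2 * (2 * (Tt b).card + 2) := by positivity
    rw [le_div_iff₀ h3] at h1
    unfold dsp
    linarith
  have hdω1 : ∀ b, dsp (Tt b) (dl b) + dl b ≤ ω3T δ C b := fun b =>
    (hdω b).trans (min_le_left _ _)
  have hdl1 : ∀ b, dl b ≤ 1 := fun b =>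
    (hdl b).trans ((min_le_right _ _).trans ((min_le_left _ _).trans (min_le_left _ _)))
  have hLd : ∀ b, Lb b * dl b ≤ 1 := by
    intro b
    have h1 := (hdl b).trans ((min_le_right _ _).trans ((min_le_left _ _).trans
      (min_le_right _ _)))
    have h2 := hLb b
    have h3 : (0:ℝ) < Lb b + 1 := by linarith
    rw [le_div_iff₀ h3] at h1
    nlinarith [hdl0 b]
  have hdF : ∀ b, dl b * (100 * F b) ≤ lamb b * ω3T δ C b := by
    intro b
    have h1 := (hdl b).trans ((min_le_right _ _).trans ((min_le_right _ _).trans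
      (min_le_left _ _)))
    have h2 := hF1 b
    rwa [le_div_iff₀ (by linarith)] at h1
  have hdK : ∀ b, dl b * (Kb b * Lb b + 1) ≤ ω3T δ C b := by
    intro b
    have h1 := (hdl b).trans ((min_le_right _ _).trans ((min_le_right _ _).trans
      (min_le_right _ _)))
    have h2 := hK0 b
    have h3 := hLb b
    rwa [le_div_iff₀ (by positivity)] at h1
  have hB0 : ∀ b, 0 < dl b / 8 := fun b => by have := hdl0 b; positivity
  have hB : ∀ b, dl b / 8 ≤ dl b / 8 := fun b => le_rfl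
  have Gc := HS.gvch hlam O hB0 hB
  obtain ⟨cg, hcg, HG⟩ := exists_gv
    (fam_comp (L.fam345 hB0 hB hΛ) (Subtype.val_injective : Function.Injective
      (Subtype.val : pB C J₀ → TBx K))) Gc
  refine ⟨fun b => min (if hb : b ∈ pB C J₀ then cg ⟨b, hb⟩ else 1)
    (min (lam b) (ω3T δ C b / 8)), fun b => ?_, ?_⟩
  · refine lt_min ?_ (lt_min (hlam0 b) (by have := hω b; positivity))
    split_ifs with hb
    · exact hcg _
    · exact one_pos
  intro c hc0 hc hcc κ hκ hins We hWe hWL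
  have hcg' : ∀ b : pB C J₀, c b.1 ≤ cg b := by
    intro b
    have h1 := (hcc b.1 b.2).trans (min_le_left _ _)
    rwa [dif_pos b.2] at h1
  have hcl : ∀ b ∈ pB C J₀, c b ≤ lam b := fun b hb =>
    (hcc b hb).trans ((min_le_right _ _).trans (min_le_left _ _))
  have hcω8 : ∀ b ∈ pB C J₀, c b ≤ ω3T δ C b / 8 := fun b hb =>
    (hcc b hb).trans ((min_le_right _ _).trans (min_le_right _ _))
  have hcω : ∀ b ∈ pB C J₀, c b ≤ ω3T δ C b := fun b hb => by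
    have := hcω8 b hb
    have := hω b
    linarith
  obtain ⟨Ψ, φ, Ov⟩ := HG (fun b => c b.1) (fun b => hc0 b.1) (fun b => hc b.1) hcg' κ hκ
  have hstp : ∀ b, stp (L.N b) ((D.G C).tlo true b b.ax) ((D.G C).thi true b b.ax) ≤
      4 * 35 * (dl b / 4) := by
    intro b
    have h1 := Vale.Agent.P073.H669.win (D.G C) b
    have h2 := L.ωo b
    have h3 := hdω1 b
    have h4 := hdl0 b
    have h5 := hω b
    have h6 := L.stp_le (μ := 61 / 100) b (by linarith)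
    linarith
  refine ⟨Ψ, giv3 O Gc Ov hκ (by norm_num) hstp hWe hWL, fun g hg => ?_⟩
  -- the local structure
  have hLP : ∀ i ∈ P ∪ Wc D C, ∀ b ∈ pB C J₀, ∀ x ∈ M.Q i, h.toFun x ∈ (D.G C).TB false b →
      (i ∈ Wc D C → (D.G C).tlo true b b.ax + 40 * ω3T δ C b ≤ h.toFun x b.ax ∧
        h.toFun x b.ax ≤ (D.G C).thi true b b.ax - 40 * ω3T δ C b) →
      LPs L c κ g.toFun (M.Q i) b (dl b / 4) (f₁ (Kb b) (Lb b)) (f₂ (Kb b) (Lb b))
        (dl b / ω3T δ C b * f₃ (Kb b) (Lb b)) x :=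
    hlps c₀ n δ j Ω Λ v w ρ M h J₀ J P Z K D C E Lb lam Tt ηn εE dl L (fun b => dl b / 4) Γ h'
      (fun b => dl b / 8) hB0 hB c hc0 hc (fun b => hc0 b.1) (fun b => hc b.1) κ Ψ φ g Kb HS
      (fun b => rfl) hLb O Gc Ov hκ hlam20 hcω8 hdω1 hdl1 hLd hdK hg (fun b => (hK0 b).le) hK
  obtain ⟨e₁, he₁, HE⟩ := exists_stair (L := L) hΩ hΛ g hκ
    (L₁ := fun b => f₁ (Kb b) (Lb b)) (L₂ := fun b => f₂ (Kb b) (Lb b))
    (ξ := fun b => dl b / ω3T δ C b * f₃ (Kb b) (Lb b)) (ℓ := lamb) hlamb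
    (fun b _ => by
      have h1 := hdF b
      have h2 := hdl0 b
      have h3 := le_abs_self (f₁ (Kb b) (Lb b))
      have h4 := abs_nonneg (f₁ (Kb b) (Lb b))
      have h5 := abs_nonneg (f₂ (Kb b) (Lb b))
      have h6 := abs_nonneg (f₃ (Kb b) (Lb b))
      have h7 : dl b * f₁ (Kb b) (Lb b) ≤ dl b * F b := by
        refine mul_le_mul_of_nonneg_left ?_ h2.le
        show _ ≤ |f₁ (Kb b) (Lb b)| + |f₂ (Kb b) (Lb b)| + |f₃ (Kb b) (Lb b)| + 1
        linarith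
      have h8 := mul_pos (hlamb b) (hω b)
      have h9 := hF1 b
      show 2 * dl b * f₁ (Kb b) (Lb b) ≤ 7 * ω3T δ C b * lamb b
      nlinarith)
    (fun b _ => by
      have h1 := hdF b
      have h2 := hdl0 b
      have h3 := le_abs_self (f₂ (Kb b) (Lb b))
      have h3' := le_abs_self (f₃ (Kb b) (Lb b))
      have h4 := abs_nonneg (f₁ (Kb b) (Lb b))
      have h5 := abs_nonneg (f₂ (Kb b) (Lb b))
      have h6 := abs_nonneg (f₃ (Kb b) (Lb b))
      have h7 := hω b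
      have hl := hlamb b
      have h8 : dl b * f₂ (Kb b) (Lb b) ≤ dl b * F b := by
        refine mul_le_mul_of_nonneg_left ?_ h2.le
        show _ ≤ |f₁ (Kb b) (Lb b)| + |f₂ (Kb b) (Lb b)| + |f₃ (Kb b) (Lb b)| + 1
        linarith
      have h9 : dl b * f₃ (Kb b) (Lb b) ≤ dl b * F b := by
        refine mul_le_mul_of_nonneg_left ?_ h2.le
        show _ ≤ |f₁ (Kb b) (Lb b)| + |f₂ (Kb b) (Lb b)| + |f₃ (Kb b) (Lb b)| + 1
        linarith
      show 16 * (dl b / ω3T δ C b * f₃ (Kb b) (Lb b)) +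
        2 * dl b * f₂ (Kb b) (Lb b) / (7 * ω3T δ C b) ≤ lamb b
      have e1 : 16 * (dl b / ω3T δ C b * f₃ (Kb b) (Lb b)) +
          2 * dl b * f₂ (Kb b) (Lb b) / (7 * ω3T δ C b) =
          (16 * (dl b * f₃ (Kb b) (Lb b)) + 2 / 7 * (dl b * f₂ (Kb b) (Lb b))) /
            ω3T δ C b := by
        field_simp
      rw [e1, div_le_iff₀ h7]
      nlinarith [mul_pos hl h7])
  refine
    { miss := fun i hi => miss3 (η := fun b => dl b / 4) (c := c) O Gc Ov hg i hi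
      pt := pt3 HS O Gc Ov hκ hg hlam hcω
      ptp := ptp3 HS O Gc Ov hκ hg hlam hcl (fun b => min_le_left _ _)
      ptv := fun i hi s hs x hx hxs b hb hxb l hl =>
        ptv3 HS O Gc Ov hg i hi s hs x hx hxs b hb hxb l hl
      stair := ⟨e₁, he₁, fun e he he2 V₀' X Hα H₁ Tf hee HR N =>
        ⟨fun i hi b hb x hx hxb => ?_, fun i hi b hb x hx hxb x1 x2 => ?_,
          fun i hi b hb lo hi' hlo _ hhi Bd hBd x hx y hy hxb hyb => ?_⟩⟩ }
  · exact HE e he he2 V₀' X Hα H₁ Tf hee HR N b hb (M.Q i) (M.sub i) x hx hxb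
      (hLP i (Or.inl hi) b hb x hx hxb fun hW => absurd hi hW.2.1)
  · exact HE e he he2 V₀' X Hα H₁ Tf hee HR N b hb (M.Q i) (M.sub i) x hx hxb
      (hLP i (Or.inr hi) b hb x hx hxb fun _ => ⟨x1, x2⟩)
  · refine oscv3 HS O Gc Ov hκ hg hlam hcω hb (hdω1 b) (by norm_num) ?_ HR i hi hlo hhi Bd hBd x
      hx y hy hxb hyb
    have h1 := (hdω b).trans (min_le_right _ _)
    linarith

end P073.H244
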