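import Vale.Agent.P073.H244.RTGiv
import Vale.Agent.P073.H399.GivLP

/-!
# P073, H244: **[RT-GIV] closed**: `givT3 : GivT3 35`

The local structure (LPs) of the inserted map, from `H399.lps_of`.
-/

open Set Metric Topology Filter

namespace P073.H244

open _root_.P073 _root_.P073.Net _root_.P073.PA691 _root_.P073.H236
  _root_.P073.H345 _root_.P073.H196 _root_.P073.H399
open _root_.P073.H579 hiding clm
open _root_.P073.H936 (lev band)
open _root_.P073.H605 (tcell gX Vert isCompact_gX gX_sub)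
open Vale.Agent.P073.St (V)
open Vale.Agent.P073.H471 Vale.Agent.P073.H267 Vale.Agent.P073.H267.Geo
open Vale.Agent.P073.H669 (TLv rtO rtO_sub bxG GamS GamOk exists_gam3)
open Vale.Agent.P073.H73 (Mesh)
open Vale.Agent.P073.H193 (Edges)
open Vale.Agent.P073.H579 (TStageW cell_subW)
open Vale.Agent.P073.H238.K3 (clm Wc Gv Act GivT3 GivOut)
open Vale.Agent.P073.H926

/-- `LPs` depends only on the values of the inserted map on the cell -/
theorem lps_congr {Ω Λ : Set V} {v : V} {K : BoxCx Λ v} {S₀ : Rad K} {Wd : Wid K S₀}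
    {B : Boxes Wd} {G : Geo B} {M : Mesh Ω} {E : Edges M} {h : ConHomeo Ω Λ} {ω : TBx K → ℝ}
    {T : TBx K → Finset (ℝ × ℝ)} {η : ℝ} {τ : Type*} {A : τ → Set V} {Cs : Set ℝ}
    {εE : E.ε → ℝ} {δ : TBx K → ℝ} {L : TLv G E h ω T η A Cs εE δ} {c : TBx K → ℝ}
    {κ g g' : V → V} {Q : Set V} {b : TBx K} {w L₁ L₂ ξ : ℝ} {x : V} (hx : x ∈ Q)
    (he : EqOn g' g Q) (H : LPs L c κ g Q b w L₁ L₂ ξ x) : LPs L c κ g' Q b w L₁ L₂ ξ x := by
  have h1 := he hx
  filter_upwards [H, self_mem_nhdsWithin] with y hy hyQ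
  have h2 := he hyQ
  cases hy with
  | off a1 a2 a3 a4 => exact .off (by rw [h1, a1]) (by rw [h2, a2]) a3 a4
  | flat m hm z z' s s' a1 a2 a3 a4 a5 a6 a7 a8 a9 =>
    exact .flat m hm z z' s s' a1 a2 a3 a4 (by rw [h1, a5]) (by rw [h2, a6]) a7
      (by rw [h1]; exact a8) (by rw [h2]; exact a9)
  | side a1 a2 a3 a8 a9 =>
    exact .side (by rw [h1, h2]; exact a1) (by rw [h1, h2]; exact a2)
      (by rw [h1, h2]; exact a3) (by rw [h1]; exact a8) (by rw [h2]; exact a9)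
  | mid a1 a2 a3 =>
    exact .mid (by rw [h1]; exact a1) (by rw [h2]; exact a2) (by rw [h1, h2]; exact a3)
  | flat12 m hm s s' a1 a2 a3 a4 a5 a6 a8 a9 =>
    exact .flat12 m hm s s' a1 a2 a3 a4 (by rw [h1]; exact a5) (by rw [h2]; exact a6)
      (by rw [h1]; exact a8) (by rw [h2]; exact a9)

/-- **[LPs]** for ROUND T -/
theorem lpsH : LpsH (fun K L => K * L) (fun K L => K * (L * (2 + 2 * K)) + 2 * K +
    K * L * (1 + K) / 40) (fun K L => K * L * (1 + K) / 40) := by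
  intro c₀ n δ j Ω Λ v w ρ M h J₀ J P Z K D C E Lb lam Tt ηn εE dl L η Γ h' cB hB0 hB c hc0 hc h0
    h1 κ Ψ φ g Kb HS hη hLb O Gc Ov hκ hlam hcω hdω hdl1 hLd hdK hg hK0 hK i hi b hb x hx hxb hxW
  have hω : 0 < ω3T δ C b := D.ω3T_pos C b
  have hiG : i ∈ Gv D C := Or.inl hi
  have hit : i ∈ tcell D C b := ⟨hi, x, hx, hxb⟩
  have hQX : M.Q i ⊆ gX D C b := subset_biUnion_of_mem (u := fun i => M.Q i) hit
  have hdl0 : 0 < dl b := L.δ0 b
  have hK0b := hK0 b
  have hLb0 := hLb b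
  have hdω1 : dl b ≤ ω3T δ C b := by
    have h2 := hdK b
    have h3 : 0 ≤ dl b * (Kb b * Lb b) := by positivity
    linarith
  have hηb : η b = dl b / 4 := hη b
  refine lps_congr hx (hg i hiG) ?_
  rw [← hηb]
  refine lps_of O Gc Ov hκ hiG hi hb ?_ (HS.ηω b) ?_ (hlam b)
    (fun m z hz s hs s' hs' => (HS.close ⟨b, hb⟩ m z hz s hs s' hs').2)
    (fun m => HS.ok ⟨b, hb⟩ m) ⟨i, hit, rfl⟩ hK0b hLb0
    (fun p hp p' hp' => hK b p (hQX hp) p' (hQX hp')) ?_ ?_ le_rfl ?_ ?_ ?_ hx hxb ?_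
  · have := hc b
    rw [hηb]
    linarith
  · have := hcω b hb
    linarith
  · rw [hηb]
    have h2 := hdK b
    nlinarith
  · rw [hηb]
    have e1 : ω3T δ C b * (dl b / ω3T δ C b * (Kb b * Lb b * (1 + Kb b) / 40)) =
        dl b * (Kb b * Lb b * (1 + Kb b) / 40) := by field_simp
    rw [e1]
    linarith
  · have h2 : 0 ≤ Kb b * Lb b * (1 + Kb b) / 40 := by positivity
    show Kb b * (Lb b * (2 + 2 * Kb b)) ≤ Kb b * (Lb b * (2 + 2 * Kb b)) + 2 * Kb b +
      Kb b * Lb b * (1 + Kb b) / 40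
    linarith
  · have h2 : 0 ≤ Kb b * Lb b * (1 + Kb b) / 40 := by positivity
    have h3 : dl b / ω3T δ C b ≤ 1 := (div_le_one hω).2 hdω1
    have h4 : 0 ≤ Kb b * (Lb b * (2 + 2 * Kb b)) := by positivity
    show 2 * Kb b + dl b / ω3T δ C b * (Kb b * Lb b * (1 + Kb b) / 40) ≤
      Kb b * (Lb b * (2 + 2 * Kb b)) + 2 * Kb b + Kb b * Lb b * (1 + Kb b) / 40
    nlinarith
  · have h2 := L.first_le b
    have h3 := L.le_last b
    have h4 := hdω b
    constructor <;> linarith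
  · rcases hi with hi | hi
    · exact Or.inl hi
    · exact Or.inr (hxW hi)

/-- **[RT-GIV] is closed** -/
theorem givT3 : GivT3 35 := givT3_of lpsH

end P073.H244
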