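import Vale.Agent.P073.H669.GamTop
import Vale.Agent.P073.H194.Ptv
import Vale.Agent.P073.H244.GivOsc
import Vale.Agent.P073.H399.GivM

/-!
# P073, H244: **[RT-GIV]**, the given cells of round T of `K3C`, part A

The product structures `GamS` (H669, H605) and the insertion `GVout` (H399) give the fields of
`GivOut` and of `Giv`.
-/

open Set Metric Topology Filter

namespace P073.H244

open _root_.P073 _root_.P073.Net _root_.P073.PA691 _root_.P073.H236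
  _root_.P073.H345 _root_.P073.H196 _root_.P073.H399
open _root_.P073.H579 hiding clm
open _root_.P073.H936 (lev band)
open _root_.P073.H605 (tcell gX Vert)
open Vale.Agent.P073.St (V)
open Vale.Agent.P073.H471 Vale.Agent.P073.H267 Vale.Agent.P073.H267.Geo
open Vale.Agent.P073.H669 (TLv rtO rtO_sub bxG GamS GamOk)
open Vale.Agent.P073.H73 (Mesh)
open Vale.Agent.P073.H193 (Edges)
open Vale.Agent.P073.H579 (TStageW cell_subW)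
open Vale.Agent.P073.H238.K3 (clm Wc Gv Act)
open Vale.Agent.P073.H926

variable {c₀ n δ : ℝ} {j : ℕ} {Ω Λ : Set V} {v w : V} {ρ : V → ℝ} {M : Mesh Ω} {h : ConHomeo Ω Λ}
  {J₀ J : Set (ℕ × (Fin 3 → ℤ))} {P Z : Set M.ι} {K : BoxCx Λ w}
  {D : KIn3 c₀ n j δ v w ρ M h J₀ J P Z} {C : Cells ρ w K} {E : Edges M}
  {Lb lam : TBx K → ℝ} {Tt : TBx K → Finset (ℝ × ℝ)} {ηn : ℝ} {εE : E.ε → ℝ} {dl : TBx K → ℝ}
  {L : TLv (D.G C) E h (ω3T δ C) Tt ηn (fun _ : Empty => (∅ : Set V)) ∅ εE dl} {η : TBx K → ℝ}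
  {Γ : ∀ (b : pB C J₀) (m : Fin (L.N b.1)),
    Vale.Agent.P073.H669.Cht h (gX D C b.1) b.1.ax (L.a b.1 m) (η b.1)}
  {h' : ConHomeo Ω Λ} {cB : TBx K → ℝ} {hB0 : ∀ b, 0 < cB b} {hB : ∀ b, cB b ≤ dl b / 8}
  {c : TBx K → ℝ} {hc0 : ∀ b, 0 < c b} {hc : ∀ b, c b ≤ dl b / 8}
  {h0 : ∀ g : pB C J₀, 0 < c g.1} {h1 : ∀ g : pB C J₀, c g.1 ≤ (bxG L hB0 hB (pB C J₀) g).c}
  {κ : V → V} {Ψ : ∀ i ∈ Gv D C, ConHomeo (M.Q i) (Pre κ Λ h' (M.Q i))} {φ : M.ι → V → V}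

/-- the charts as functions -/
noncomputable abbrev Γ3 (hB0 : ∀ b, 0 < cB b) (hB : ∀ b, cB b ≤ dl b / 8)
    (Γ : ∀ (b : pB C J₀) (m : Fin (L.N b.1)),
      Vale.Agent.P073.H669.Cht h (gX D C b.1) b.1.ax (L.a b.1 m) (η b.1)) :
    pB C J₀ → ℕ → V × ℝ → V :=
  Γf (h := h) (B := bxG L hB0 hB (pB C J₀)) (C := fun b : pB C J₀ => gX D C b.1)
    (w := fun b : pB C J₀ => η b.1) Γ

/-- the given maps have the form `PassJ` -/
theorem passJ3 (Gc : GVch M E h h' (bxG L hB0 hB (pB C J₀)) (Gv D C)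
      (fun b => rtO (D.G C) (ω3T δ C) b.1 45) (fun b => rtO (D.G C) (ω3T δ C) b.1 60)
      (fun b => gX D C b.1) (fun b => η b.1) Γ)
    (Ov : GVout M E h h' (bxG L hB0 hB (pB C J₀)) (Gv D C)
      (fun b => rtO (D.G C) (ω3T δ C) b.1 45) (fun b => gX D C b.1) (fun b => η b.1) Γ
      (fun b => c b.1) h0 h1 κ Ψ φ) (hc0 : ∀ b, 0 < c b) (hc : ∀ b, c b ≤ dl b / 8)
    {i : M.ι} (hi : i ∈ Gv D C) :
    PassJ M E h h' (fun b : pB C J₀ => L.bxQ c hc0 hc b.1)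
      (fun b => rtO (D.G C) (ω3T δ C) b.1 45) (fun b => rtO (D.G C) (ω3T δ C) b.1 60)
      (fun b => η b.1) (Γ3 hB0 hB Γ) κ (M.Q i) (Ψ i hi).toFun (φ i) :=
  GVout.passJ Gc Ov hi

/-- small displacement along the fibres -/
theorem close3 (HS : GamS D C E Lb lam L η Γ)
    (Gc : GVch M E h h' (bxG L hB0 hB (pB C J₀)) (Gv D C)
      (fun b => rtO (D.G C) (ω3T δ C) b.1 45) (fun b => rtO (D.G C) (ω3T δ C) b.1 60)
      (fun b => gX D C b.1) (fun b => η b.1) Γ) (hc0 : ∀ b, 0 < c b) (hc : ∀ b, c b ≤ dl b / 8)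
    {i : M.ι} (hi : i ∈ Gv D C) (b : pB C J₀) (m : ℕ) (z : V)
    (hz : LvPt h'.toFun (fun b : pB C J₀ => L.bxQ c hc0 hc b.1)
      (fun b => rtO (D.G C) (ω3T δ C) b.1 45) (M.Q i) b m z)
    (s : ℝ) (hs : s ∈ Icc (-1:ℝ) 1) :
    ‖h.toFun (Γ3 hB0 hB Γ b m (z, s)) - h.toFun z‖ ≤ lam b.1 := by
  obtain ⟨hm, hzQ, hza, hzW⟩ := hz
  obtain ⟨hl, -⟩ := lev_of_lvPt Gc hi hm hzQ hza hzW
  have e1 := (HS.close b ⟨m, hm⟩ z hl s hs 0 (by norm_num)).2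
  have e2 : (Γ b ⟨m, hm⟩).toFun (z, 0) = z := (HS.ok b ⟨m, hm⟩).zero z hl
  rw [e2] at e1
  have e3 : Γ3 hB0 hB Γ b m (z, s) = (Γ b ⟨m, hm⟩).toFun (z, s) :=
    Γf_eq (h := h) (B := bxG L hB0 hB (pB C J₀)) (C := fun b : pB C J₀ => gX D C b.1)
      (w := fun b : pB C J₀ => η b.1) (Γ := Γ) hm (z, s)
  rw [e3]
  exact e1

/-! ### the fields of `GivOut` -/

section fields

variable (HS : GamS D C E Lb lam L η Γ)
  (O : TStageW (D.G C) M h h' P (P ∪ Wc D C) (Act D C) (pB C J₀) L.lev (ω3T δ C))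
  (Gc : GVch M E h h' (bxG L hB0 hB (pB C J₀)) (Gv D C)
      (fun b => rtO (D.G C) (ω3T δ C) b.1 45) (fun b => rtO (D.G C) (ω3T δ C) b.1 60)
      (fun b => gX D C b.1) (fun b => η b.1) Γ)
  (Ov : GVout M E h h' (bxG L hB0 hB (pB C J₀)) (Gv D C)
      (fun b => rtO (D.G C) (ω3T δ C) b.1 45) (fun b => gX D C b.1) (fun b => η b.1) Γ
      (fun b => c b.1) h0 h1 κ Ψ φ)
  (hκ : IsQ (fun b : pB C J₀ => L.bxQ c hc0 hc b.1) κ)
  {g : ConHomeo Ω Λ} (hg : ∀ i (hi : i ∈ Gv D C), EqOn g.toFun (Ψ i hi).toFun (M.Q i))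

include O Gc Ov hg in
/-- cells which miss the boxes -/
theorem miss3 (i : M.ι) (hi : ∀ x ∈ M.Q i, ∀ b ∈ pB C J₀, h.toFun x ∉ (D.G C).TB false b) :
    EqOn g.toFun h'.toFun (M.Q i) := by
  have hiG : i ∈ Gv D C := Or.inr hi
  intro x hx
  rw [hg i hiG hx]
  refine (Ov.eq_of_miss Gc hiG (Sum.inl ⟨i, hiG⟩) (fun b y hy hyK => ?_) hx hx).1
  have h2 : h'.toFun y ∈ (D.G C).TB false b.1 := L.K_sub hB0 hB b.1 hyK
  exact hi y hy b.1 b.2 ((O.mem b.1 y (M.sub i hy)).1 h2)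

include HS O Gc Ov hκ hg in
/-- small displacement -/
theorem pt3 (hlam : ∀ b, lam b ≤ ω3T δ C b / 2) (hcω : ∀ b ∈ pB C J₀, c b ≤ ω3T δ C b)
    (i : M.ι) (hi : i ∈ P ∪ Wc D C) (x : V) (hx : x ∈ M.Q i) : (∃ b ∈ pB C J₀,
      h.toFun x ∈ interior ((D.G C).TB false b) ∧ h.toFun x ∈ rtK (D.G C) (ω3T δ C) b 60 ∧
      g.toFun x ∈ rtK (D.G C) (ω3T δ C) b 60 ∧ ‖g.toFun x - h.toFun x‖ ≤ 8 * ω3T δ C b) ∨
      g.toFun x = h.toFun x := by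
  have hiG : i ∈ Gv D C := Or.inl hi
  rw [hg i hiG hx]
  rcases (passJ3 Gc Ov hc0 hc hiG).ptOk i hi D.bΛ.1 O hκ (fun b => rtO_sub b.1 45)
    (lam := fun b => lam b.1) (fun b => hlam b.1) (fun b => hcω b.1 b.2)
    (close3 HS Gc hc0 hc hiG) hx with ⟨b, a1, a2, a3, a4⟩ | a1
  · exact Or.inl ⟨b.1, b.2, a1, a2, a3, a4⟩
  · exact Or.inr a1

include HS O Gc Ov hκ hg in
/-- small displacement, protected cells -/
theorem ptp3 (hlam : ∀ b, lam b ≤ ω3T δ C b / 2) (hcl : ∀ b ∈ pB C J₀, c b ≤ lam b)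
    {lamb : TBx K → ℝ} (hll : ∀ b, lam b ≤ lamb b)
    (i : M.ι) (hi : i ∈ P) (x : V) (hx : x ∈ M.Q i) : (∃ b ∈ pB C J₀,
      h.toFun x ∈ interior ((D.G C).TB false b) ∧ h.toFun x ∈ rtK (D.G C) (ω3T δ C) b 60 ∧
      g.toFun x ∈ rtK (D.G C) (ω3T δ C) b 60 ∧ ‖g.toFun x - h.toFun x‖ ≤ 3 * lamb b) ∨
      g.toFun x = h.toFun x := by
  have hiG : i ∈ Gv D C := Or.inl (Or.inl hi)
  rw [hg i hiG hx]
  rcases (passJ3 Gc Ov hc0 hc hiG).ptpOk i (Or.inl hi) hi D.bΛ.1 O hκ (fun b => rtO_sub b.1 45)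
    (lam := fun b => lam b.1) (fun b => hlam b.1) (fun b => hcl b.1 b.2)
    (close3 HS Gc hc0 hc hiG) hx with ⟨b, a1, a2, a3, a4⟩ | a1
  · exact Or.inl ⟨b.1, b.2, a1, a2, a3, a4.trans (by linarith [hll b.1])⟩
  · exact Or.inr a1

include HS O Gc Ov hg in
/-- protected cells near the processed plates -/
theorem ptv3 (i : M.ι) (hi : i ∈ P) (s : K.S) (hs : s ∈ pS C J₀) (x : V) (hx : x ∈ M.Q i)
    (hxs : h.toFun x ∈ PX (D.G C) s) (b : TBx K) (hb : b ∈ pB C J₀)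
    (hxb : h.toFun x ∈ (D.G C).TB false b) (l : Fin 3) (hl : l ≠ b.ax) :
    g.toFun x l = h.toFun x l := by
  have hiG : i ∈ Gv D C := Or.inl (Or.inl hi)
  rw [hg i hiG hx]
  exact Vale.Agent.P073.H194.K3.ptv_of L hB0 hB O Gc HS.vert Ov hi hiG hs hx hxs hb hxb hl

include HS O Gc Ov hκ hg in
/-- the oscillation -/
theorem oscv3 (hlam : ∀ b, lam b ≤ ω3T δ C b / 2) (hcω : ∀ b ∈ pB C J₀, c b ≤ ω3T δ C b)
    {b : TBx K} (hb : b ∈ pB C J₀) (hdω : dsp (Tt b) (dl b) + dl b ≤ ω3T δ C b)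
    {A₁ : ℝ} (hA : 1 ≤ A₁) {lb : ℝ} (hlb : 8 * (dsp (Tt b) (dl b) + dl b) ≤ lb)
    {e : TBx K → ℝ} {he : ∀ b, 0 < e b} {he2 : ∀ b, 2 * e b < dl b}
    {V₀ : pB C J₀ → Finset ℝ} {X : FixD (F1 L hc0 hc he he2 (pB C J₀)) V₀}
    {Hα H₁ Tf : ConHomeo Λ Λ} (HR : RTS L hc0 hc he he2 X Hα H₁ Tf)
    (i : M.ι) (hi : i ∈ Wc D C) {lo hi' : ℝ}
    (hlo : (D.G C).tlo true b b.ax + 50 * ω3T δ C b ≤ lo)
    (hhi : hi' ≤ (D.G C).thi true b b.ax - 50 * ω3T δ C b) (Bd : ℝ)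
    (hBd : ∀ x ∈ M.Q i, ∀ y ∈ M.Q i, |h.toFun x b.ax - h.toFun y b.ax| ≤ Bd)
    (x : V) (hx : x ∈ M.Q i) (y : V) (hy : y ∈ M.Q i) (hxb : h.toFun x ∈ (D.G C).TB false b)
    (hyb : h.toFun y ∈ (D.G C).TB false b) :
    |clm lo hi' (((Hα.trans H₁).trans Tf).toFun (g.toFun x) b.ax) -
      clm lo hi' (((Hα.trans H₁).trans Tf).toFun (g.toFun y) b.ax)| ≤ A₁ * Bd + lb := by
  have hiW : i ∈ P ∪ Wc D C := Or.inr hi
  have hiG : i ∈ Gv D C := Or.inl hiW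
  rw [hg i hiG hx, hg i hiG hy]
  have hB0 : 0 ≤ Bd := (abs_nonneg _).trans (hBd x hx x hx)
  have hd := L.dsp_nonneg b
  have hdl := L.δ0 b
  have key := (passJ3 Gc Ov hc0 hc hiG).oscv i hiW (Ψ i hiG).cont D.bΛ.1 O hκ
    (fun b => rtO_sub b.1 45) (lam := fun b => lam b.1) (fun b => hlam b.1)
    (fun b => hcω b.1 b.2) (close3 HS Gc hc0 hc hiG)
    (fun b hb x hx y hy hxb => D.rt_oscC C i hi.2.1 b hb x hx y hy hxb) (b := ⟨b, hb⟩)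
    hlo hhi hdω hBd (F := ((Hα.trans H₁).trans Tf).toFun) (fun y hy => st_ax HR (b := ⟨b, hb⟩) hy)
    hx hy hxb hyb
  refine key.trans ?_
  show Bd + 2 * (dsp (Tt b) (dl b) + dl b) + 2 * (2 * dsp (Tt b) (dl b) + dl b) ≤ _
  nlinarith

end fields

/-! ### `Giv` -/

/-- **`Giv`** -/
theorem giv3 (O : TStageW (D.G C) M h h' P (P ∪ Wc D C) (Act D C) (pB C J₀) L.lev (ω3T δ C))
    (Gc : GVch M E h h' (bxG L hB0 hB (pB C J₀)) (Gv D C)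
      (fun b => rtO (D.G C) (ω3T δ C) b.1 45) (fun b => rtO (D.G C) (ω3T δ C) b.1 60)
      (fun b => gX D C b.1) (fun b => η b.1) Γ)
    (Ov : GVout M E h h' (bxG L hB0 hB (pB C J₀)) (Gv D C)
      (fun b => rtO (D.G C) (ω3T δ C) b.1 45) (fun b => gX D C b.1) (fun b => η b.1) Γ
      (fun b => c b.1) h0 h1 κ Ψ φ)
    (hκ : IsQ (fun b : pB C J₀ => L.bxQ c hc0 hc b.1) κ)
    {A₁ : ℝ} (hA : 0 ≤ A₁)
    (hstp : ∀ b, stp (L.N b) ((D.G C).tlo true b b.ax) ((D.G C).thi true b b.ax) ≤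
      4 * A₁ * η b) {We : E.ε → ℝ} (hWe : ∀ e, L.WeW (pB C J₀) h' e ≤ We e)
    (hWL : ∀ i ∈ P ∪ Wc D C, ∀ e, E.seg e ⊆ M.Q i → ∃ Lp : ℝ,
      (∀ x ∈ E.seg e, ∀ y ∈ E.seg e, ‖h.toFun x - h.toFun y‖ ≤ Lp * ‖x - y‖) ∧
      A₁ * Lp * ‖E.b e - E.a e‖ ≤ We e) :
    P073.H155.Giv M E h' κ (actF (L.AcW (Act D C) (pB C J₀) h'))
      (Vale.Agent.P073.H669.TLv.offT (D.G C) M h (pB C J₀))
      (GEd E h' (fun b : pB C J₀ => L.bxQ c hc0 hc b.1) (L.AcW (Act D C) (pB C J₀) h') We)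
      (Gv D C) Ψ := by
  refine Ov.giv Gc (fun l hl b x hx hxK => ?_) (fun i hi k hk e hek hei => ?_)
  · have h2 : h'.toFun x ∈ (D.G C).TB false b.1 := L.K_sub hB0 hB b.1 hxK
    exact hl x hx b.1 b.2 ((O.mem b.1 x (Vale.Agent.P073.H238.mesh_sub M l hx)).1 h2)
  · have hiG := hi
    rcases hi with hi' | hi'
    · obtain ⟨Lp, hLp, hLW⟩ := hWL i hi' e hei
      have hW0 : 0 ≤ We e := (L.WeW_nonneg (pB C J₀) h' e).trans (hWe e)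
      refine GVout.good Gc Ov (fam_comp (L.fam345 hB0 hB D.bΛ.1) Subtype.val_injective) hκ
        (L.regBG O hc0 hc (D.rt_osc C)) (fun b k hk => L.factW O hc0 hc hk) hiG hei
        (Lip := fun _ => Lp) hLp (fun b _ => ?_)
      have hη : 0 < η b.1 := Gc.w0 b
      have hs := hstp b.1
      have hs0 : 0 ≤ stp (L.N b.1) ((D.G C).tlo true b.1 b.1.ax)
          ((D.G C).thi true b.1 b.1.ax) := (L.δ0 b.1).le.trans (L.stp_ge b.1)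
      have hn : 0 ≤ ‖E.b e - E.a e‖ := norm_nonneg _
      show stp (L.N b.1) ((D.G C).tlo true b.1 b.1.ax) ((D.G C).thi true b.1 b.1.ax) * Lp *
        ‖E.b e - E.a e‖ ≤ 4 * We e * η b.1
      rcases le_total 0 Lp with h5 | h5
      · have h6 : 0 ≤ Lp * ‖E.b e - E.a e‖ := mul_nonneg h5 hn
        calc _ = stp (L.N b.1) ((D.G C).tlo true b.1 b.1.ax) ((D.G C).thi true b.1 b.1.ax) *
              (Lp * ‖E.b e - E.a e‖) := by ring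
          _ ≤ 4 * A₁ * η b.1 * (Lp * ‖E.b e - E.a e‖) := mul_le_mul_of_nonneg_right hs h6
          _ = 4 * η b.1 * (A₁ * Lp * ‖E.b e - E.a e‖) := by ring
          _ ≤ 4 * η b.1 * We e := mul_le_mul_of_nonneg_left hLW (by positivity)
          _ = _ := by ring
      · have h6 : Lp * ‖E.b e - E.a e‖ ≤ 0 := mul_nonpos_of_nonpos_of_nonneg h5 hn
        calc _ = stp (L.N b.1) ((D.G C).tlo true b.1 b.1.ax) ((D.G C).thi true b.1 b.1.ax) *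
              (Lp * ‖E.b e - E.a e‖) := by ring
          _ ≤ 0 := mul_nonpos_of_nonneg_of_nonpos hs0 h6
          _ ≤ _ := by positivity
    · rintro b ⟨k', hk', hek'⟩
      exfalso
      have h2 : h'.toFun (E.a e) ∈ (D.G C).TB false b.1 :=
        L.K_sub hc0 hc b.1 ((L.factW O hc0 hc hk').1 _
          ⟨E.a e, hek' (left_mem_segment ℝ _ _), rfl⟩).1
      have h3 : E.a e ∈ M.Q i := hei (left_mem_segment ℝ _ _)
      exact hi' _ h3 b.1 b.2 ((O.mem b.1 _ (M.sub i h3)).1 h2)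

end P073.H244
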