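import Vale.Agent.P073.H244.OffK
import Vale.Agent.P073.H244.GivOsc
import Vale.Agent.P073.H196.LipS

/-!
# P073, H244: **[T-END]**, the level coordinate of the given cells after the squeeze `Ψ`

`PsiI`: what is used of the map `Ψ` of H236.  `se_pt`: a point of a given cell in a box: either
full zone, or nothing happened.  `se_pair`: pairs of points with images in one box.
`exists_stairP`: the local Lipschitz estimate of the clamped coordinate, up to the ends of the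
windows.  `se_oscv`: the oscillation.
-/

open Set Metric Topology Filter

namespace P073.H244

open _root_.P073 _root_.P073.Net _root_.P073.PA691 _root_.P073.H236 _root_.P073.H196
open _root_.P073.H345 (PK IsQ)
open Vale.Agent.P073.St (V)
open Vale.Agent.P073.H471 Vale.Agent.P073.H267 Vale.Agent.P073.H267.Geo
open Vale.Agent.P073.H73 (Mesh)
open Vale.Agent.P073.H193 (Edges)
open Vale.Agent.P073.H669 (TLv)
open Vale.Agent.P073.H579 (TStageW)
open Vale.Agent.P073.H238.K3 (clm Wc Gv Act GivOut)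
open Vale.Agent.P073.H926

/-! ### clamps -/

theorem clm_lip {lo hi : ℝ} (s t : ℝ) : |clm lo hi s - clm lo hi t| ≤ |s - t| :=
  abs_clamp_sub_le lo hi s t

theorem se_clm_lo {lo hi t : ℝ} (h : lo ≤ hi) (ht : t ≤ lo) : clm lo hi t = lo := by
  unfold clm
  rw [min_eq_right (ht.trans h), max_eq_left ht]

theorem se_clm_hi {lo hi t : ℝ} (h : lo ≤ hi) (ht : hi ≤ t) : clm lo hi t = hi := by
  unfold clm
  rw [min_eq_left ht, max_eq_right h]

/-! ### the interface -/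

section

variable {Ω Λ : Set V} {v : V} {K : BoxCx Λ v} {S : Rad K} {Wd : Wid K S} {B : Boxes Wd}

/-- **the squeeze of the ends of the windows**: what is used of it -/
structure PsiI (G : Geo B) (ω : TBx K → ℝ) (G₀ : Set (TBx K)) (ηe : TBx K → ℝ)
    (k : TBx K → ℝ → ℝ) (Ψ : ConHomeo Λ Λ) : Prop where
  full : ∀ b ∈ G₀, ∀ y ∈ rtK G ω b 200, Ψ.toFun y = Function.update y b.ax (k b (y b.ax))
  off : ∀ y, (∀ b ∈ G₀, y ∉ G.TB false b) → Ψ.toFun y = y
  mem : ∀ b ∈ G₀, ∀ y ∈ G.TB false b, Ψ.toFun y ∈ G.TB false b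
  pair : ∀ b ∈ G₀, ∀ y ∈ G.TB false b, ∀ y' ∈ G.TB false b,
    |Ψ.toFun y b.ax - Ψ.toFun y' b.ax| ≤ 2 * ‖y - y'‖
  kk : ∀ b ∈ G₀, ∀ s t : ℝ, G.tlo true b b.ax ≤ s → s ≤ G.thi true b b.ax →
    G.tlo true b b.ax ≤ t → t ≤ G.thi true b b.ax →
    |k b s - k b t| ≤ 16 / 15 * |clm (G.tlo true b b.ax + 2048 * ω b)
      (G.thi true b b.ax - 2048 * ω b) s - clm (G.tlo true b b.ax + 2048 * ω b)
      (G.thi true b b.ax - 2048 * ω b) t| + ηe b / (2048 * ω b) * |s - t|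

variable {G : Geo B}

theorem TB_ax {b : TBx K} {y : V} (hy : y ∈ G.TB false b) :
    G.tlo true b b.ax ≤ y b.ax ∧ y b.ax ≤ G.thi true b b.ax := by
  have h1 := hy.1 b.ax
  have h2 := hy.2 b.ax
  rcases b with e | k
  · simp only [Geo.tlo, Geo.thi, TBx.ax, if_true] at h1 h2 ⊢
    exact ⟨h1, h2⟩
  · simp only [Geo.tlo, Geo.thi, TBx.ax, if_true] at h1 h2 ⊢
    exact ⟨h1, h2⟩

/-- near a point there are only the boxes of the point -/
theorem ev_TB (G : Geo B) {z : V} (hz : z ∈ Λ) :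
    ∀ᶠ z' in 𝓝 z, ∀ b : TBx K, z' ∈ G.TB false b → z ∈ G.TB false b := by
  obtain ⟨U, hU, hfin⟩ := lf_TB G z hz
  have h1 : ∀ᶠ z' in 𝓝 z, ∀ b ∈ {b : TBx K | (G.TB false b ∩ U).Nonempty},
      z' ∈ G.TB false b → z ∈ G.TB false b := by
    rw [hfin.eventually_all]
    intro b _
    by_cases hb : z ∈ G.TB false b
    · exact Eventually.of_forall fun _ _ => hb
    · have h2 : IsClosed (G.TB false b) := isClosed_Icc
      filter_upwards [h2.isOpen_compl.mem_nhds hb] with z' hz' h3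
      exact absurd h3 hz'
  filter_upwards [h1, hU] with z' h2 h3 b h4
  exact h2 b ⟨z', h4, h3⟩ h4

/-- two boxes with a common point: the second one is on the other side of an end plane -/
theorem junc_side {b b' : TBx K} (hne : b ≠ b') {y z : V} (hy : y ∈ G.TB false b)
    (hy' : y ∈ G.TB false b') (hz : z ∈ G.TB false b') :
    (y b.ax = G.tlo true b b.ax ∧ z b.ax ≤ G.tlo true b b.ax) ∨
      (y b.ax = G.thi true b b.ax ∧ G.thi true b b.ax ≤ z b.ax) := by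
  rcases b with e | k <;> rcases b' with e' | k'
  · exact absurd hy' ((disjoint_TB_inl (G := G) fun hh => hne (by rw [hh])).notMem_of_mem_left hy)
  · obtain ⟨hd, h1⟩ := junction hy hy'
    obtain ⟨z1, z2⟩ := TB_ax hz
    have e1 : TBx.ax (.inl e : TBx K) = K.dir e := rfl
    have e2 : TBx.ax (.inr k' : TBx K) = k'.l := rfl
    rw [e2] at z1 z2
    rw [e1]
    simp only [Geo.tlo, Geo.thi, if_true] at z1 z2 ⊢
    rw [hd]
    rcases h1 with ⟨i1, j1⟩ | ⟨i1, j1⟩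
    · left
      rw [j1, ← i1]
      exact ⟨rfl, z2⟩
    · right
      rw [j1, ← i1]
      exact ⟨rfl, z1⟩
  · obtain ⟨hd, h1⟩ := junction hy' hy
    obtain ⟨z1, z2⟩ := TB_ax hz
    have e1 : TBx.ax (.inr k : TBx K) = k.l := rfl
    have e2 : TBx.ax (.inl e' : TBx K) = K.dir e' := rfl
    rw [e2] at z1 z2
    rw [e1]
    simp only [Geo.tlo, Geo.thi, if_true] at z1 z2 ⊢
    rw [hd] at z1 z2
    rcases h1 with ⟨i1, j1⟩ | ⟨i1, j1⟩
    · right
      rw [j1, i1]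
      exact ⟨rfl, z1⟩
    · left
      rw [j1, i1]
      exact ⟨rfl, z2⟩
  · exfalso
    by_cases hi : k.i = k'.i
    · have hs : k.s ≠ k'.s := fun hs => hne (by rw [hang_eq hi hs])
      exact (disjoint_ss (W := Wd) hs).notMem_of_mem_left
        (Zs_subset (TB_subset_Zs k hy)) (Zs_subset (TB_subset_Zs k' hy'))
    · have hb := G.be_pos k.i
      have hb' := G.be_pos k'.i
      have h32 := G.be_r k.i
      have h32' := G.be_r k'.i
      refine (S.U_disj _ _ hi).notMem_of_mem_left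
        (closedBall_subset_closedBall (by linarith) (TB_inr_ball k hy))
        (closedBall_subset_closedBall (by linarith) (TB_inr_ball k' hy'))

end

/-! ### the points -/

section

variable {c₀ n δ : ℝ} {j : ℕ} {Ω Λ : Set V} {v w : V} {ρ : V → ℝ} {M : Mesh Ω}
  {h : ConHomeo Ω Λ} {J₀ J : Set (ℕ × (Fin 3 → ℤ))} {P Z : Set M.ι} {K : BoxCx Λ w}
  {D : KIn3 c₀ n j δ v w ρ M h J₀ J P Z} {C : Cells ρ w K} {E : Edges M}
  {Tt : TBx K → Finset (ℝ × ℝ)} {η : ℝ} {εE : E.ε → ℝ} {dl : TBx K → ℝ}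
  {L : TLv (D.G C) E h (ω3T δ C) Tt η (fun _ : Empty => (∅ : Set V)) ∅ εE dl}
  {c : TBx K → ℝ} {hc0 : ∀ b, 0 < c b} {hc : ∀ b, c b ≤ dl b / 8} {A₁ : ℝ} {lamb : TBx K → ℝ}
  {h' g : ConHomeo Ω Λ} {e : TBx K → ℝ} {he : ∀ b, 0 < e b} {he2 : ∀ b, 2 * e b < dl b}
  {V₀ : pB C J₀ → Finset ℝ} {X : FixD (F1 L hc0 hc he he2 (pB C J₀)) V₀}
  {Hα H₁ Tf : ConHomeo Λ Λ}

/-- the staircase is the identity outside of the interiors of the boxes -/
theorem st_fix (H : RTS L hc0 hc he he2 X Hα H₁ Tf) {y : V}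
    (hy : ∀ b ∈ pB C J₀, y ∉ interior ((D.G C).TB false b)) :
    ((Hα.trans H₁).trans Tf).toFun y = y := by
  by_cases hex : ∃ b : pB C J₀, y ∈ rtK (D.G C) (ω3T δ C) b.1 60
  · obtain ⟨b, hb⟩ := hex
    have h1 := H.vrt.on b y hb
    have h2 : y b.1.ax ≤ (D.G C).tlo true b.1 b.1.ax ∨
        (D.G C).thi true b.1 b.1.ax ≤ y b.1.ax := by
      by_contra hcon
      push Not at hcon
      refine hy b.1 b.2 (mem_interior.2 ⟨{z | ∀ i, (if i = b.1.ax then
        (D.G C).tlo true b.1 b.1.ax else (D.G C).tlo true b.1 i - 61 * ω3T δ C b.1) < z i ∧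
        z i < (if i = b.1.ax then (D.G C).thi true b.1 b.1.ax else
          (D.G C).thi true b.1 i + 61 * ω3T δ C b.1)}, fun z hz => ?_, ?_, fun i => ?_⟩)
      · refine rtK_sub L (u := 61) (by norm_num) ⟨?_, fun i hi => ?_⟩
        · have := hz b.1.ax
          rw [if_pos rfl, if_pos rfl] at this
          exact ⟨this.1.le, this.2.le⟩
        · have := hz i
          rw [if_neg hi, if_neg hi] at this
          exact ⟨this.1.le, this.2.le⟩
      · rw [Set.ofPred_forall]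
        exact isOpen_iInter_of_finite fun i =>
          (isOpen_lt continuous_const (continuous_apply i)).inter
            (isOpen_lt (continuous_apply i) continuous_const)
      · have h0 := D.ω3T_pos C b.1
        by_cases hi : i = b.1.ax
        · subst hi
          rw [if_pos rfl, if_pos rfl]
          exact hcon
        · rw [if_neg hi, if_neg hi]
          have := hb.2 i hi
          constructor <;> linarith
    have h3 : ph X b y (y b.1.ax) = y b.1.ax := ph_end b y h2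
    rw [h1]
    show Function.update y b.1.ax (ph X b y (y b.1.ax)) = y
    rw [h3, Function.update_eq_self]
  · push Not at hex
    exact H.vrt.off y hex

/-- the box of a point of the interior -/
theorem box_uniq {b b' : TBx K} {y : V} (hy : y ∈ (D.G C).TB false b)
    (hy' : y ∈ interior ((D.G C).TB false b')) : b' = b := by
  by_contra hne
  exact (disjoint_TB (G := D.G C) hne).notMem_of_mem_left hy' hy

/-- **a point of a given cell, in a box**: it is in the full zone, or nothing happens -/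
theorem se_pt (GO : GivOut D C E L hc0 hc A₁ lamb h' g) (H : RTS L hc0 hc he he2 X Hα H₁ Tf)
    {i : M.ι} (hi : i ∈ P ∪ Wc D C) {x : V} (hx : x ∈ M.Q i) {b : TBx K} (hb : b ∈ pB C J₀)
    (hxb : h.toFun x ∈ (D.G C).TB false b) :
    (h.toFun x ∈ interior ((D.G C).TB false b) ∧ h.toFun x ∈ rtK (D.G C) (ω3T δ C) b 60 ∧
      ((Hα.trans H₁).trans Tf).toFun (g.toFun x) ∈ rtK (D.G C) (ω3T δ C) b 60) ∨
    ((Hα.trans H₁).trans Tf).toFun (g.toFun x) = h.toFun x := by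
  rcases GO.pt i hi x hx with ⟨b', hb', a1, a2, a3, -⟩ | a1
  · have h1 := box_uniq hxb a1
    subst h1
    exact Or.inl ⟨a1, a2, st_mem H hb a3⟩
  · rw [a1]
    by_cases hint : h.toFun x ∈ interior ((D.G C).TB false b)
    · by_cases hK : h.toFun x ∈ rtK (D.G C) (ω3T δ C) b 60
      · exact Or.inl ⟨hint, hK, st_mem H hb hK⟩
      · refine Or.inr (st_off H fun b' hb' h2 => ?_)
        have h3 := box_uniq (rtK_sub L (u := 60) (by norm_num) h2) hint
        subst h3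
        exact hK h2
    · refine Or.inr (st_fix H fun b' hb' h2 => ?_)
      have h3 := box_uniq hxb h2
      subst h3
      exact hint h2

/-- the new point is in the same boxes -/
theorem se_mem (GO : GivOut D C E L hc0 hc A₁ lamb h' g) (H : RTS L hc0 hc he he2 X Hα H₁ Tf)
    {i : M.ι} (hi : i ∈ P ∪ Wc D C) {x : V} (hx : x ∈ M.Q i) {b : TBx K} (hb : b ∈ pB C J₀)
    (hxb : h.toFun x ∈ (D.G C).TB false b) :
    ((Hα.trans H₁).trans Tf).toFun (g.toFun x) ∈ (D.G C).TB false b := by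
  rcases se_pt GO H hi hx hb hxb with h1 | h1
  · exact rtK_sub L (u := 60) (by norm_num) h1.2.2
  · rw [h1]; exact hxb

/-- points outside of the boxes -/
theorem se_out (GO : GivOut D C E L hc0 hc A₁ lamb h' g) (H : RTS L hc0 hc he he2 X Hα H₁ Tf)
    {i : M.ι} (hi : i ∈ P ∪ Wc D C) {x : V} (hx : x ∈ M.Q i)
    (hxb : ∀ b ∈ pB C J₀, h.toFun x ∉ interior ((D.G C).TB false b)) :
    ((Hα.trans H₁).trans Tf).toFun (g.toFun x) = h.toFun x := by
  rcases GO.pt i hi x hx with ⟨b', hb', a1, -⟩ | a1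
  · exact absurd a1 (hxb b' hb')
  · rw [a1]
    exact st_fix H hxb

/-- **two points with images in a box**: nothing happens, or both are in the full zone -/
theorem se_two (GO : GivOut D C E L hc0 hc A₁ lamb h' g) (H : RTS L hc0 hc he he2 X Hα H₁ Tf)
    {i : M.ι} (hi : i ∈ P ∪ Wc D C) {x y : V} (hx : x ∈ M.Q i) (hy : y ∈ M.Q i) {b : TBx K}
    (hb : b ∈ pB C J₀) (hxb : h.toFun x ∈ (D.G C).TB false b)
    (hyb : h.toFun y ∈ (D.G C).TB false b) (hxy : ‖h.toFun x - h.toFun y‖ ≤ ω3T δ C b) :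
    (((Hα.trans H₁).trans Tf).toFun (g.toFun x) = h.toFun x ∧
      ((Hα.trans H₁).trans Tf).toFun (g.toFun y) = h.toFun y) ∨
    (((Hα.trans H₁).trans Tf).toFun (g.toFun x) ∈ rtK (D.G C) (ω3T δ C) b 200 ∧
      ((Hα.trans H₁).trans Tf).toFun (g.toFun y) ∈ rtK (D.G C) (ω3T δ C) b 200) := by
  have hω := D.ω3T_pos C b
  have key : ∀ {x y : V}, h.toFun y ∈ (D.G C).TB false b →
      ‖h.toFun x - h.toFun y‖ ≤ ω3T δ C b → h.toFun x ∈ rtK (D.G C) (ω3T δ C) b 60 →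
      h.toFun y ∈ rtK (D.G C) (ω3T δ C) b 200 := by
    intro x y hyb hxy hx
    refine ⟨TB_ax hyb, fun l hl => ?_⟩
    have h1 := hx.2 l hl
    have h2 := norm_le_pi_norm (h.toFun x - h.toFun y) l
    rw [Real.norm_eq_abs, Pi.sub_apply] at h2
    have h3 := abs_le.1 (h2.trans hxy)
    constructor <;> linarith
  rcases se_pt GO H hi hx hb hxb with ⟨-, a2, a3⟩ | a1 <;>
    rcases se_pt GO H hi hy hb hyb with ⟨-, b2, b3⟩ | b1
  · exact Or.inr ⟨rtK_mono L (by norm_num) a3, rtK_mono L (by norm_num) b3⟩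
  · exact Or.inr ⟨rtK_mono L (by norm_num) a3, by rw [b1]; exact key hyb hxy a2⟩
  · refine Or.inr ⟨?_, rtK_mono L (by norm_num) b3⟩
    rw [a1]
    exact key hxb (by rw [norm_sub_rev]; exact hxy) b2
  · exact Or.inl ⟨a1, b1⟩

/-- **[OSCV], up to the ends of the windows** -/
theorem se_oscv (GO : GivOut D C E L hc0 hc A₁ lamb h' g)
    (H : RTS L hc0 hc he he2 X Hα H₁ Tf) (hA₁ : 0 ≤ A₁) {ηe : TBx K → ℝ}
    {k : TBx K → ℝ → ℝ} {Ψ : ConHomeo Λ Λ}
    (hΨ : PsiI (D.G C) (ω3T δ C) (pB C J₀) ηe k Ψ) {i : M.ι} (hi : i ∈ Wc D C) {b : TBx K}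
    (hb : b ∈ pB C J₀) (hη0 : 0 ≤ ηe b) (hη : ηe b / (2048 * ω3T δ C b) *
      ((D.G C).thi true b b.ax - (D.G C).tlo true b b.ax) ≤ lamb b / 2) (hlam : 0 ≤ lamb b)
    (H3 : ∀ lo hi : ℝ, (D.G C).tlo true b b.ax + 50 * ω3T δ C b ≤ lo → lo ≤ hi →
      hi ≤ (D.G C).thi true b b.ax - 50 * ω3T δ C b →
      ∀ Bd : ℝ, (∀ x ∈ M.Q i, ∀ y ∈ M.Q i, |h.toFun x b.ax - h.toFun y b.ax| ≤ Bd) →
        ∀ x ∈ M.Q i, ∀ y ∈ M.Q i, h.toFun x ∈ (D.G C).TB false b →
        h.toFun y ∈ (D.G C).TB false b →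
        |clm lo hi (((Hα.trans H₁).trans Tf).toFun (g.toFun x) b.ax) -
            clm lo hi (((Hα.trans H₁).trans Tf).toFun (g.toFun y) b.ax)| ≤ A₁ * Bd + lamb b)
    (hlen : 4096 * ω3T δ C b ≤ (D.G C).thi true b b.ax - (D.G C).tlo true b b.ax)
    {lo hi' : ℝ} {Bd : ℝ}
    (hBd : ∀ x ∈ M.Q i, ∀ y ∈ M.Q i, ‖h.toFun x - h.toFun y‖ ≤ Bd) {x y : V} (hx : x ∈ M.Q i)
    (hy : y ∈ M.Q i) (hxb : h.toFun x ∈ (D.G C).TB false b)
    (hyb : h.toFun y ∈ (D.G C).TB false b) :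
    |clm lo hi' (Ψ.toFun (((Hα.trans H₁).trans Tf).toFun (g.toFun x)) b.ax) -
      clm lo hi' (Ψ.toFun (((Hα.trans H₁).trans Tf).toFun (g.toFun y)) b.ax)| ≤
      (2 * A₁ + 2) * Bd + 2 * lamb b := by
  have hω := D.ω3T_pos C b
  have hBd0 : 0 ≤ Bd := (norm_nonneg _).trans (hBd x hx x hx)
  have hosc : ‖h.toFun x - h.toFun y‖ ≤ ω3T δ C b := by
    rw [← dist_eq_norm]
    exact D.rt_oscC C i hi.2.1 b hb x hx y hy hxb
  have hiG : i ∈ P ∪ Wc D C := Or.inr hi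
  refine (clm_lip _ _).trans ?_
  have h0 : 0 ≤ A₁ * Bd := mul_nonneg hA₁ hBd0
  rcases se_two GO H hiG hx hy hb hxb hyb hosc with ⟨a1, a2⟩ | ⟨a1, a2⟩
  · rw [a1, a2]
    have h1 := hΨ.pair b hb _ hxb _ hyb
    have h2 := hBd x hx y hy
    nlinarith
  · rw [hΨ.full b hb _ a1, hΨ.full b hb _ a2, Function.update_self, Function.update_self]
    have h1 := hΨ.kk b hb _ _ a1.1.1 a1.1.2 a2.1.1 a2.1.2
    have h2 := H3 ((D.G C).tlo true b b.ax + 2048 * ω3T δ C b)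
      ((D.G C).thi true b b.ax - 2048 * ω3T δ C b) (by linarith) (by linarith) (by linarith) Bd
      (fun x hx y hy => by
        have h3 := norm_le_pi_norm (h.toFun x - h.toFun y) b.ax
        rw [Real.norm_eq_abs, Pi.sub_apply] at h3
        exact h3.trans (hBd x hx y hy)) x hx y hy hxb hyb
    have h4 : |((Hα.trans H₁).trans Tf).toFun (g.toFun x) b.ax -
        ((Hα.trans H₁).trans Tf).toFun (g.toFun y) b.ax| ≤
        (D.G C).thi true b b.ax - (D.G C).tlo true b b.ax := by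
      have e1 := a1.1.1
      have e2 := a1.1.2
      have e3 := a2.1.1
      have e4 := a2.1.2
      rw [abs_le]
      constructor <;> linarith
    have h5 : 0 ≤ ηe b / (2048 * ω3T δ C b) := by positivity
    have h6 := mul_le_mul_of_nonneg_left h4 h5
    linarith

/-- pairs of near points with images in one box -/
theorem se_pair (GO : GivOut D C E L hc0 hc A₁ lamb h' g)
    (H : RTS L hc0 hc he he2 X Hα H₁ Tf) (hA₁ : 0 ≤ A₁) {ηe : TBx K → ℝ}
    {k : TBx K → ℝ → ℝ} {Ψ : ConHomeo Λ Λ}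
    (hΨ : PsiI (D.G C) (ω3T δ C) (pB C J₀) ηe k Ψ) {i : M.ι} (hi : i ∈ P ∪ Wc D C) {b : TBx K}
    (hb : b ∈ pB C J₀) (hη0 : 0 ≤ ηe b) (hηω : ηe b ≤ ω3T δ C b) {Kb : ℝ}
    (hη : ηe b / (2048 * ω3T δ C b) * Kb ≤ lamb b) (hlam : 0 ≤ lamb b)
    {x y : V} (hx : x ∈ M.Q i) (hy : y ∈ M.Q i)
    (hxb : h.toFun x ∈ (D.G C).TB false b) (hyb : h.toFun y ∈ (D.G C).TB false b)
    (hxy : ‖h.toFun x - h.toFun y‖ ≤ ω3T δ C b)
    (hst : ((D.G C).tlo true b b.ax + 40 * ω3T δ C b ≤ h.toFun x b.ax ∧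
        h.toFun x b.ax ≤ (D.G C).thi true b b.ax - 40 * ω3T δ C b) →
      |((Hα.trans H₁).trans Tf).toFun (g.toFun y) b.ax -
        ((Hα.trans H₁).trans Tf).toFun (g.toFun x) b.ax| ≤
      A₁ * ‖h.toFun y - h.toFun x‖ + lamb b * ‖y - x‖)
    (hnx : |((Hα.trans H₁).trans Tf).toFun (g.toFun x) b.ax - h.toFun x b.ax| ≤
      1024 * ω3T δ C b)
    (hny : |((Hα.trans H₁).trans Tf).toFun (g.toFun y) b.ax -
      ((Hα.trans H₁).trans Tf).toFun (g.toFun x) b.ax| ≤ ω3T δ C b)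
    (hK : |((Hα.trans H₁).trans Tf).toFun (g.toFun y) b.ax -
      ((Hα.trans H₁).trans Tf).toFun (g.toFun x) b.ax| ≤ Kb * ‖y - x‖) :
    |Ψ.toFun (((Hα.trans H₁).trans Tf).toFun (g.toFun y)) b.ax -
      Ψ.toFun (((Hα.trans H₁).trans Tf).toFun (g.toFun x)) b.ax| ≤
      (2 * A₁ + 2) * ‖h.toFun y - h.toFun x‖ + 2 * lamb b * ‖y - x‖ := by
  have hω := D.ω3T_pos C b
  have hh0 := norm_nonneg (h.toFun y - h.toFun x)
  have hl0 : 0 ≤ lamb b * ‖y - x‖ := mul_nonneg hlam (norm_nonneg _)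
  have hA0 : 0 ≤ A₁ * ‖h.toFun y - h.toFun x‖ := mul_nonneg hA₁ hh0
  rcases se_two GO H hi hx hy hb hxb hyb hxy with ⟨a1, a2⟩ | ⟨a1, a2⟩
  · rw [a1, a2]
    have h1 := hΨ.pair b hb _ hyb _ hxb
    nlinarith
  · rw [hΨ.full b hb _ a1, hΨ.full b hb _ a2, Function.update_self, Function.update_self]
    set s := ((Hα.trans H₁).trans Tf).toFun (g.toFun x) b.ax with hs
    set t := ((Hα.trans H₁).trans Tf).toFun (g.toFun y) b.ax with ht
    have h1 := hΨ.kk b hb t s a2.1.1 a2.1.2 a1.1.1 a1.1.2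
    have h5 : 0 ≤ ηe b / (2048 * ω3T δ C b) := by positivity
    have h6 : ηe b / (2048 * ω3T δ C b) ≤ 1 / 2048 := by
      rw [div_le_div_iff₀ (by positivity) (by norm_num)]
      linarith
    have h7 := abs_nonneg (t - s)
    by_cases hin : (D.G C).tlo true b b.ax + 40 * ω3T δ C b ≤ h.toFun x b.ax ∧
        h.toFun x b.ax ≤ (D.G C).thi true b b.ax - 40 * ω3T δ C b
    · have h2 := hst hin
      have h3 : |clm ((D.G C).tlo true b b.ax + 2048 * ω3T δ C b)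
          ((D.G C).thi true b b.ax - 2048 * ω3T δ C b) t -
          clm ((D.G C).tlo true b b.ax + 2048 * ω3T δ C b)
          ((D.G C).thi true b b.ax - 2048 * ω3T δ C b) s| ≤ |t - s| := clm_lip _ _
      nlinarith
    · have h2 : clm ((D.G C).tlo true b b.ax + 2048 * ω3T δ C b)
          ((D.G C).thi true b b.ax - 2048 * ω3T δ C b) t =
          clm ((D.G C).tlo true b b.ax + 2048 * ω3T δ C b)
          ((D.G C).thi true b b.ax - 2048 * ω3T δ C b) s := by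
        have hlen : 4096 * ω3T δ C b ≤ (D.G C).thi true b b.ax - (D.G C).tlo true b b.ax := by
          have h2 := Vale.Agent.P073.H669.win (D.G C) b
          have h3 := D.ω3T_oT C b
          linarith
        obtain ⟨n1, n2⟩ := abs_le.1 hnx
        obtain ⟨n3, n4⟩ := abs_le.1 hny
        rcases not_and_or.1 hin with h8 | h8
        · rw [se_clm_lo (by linarith) (by linarith), se_clm_lo (by linarith) (by linarith)]
        · rw [se_clm_hi (by linarith) (by linarith), se_clm_hi (by linarith) (by linarith)]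
      rw [h2, sub_self, abs_zero, mul_zero, zero_add] at h1
      have h9 : ηe b / (2048 * ω3T δ C b) * |t - s| ≤ lamb b * ‖y - x‖ := by
        calc ηe b / (2048 * ω3T δ C b) * |t - s| ≤
            ηe b / (2048 * ω3T δ C b) * (Kb * ‖y - x‖) := mul_le_mul_of_nonneg_left hK h5
          _ = ηe b / (2048 * ω3T δ C b) * Kb * ‖y - x‖ := by ring
          _ ≤ lamb b * ‖y - x‖ := mul_le_mul_of_nonneg_right hη (norm_nonneg _)
      nlinarith

/-- **[LIP-H1], up to the ends of the windows**: the clamped coordinate near a point of a given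
cell -/
theorem se_stair (GO : GivOut D C E L hc0 hc A₁ lamb h' g)
    (H : RTS L hc0 hc he he2 X Hα H₁ Tf) (hA₁ : 0 ≤ A₁) {ηe : TBx K → ℝ}
    {k : TBx K → ℝ → ℝ} {Ψ : ConHomeo Λ Λ}
    (hΨ : PsiI (D.G C) (ω3T δ C) (pB C J₀) ηe k Ψ) {i : M.ι} (hi : i ∈ P ∪ Wc D C) {b : TBx K}
    (hb : b ∈ pB C J₀) (hη0 : 0 ≤ ηe b) (hηω : ηe b ≤ ω3T δ C b) {Kb : ℝ}
    (hη : ηe b / (2048 * ω3T δ C b) * Kb ≤ lamb b) (hlam : 0 ≤ lamb b)
    {x : V} (hx : x ∈ M.Q i) (hxb : h.toFun x ∈ (D.G C).TB false b)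
    (hst : ((D.G C).tlo true b b.ax + 40 * ω3T δ C b ≤ h.toFun x b.ax ∧
        h.toFun x b.ax ≤ (D.G C).thi true b b.ax - 40 * ω3T δ C b) →
      ∀ᶠ y in 𝓝[M.Q i] x, |((Hα.trans H₁).trans Tf).toFun (g.toFun y) b.ax -
        ((Hα.trans H₁).trans Tf).toFun (g.toFun x) b.ax| ≤
      A₁ * ‖h.toFun y - h.toFun x‖ + lamb b * ‖y - x‖)
    (hnx : |((Hα.trans H₁).trans Tf).toFun (g.toFun x) b.ax - h.toFun x b.ax| ≤
      1024 * ω3T δ C b)
    (hK : ∀ᶠ y in 𝓝 x, ‖(g.trans ((Hα.trans H₁).trans Tf)).toFun y -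
      (g.trans ((Hα.trans H₁).trans Tf)).toFun x‖ ≤ Kb * ‖y - x‖) :
    ∀ᶠ y in 𝓝[M.Q i] x, ∀ lo hi' : ℝ, (D.G C).tlo true b b.ax ≤ lo → lo ≤ hi' →
      hi' ≤ (D.G C).thi true b b.ax →
      |clm lo hi' (Ψ.toFun (((Hα.trans H₁).trans Tf).toFun (g.toFun y)) b.ax) -
        clm lo hi' (Ψ.toFun (((Hα.trans H₁).trans Tf).toFun (g.toFun x)) b.ax)| ≤
      (2 * A₁ + 2) * ‖h.toFun y - h.toFun x‖ + 2 * lamb b * ‖y - x‖ := by
  have hω := D.ω3T_pos C b
  have hxO : x ∈ Ω := M.sub i hx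
  set g1 : ConHomeo Ω Λ := g.trans ((Hα.trans H₁).trans Tf) with hg1
  set g2 : ConHomeo Ω Λ := g1.trans Ψ with hg2
  have c0 : Tendsto h.toFun (𝓝[M.Q i] x) (𝓝 (h.toFun x)) := (h.cont.mono (M.sub i)) x hx
  have c1 : Tendsto g1.toFun (𝓝[M.Q i] x) (𝓝 (g1.toFun x)) := (g1.cont.mono (M.sub i)) x hx
  have c2 : Tendsto g2.toFun (𝓝[M.Q i] x) (𝓝 (g2.toFun x)) := (g2.cont.mono (M.sub i)) x hx
  have hev0 : ∀ᶠ y in 𝓝[M.Q i] x, ∀ b' : TBx K, h.toFun y ∈ (D.G C).TB false b' →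
      h.toFun x ∈ (D.G C).TB false b' := c0.eventually (ev_TB (D.G C) (h.mapsTo hxO))
  have hev1 : ∀ᶠ y in 𝓝[M.Q i] x, ‖h.toFun x - h.toFun y‖ < ω3T δ C b := by
    filter_upwards [c0.eventually (ball_mem_nhds (h.toFun x) hω)] with y hy
    rwa [norm_sub_rev, ← dist_eq_norm]
  have hev2 : ∀ᶠ y in 𝓝[M.Q i] x, ‖g1.toFun y - g1.toFun x‖ < ω3T δ C b := by
    filter_upwards [c1.eventually (ball_mem_nhds (g1.toFun x) hω)] with y hy
    rwa [← dist_eq_norm]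
  have hev3 : ∀ᶠ y in 𝓝[M.Q i] x, ((D.G C).tlo true b b.ax + 40 * ω3T δ C b ≤
        h.toFun x b.ax ∧ h.toFun x b.ax ≤ (D.G C).thi true b b.ax - 40 * ω3T δ C b) →
      |((Hα.trans H₁).trans Tf).toFun (g.toFun y) b.ax -
        ((Hα.trans H₁).trans Tf).toFun (g.toFun x) b.ax| ≤
      A₁ * ‖h.toFun y - h.toFun x‖ + lamb b * ‖y - x‖ := by
    by_cases hin : (D.G C).tlo true b b.ax + 40 * ω3T δ C b ≤ h.toFun x b.ax ∧
        h.toFun x b.ax ≤ (D.G C).thi true b b.ax - 40 * ω3T δ C b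
    · filter_upwards [hst hin] with y hy _
      exact hy
    · exact Eventually.of_forall fun y h2 => absurd h2 hin
  have hev4 : ∀ᶠ y in 𝓝[M.Q i] x, (∀ b' ∈ pB C J₀, h.toFun y ∉ (D.G C).TB false b') →
      g2.toFun x = h.toFun x := by
    by_cases hF : ∃ᶠ y in 𝓝[M.Q i] x, ∀ b' ∈ pB C J₀, h.toFun y ∉ (D.G C).TB false b'
    · have h1 : ∃ᶠ y in 𝓝[M.Q i] x, g2.toFun y = h.toFun y := by
        refine (hF.and_eventually self_mem_nhdsWithin).mono ?_
        rintro y ⟨hy, hyQ⟩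
        have h2 : g1.toFun y = h.toFun y :=
          se_out GO H hi hyQ fun b' hb' h3 => hy b' hb' (interior_subset h3)
        show Ψ.toFun (g1.toFun y) = h.toFun y
        rw [h2]
        exact hΨ.off _ hy
      have h3 := tendsto_nhds_unique_of_frequently_eq c2 c0 h1
      exact Eventually.of_forall fun y _ => h3
    · filter_upwards [not_frequently.1 hF] with y hy h2
      exact absurd h2 hy
  filter_upwards [hev0, hev1, hev2, hev3, hev4, nhdsWithin_le_nhds hK, self_mem_nhdsWithin]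
    with y e0 e1 e2 e3 e4 e5 hyQ
  intro lo hi' h1 h2 h3
  have hrhs : 0 ≤ (2 * A₁ + 2) * ‖h.toFun y - h.toFun x‖ + 2 * lamb b * ‖y - x‖ := by
    positivity
  have ax_le : ∀ z : V, |z b.ax| ≤ ‖z‖ := fun z => by
    rw [← Real.norm_eq_abs]; exact norm_le_pi_norm z b.ax
  by_cases hyb : h.toFun y ∈ (D.G C).TB false b
  · refine (clm_lip _ _).trans (se_pair GO H hA₁ hΨ hi hb hη0 hηω hη hlam hx hyQ hxb hyb e1.le
      e3 hnx ((ax_le _).trans e2.le) ((ax_le _).trans e5))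
  · by_cases hex : ∃ b' ∈ pB C J₀, h.toFun y ∈ (D.G C).TB false b'
    · obtain ⟨b', hb', hyb'⟩ := hex
      have hne : b ≠ b' := fun h5 => hyb (h5 ▸ hyb')
      have hxb' := e0 b' hyb'
      have m1 : g2.toFun y ∈ (D.G C).TB false b' :=
        hΨ.mem b' hb' _ (se_mem GO H hi hyQ hb' hyb')
      have m2 : g2.toFun x ∈ (D.G C).TB false b' :=
        hΨ.mem b' hb' _ (se_mem GO H hi hx hb' hxb')
      have m3 : g2.toFun x ∈ (D.G C).TB false b :=
        hΨ.mem b hb _ (se_mem GO H hi hx hb hxb)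
      obtain ⟨j1, -⟩ := junc_ax hne hxb hxb' m3 m2
      have e6 : clm lo hi' (g2.toFun y b.ax) = clm lo hi' (g2.toFun x b.ax) := by
        rcases junc_side hne hxb hxb' m1 with ⟨k1, k2⟩ | ⟨k1, k2⟩
        · rw [se_clm_lo h2 (k2.trans h1), se_clm_lo h2 (by rw [← j1, k1]; exact h1)]
        · rw [se_clm_hi h2 (h3.trans k2), se_clm_hi h2 (by rw [← j1, k1]; exact h3)]
      show |clm lo hi' (g2.toFun y b.ax) - clm lo hi' (g2.toFun x b.ax)| ≤ _
      rw [e6, sub_self, abs_zero]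
      exact hrhs
    · push Not at hex
      have e6 : g2.toFun y = h.toFun y := by
        have h5 : g1.toFun y = h.toFun y :=
          se_out GO H hi hyQ fun b' hb' h3 => hex b' hb' (interior_subset h3)
        show Ψ.toFun (g1.toFun y) = h.toFun y
        rw [h5]
        exact hΨ.off _ hex
      have e7 := e4 hex
      show |clm lo hi' (g2.toFun y b.ax) - clm lo hi' (g2.toFun x b.ax)| ≤ _
      rw [e6, e7]
      refine (clm_lip _ _).trans ?_
      have h6 := ax_le (h.toFun y - h.toFun x)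
      rw [Pi.sub_apply] at h6
      have h7 : 0 ≤ 2 * lamb b * ‖y - x‖ := by positivity
      have h8 := norm_nonneg (h.toFun y - h.toFun x)
      nlinarith

/-- **the level coordinate of the given cells after the squeeze**: output -/
structure SOut (D : KIn3 c₀ n j δ v w ρ M h J₀ J P Z) (C : Cells ρ w K) (A₂ : ℝ)
    (lam2 : TBx K → ℝ) (h1 : V → V) : Prop where
  /-- clamped coordinate, near a point -/
  stair : ∀ i ∈ P ∪ Wc D C, ∀ b ∈ pB C J₀, ∀ x ∈ M.Q i, h.toFun x ∈ (D.G C).TB false b →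
    ∀ᶠ y in 𝓝[M.Q i] x, ∀ lo hi : ℝ, (D.G C).tlo true b b.ax ≤ lo → lo ≤ hi →
      hi ≤ (D.G C).thi true b b.ax →
      |clm lo hi (h1 y b.ax) - clm lo hi (h1 x b.ax)| ≤
        A₂ * ‖h.toFun y - h.toFun x‖ + lam2 b * ‖y - x‖
  /-- the new points are in the same boxes -/
  mem : ∀ i ∈ P ∪ Wc D C, ∀ b ∈ pB C J₀, ∀ x ∈ M.Q i, h.toFun x ∈ (D.G C).TB false b →
    h1 x ∈ (D.G C).TB false b
  /-- clamped coordinate, oscillation on the passive cells -/
  oscv : ∀ i ∈ Wc D C, ∀ b ∈ pB C J₀, ∀ lo hi : ℝ, ∀ Bd : ℝ,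
    (∀ x ∈ M.Q i, ∀ y ∈ M.Q i, ‖h.toFun x - h.toFun y‖ ≤ Bd) →
    ∀ x ∈ M.Q i, ∀ y ∈ M.Q i, h.toFun x ∈ (D.G C).TB false b →
    h.toFun y ∈ (D.G C).TB false b →
    |clm lo hi (h1 x b.ax) - clm lo hi (h1 y b.ax)| ≤ A₂ * Bd + lam2 b

/-- **[T-END] for the given cells**: the number `η₀` bounds the lengths of the squeezed ends -/
theorem exists_sout (hΩ : IsOpen Ω) (GO : GivOut D C E L hc0 hc A₁ lamb h' g)
    (H : RTS L hc0 hc he he2 X Hα H₁ Tf) (hA₁ : 0 ≤ A₁) (hlam : ∀ b, 0 < lamb b)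
    (hnear : ∀ i ∈ P ∪ Wc D C, ∀ x ∈ M.Q i, ∀ b ∈ pB C J₀, h.toFun x ∈ (D.G C).TB false b →
      |((Hα.trans H₁).trans Tf).toFun (g.toFun x) b.ax - h.toFun x b.ax| ≤ 1024 * ω3T δ C b)
    (HS1 : ∀ i ∈ P, ∀ b ∈ pB C J₀, ∀ x ∈ M.Q i, h.toFun x ∈ (D.G C).TB false b →
      ∀ᶠ y in 𝓝[M.Q i] x,
        |((Hα.trans H₁).trans Tf).toFun (g.toFun y) b.ax -
            ((Hα.trans H₁).trans Tf).toFun (g.toFun x) b.ax| ≤
          A₁ * ‖h.toFun y - h.toFun x‖ + lamb b * ‖y - x‖)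
    (HS2 : ∀ i ∈ Wc D C, ∀ b ∈ pB C J₀, ∀ x ∈ M.Q i, h.toFun x ∈ (D.G C).TB false b →
      (D.G C).tlo true b b.ax + 40 * ω3T δ C b ≤ h.toFun x b.ax →
      h.toFun x b.ax ≤ (D.G C).thi true b b.ax - 40 * ω3T δ C b → ∀ᶠ y in 𝓝[M.Q i] x,
        |((Hα.trans H₁).trans Tf).toFun (g.toFun y) b.ax -
            ((Hα.trans H₁).trans Tf).toFun (g.toFun x) b.ax| ≤
          A₁ * ‖h.toFun y - h.toFun x‖ + lamb b * ‖y - x‖)
    (HS3 : ∀ i ∈ Wc D C, ∀ b ∈ pB C J₀, ∀ lo hi : ℝ,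
      (D.G C).tlo true b b.ax + 50 * ω3T δ C b ≤ lo → lo ≤ hi →
      hi ≤ (D.G C).thi true b b.ax - 50 * ω3T δ C b →
      ∀ Bd : ℝ, (∀ x ∈ M.Q i, ∀ y ∈ M.Q i, |h.toFun x b.ax - h.toFun y b.ax| ≤ Bd) →
        ∀ x ∈ M.Q i, ∀ y ∈ M.Q i, h.toFun x ∈ (D.G C).TB false b →
        h.toFun y ∈ (D.G C).TB false b →
        |clm lo hi (((Hα.trans H₁).trans Tf).toFun (g.toFun x) b.ax) -
            clm lo hi (((Hα.trans H₁).trans Tf).toFun (g.toFun y) b.ax)| ≤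
          A₁ * Bd + lamb b) :
    ∃ η₀ : TBx K → ℝ, (∀ b, 0 < η₀ b) ∧ ∀ (ηe : TBx K → ℝ) (k : TBx K → ℝ → ℝ)
      (Ψ : ConHomeo Λ Λ), (∀ b, 0 < ηe b) → (∀ b, ηe b ≤ η₀ b) →
      PsiI (D.G C) (ω3T δ C) (pB C J₀) ηe k Ψ →
      SOut D C (2 * A₁ + 2) (fun b => 2 * lamb b)
        fun x => Ψ.toFun (((Hα.trans H₁).trans Tf).toFun (g.toFun x)) := by
  have hω : ∀ b, 0 < ω3T δ C b := fun b => D.ω3T_pos C b
  have hlen : ∀ b, 4096 * ω3T δ C b ≤
      (D.G C).thi true b b.ax - (D.G C).tlo true b b.ax := fun b => by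
    have h2 := Vale.Agent.P073.H669.win (D.G C) b
    have h3 := D.ω3T_oT C b
    have h4 := hω b
    linarith
  have hK : ∀ b : TBx K, ∃ Kb : ℝ, 0 ≤ Kb ∧ ∀ x ∈ h.invFun '' (D.G C).TB false b,
      ∀ᶠ y in 𝓝 x, ‖(g.trans ((Hα.trans H₁).trans Tf)).toFun y -
        (g.trans ((Hα.trans H₁).trans Tf)).toFun x‖ ≤ Kb * ‖y - x‖ := by
    intro b
    refine exists_lip_near hΩ _ ((show IsCompact ((D.G C).TB false b) from
      isCompact_Icc).image_of_continuousOn (h.cont_inv.mono (Geo.TB_sub b))) ?_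
    rintro _ ⟨y, hy, rfl⟩
    exact h.mapsTo_inv (Geo.TB_sub b hy)
  choose Kb hK0 hKb using hK
  set LL : TBx K → ℝ := fun b => (D.G C).thi true b b.ax - (D.G C).tlo true b b.ax with hLL
  have hLL0 : ∀ b, 0 ≤ LL b := fun b => by
    have h1 := hlen b
    have h2 := hω b
    show 0 ≤ (D.G C).thi true b b.ax - (D.G C).tlo true b b.ax
    linarith
  refine ⟨fun b => min (ω3T δ C b) (lamb b * (2048 * ω3T δ C b) / (2 * LL b + Kb b + 1)),
    fun b => ?_, ?_⟩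
  · have h1 := hω b
    have h2 := hlam b
    have h3 := hLL0 b
    have h4 := hK0 b
    exact lt_min h1 (by positivity)
  intro ηe k Ψ hη0 hη hΨ
  have hη1 : ∀ b, ηe b ≤ ω3T δ C b := fun b => (hη b).trans (min_le_left _ _)
  have hη2 : ∀ b, ηe b / (2048 * ω3T δ C b) * (2 * LL b + Kb b + 1) ≤ lamb b := by
    intro b
    have h1 := (hη b).trans (min_le_right _ _)
    have h3 := hLL0 b
    have h4 := hK0 b
    have h5 := hω b
    rw [le_div_iff₀ (by positivity)] at h1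
    rw [div_mul_eq_mul_div, div_le_iff₀ (by positivity)]
    exact h1
  have hη3 : ∀ b, ηe b / (2048 * ω3T δ C b) * LL b ≤ lamb b / 2 := by
    intro b
    have h1 := hη2 b
    have h3 := hLL0 b
    have h4 := hK0 b
    have h5 : 0 ≤ ηe b / (2048 * ω3T δ C b) := by
      have := hω b
      have := hη0 b
      positivity
    nlinarith
  have hη4 : ∀ b, ηe b / (2048 * ω3T δ C b) * Kb b ≤ lamb b := by
    intro b
    have h1 := hη2 b
    have h3 := hLL0 b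
    have h4 := hK0 b
    have h5 : 0 ≤ ηe b / (2048 * ω3T δ C b) := by
      have := hω b
      have := hη0 b
      positivity
    nlinarith
  refine
    { stair := fun i hi b hb x hx hxb => ?_
      mem := fun i hi b hb x hx hxb => hΨ.mem b hb _ (se_mem GO H hi hx hb hxb)
      oscv := fun i hi b hb lo hi' Bd hBd x hx y hy hxb hyb => ?_ }
  · refine se_stair GO H hA₁ hΨ hi hb (hη0 b).le (hη1 b) (hη4 b) (hlam b).le hx hxb
      (fun h1 => ?_) (hnear i hi x hx b hb hxb)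
      (hKb b x ⟨h.toFun x, hxb, h.left_inv (M.sub i hx)⟩)
    rcases hi with hi | hi
    · exact HS1 i hi b hb x hx hxb
    · exact HS2 i hi b hb x hx hxb h1.1 h1.2
  · exact se_oscv GO H hA₁ hΨ hi hb (hη0 b).le (hη3 b) (hlam b).le (HS3 i hi b hb) (hlen b) hBd
      hx hy hxb hyb

/-! ### the fields of `TOut3` -/

variable {A₂ C₀ : ℝ} {lam2 : TBx K → ℝ} {h1 : V → V}

/-- **lip3**, **lipf**: the clamped coordinate on a set `Y` of a given cell -/
theorem SOut.lipS (H : SOut D C A₂ lam2 h1) (hA₂ : 0 ≤ A₂) (hC₀ : A₂ + 2 ≤ C₀) {i : M.ι}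
    (hi : i ∈ P ∪ Wc D C) {Y : Set V} (hY : Y ⊆ M.Q i) {q : ℝ} (hq0 : 0 < q)
    (hq : ∀ x ∈ Y, ∀ y ∈ Y, ‖h.toFun x - h.toFun y‖ ≤ q * ‖x - y‖) {b : TBx K}
    (hb : b ∈ pB C J₀) (h8 : (h.toFun '' Y ∩ (D.G C).TB false b).Nonempty → lam2 b ≤ 2 * q)
    {lo hi' : ℝ} (hlo : (D.G C).tlo true b b.ax ≤ lo) (hlh : lo ≤ hi')
    (hhi : hi' ≤ (D.G C).thi true b b.ax) {x : V} (hx : x ∈ Y)
    (hxb : h.toFun x ∈ (D.G C).TB false b) :
    ∀ᶠ y in 𝓝[Y] x, |clm lo hi' (h1 y b.ax) - clm lo hi' (h1 x b.ax)| ≤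
      C₀ * q * ‖y - x‖ := by
  filter_upwards [nhdsWithin_mono x hY (H.stair i hi b hb x (hY hx) hxb), self_mem_nhdsWithin]
    with y hy hyY
  refine (hy lo hi' hlo hlh hhi).trans ?_
  have h2 := hq y hyY x hx
  have h3 := h8 ⟨_, ⟨x, hx, rfl⟩, hxb⟩
  have h4 := norm_nonneg (y - x)
  have h5 := mul_le_mul_of_nonneg_left h2 hA₂
  have h6 := mul_le_mul_of_nonneg_right h3 h4
  have h7 : (A₂ + 2) * (q * ‖y - x‖) ≤ C₀ * (q * ‖y - x‖) :=
    mul_le_mul_of_nonneg_right hC₀ (by positivity)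
  calc _ ≤ A₂ * ‖h.toFun y - h.toFun x‖ + lam2 b * ‖y - x‖ := le_rfl
    _ ≤ A₂ * (q * ‖y - x‖) + 2 * q * ‖y - x‖ := add_le_add h5 h6
    _ = (A₂ + 2) * (q * ‖y - x‖) := by ring
    _ ≤ C₀ * (q * ‖y - x‖) := h7
    _ = C₀ * q * ‖y - x‖ := by ring

/-- **protv** -/
theorem SOut.protv (H : SOut D C A₂ lam2 h1) (hA₂ : 0 ≤ A₂) (hC₀ : A₂ + 2 ≤ C₀)
    (hlam : ∀ b i, (h.toFun '' M.Q i ∩ (D.G C).TB false b).Nonempty → ∀ q : ℝ,
      (∀ x ∈ M.Q i, ∀ y ∈ M.Q i, ‖h.toFun x - h.toFun y‖ ≤ q * ‖x - y‖) → lam2 b ≤ 2 * q) :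
    ∀ i ∈ P, ∀ b ∈ pB C J₀, ∀ x ∈ M.Q i, ∀ y ∈ M.Q i, h.toFun x ∈ (D.G C).TB false b →
      h.toFun y ∈ (D.G C).TB false b →
      |h1 x b.ax - h1 y b.ax| ≤ C₀ * ‖h.toFun x - h.toFun y‖ := by
  intro i hi b hb x hx y hy hxT hyT
  have hlt : (1:ℝ) / 2 ^ j < 1 := lt_of_le_of_lt D.η_le_one (by norm_num)
  have hcl : ∀ z ∈ M.Q i, h.toFun z ∈ (D.G C).TB false b →
      clm ((D.G C).tlo true b b.ax) ((D.G C).thi true b b.ax) (h1 z b.ax) = h1 z b.ax := by
    intro z hz hzT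
    obtain ⟨z1, z2⟩ := TB_ax (H.mem i (Or.inl hi) b hb z hz hzT)
    unfold clm
    rw [min_eq_right z2, max_eq_right z1]
  have hwin : (D.G C).tlo true b b.ax ≤ (D.G C).thi true b b.ax := by
    obtain ⟨z1, z2⟩ := TB_ax hxT
    exact z1.trans z2
  have key := protv_field (G := D.G C) (G₀ := {b}) hlt D.inp (A := A₂ + 1) (C₀ := C₀)
    (by linarith) (by linarith) (lam := fun b => lam2 b / 2) (fun b i hne q hq => by
      have h2 := hlam b i hne q hq
      linarith) (h1 := fun z _ => clm ((D.G C).tlo true b b.ax) ((D.G C).thi true b b.ax)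
        (h1 z b.ax)) (fun i' hi' b' hb' z hz hzT => by
      rw [mem_singleton_iff] at hb'
      subst hb'
      obtain ⟨q, hq0, hsim⟩ := prot_sim hlt D.inp hi'
      have h3 := hlam b' i' ⟨_, ⟨z, hz, rfl⟩, hzT⟩ q fun x hx y hy => (hsim x hx y hy).le
      filter_upwards [H.stair i' (Or.inl hi') b' hb z hz hzT, self_mem_nhdsWithin]
        with z' hz' hz'Q
      refine (hz' _ _ le_rfl hwin le_rfl).trans ?_
      have h4 := hsim z' hz'Q z hz
      have h5 := mul_le_mul_of_nonneg_right h3 (norm_nonneg (z' - z))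
      have h6 := norm_nonneg (h.toFun z' - h.toFun z)
      show _ ≤ (A₂ + 1) * ‖h.toFun z' - h.toFun z‖ + lam2 b' / 2 * ‖z' - z‖
      nlinarith) i hi b rfl x hx y hy hxT hyT
  rwa [hcl x hx hxT, hcl y hy hyT] at key

end

end P073.H244
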