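import Vale.Agent.P073.H73.K2A

/-!
# P073, A15-[T3]: finite shapes

Sets which are cut out by grid planes of a dyadic grid and by the preimages of the planes of a
second dyadic grid under an affine map with dyadic rational data have only finitely many shapes up
to homothety: the shape constant of the faces of such a mesh does not depend on the generation.
-/

open Set Metric Topology

namespace Vale.Agent.P073.H244

open Vale.Agent.P073.St (V)
open _root_.P073 (ConHomeo ConicalOn ConicalSet conicalOn_const conicalOn_id)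
open _root_.P073.Net (dyc)
open Vale.Agent.P073.H73

/-- the homothety `u ↦ a + s u` -/
def hty (a : V) (s : ℝ) (u : V) : V := a + s • u

theorem hty_hty (a b : V) (s t : ℝ) (u : V) :
    hty a s (hty b t u) = hty (a + s • b) (s * t) u := by
  simp only [hty, smul_add, smul_smul, add_assoc]

theorem hty_inv {s : ℝ} (hs : s ≠ 0) (a u : V) : hty (-(s⁻¹ • a)) s⁻¹ (hty a s u) = u := by
  simp only [hty, smul_add, smul_smul, inv_mul_cancel₀ hs, one_smul]
  abel

theorem hty_inv' {s : ℝ} (hs : s ≠ 0) (a u : V) : hty a s (hty (-(s⁻¹ • a)) s⁻¹ u) = u := by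
  simp only [hty, smul_add, smul_neg, smul_smul, mul_inv_cancel₀ hs, one_smul]
  abel

theorem image_hty_inv {s : ℝ} (hs : s ≠ 0) (a : V) (F : Set V) :
    hty (-(s⁻¹ • a)) s⁻¹ '' (hty a s '' F) = F := by
  rw [image_image]
  simp only [hty_inv hs, image_id']

/-- homotheties are conical homeomorphisms -/
noncomputable def conHty {F : Set V} (hF : ConicalSet F) (a : V) {s : ℝ} (hs : s ≠ 0) :
    ConHomeo F (hty a s '' F) where
  toFun := hty a s
  invFun := hty (-(s⁻¹ • a)) s⁻¹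
  mapsTo := mapsTo_image _ _
  mapsTo_inv := by
    rintro _ ⟨u, hu, rfl⟩
    rw [hty_inv hs]; exact hu
  left_inv := fun u _ => hty_inv hs a u
  right_inv := fun u _ => hty_inv' hs a u
  cont := by unfold hty; fun_prop
  cont_inv := by unfold hty; fun_prop
  conical := (conicalOn_const a hF).add ((conicalOn_id hF).const_smul s)

theorem norm_hty_sub {s : ℝ} (hs : 0 < s) (a u u' : V) :
    ‖hty a s u - hty a s u'‖ = s * ‖u - u'‖ := by
  have : hty a s u - hty a s u' = s • (u - u') := by simp only [hty, smul_sub]; abel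
  rw [this, norm_smul, Real.norm_of_nonneg hs.le]

/-- the shape constant is invariant under homotheties -/
theorem fat_hty {c r : ℝ} {F : Set V} (h : Fat c r F) (a : V) {s : ℝ} (hs : 0 < s) :
    Fat c (s * r) (hty a s '' F) := by
  obtain ⟨φ, h1, h2⟩ := h.chart
  have key : ∀ (ν : V →L[ℝ] ℝ) (x : V), ν (hty a s x) = ν a + s * ν x := by
    intro ν x
    simp only [hty, map_add, map_smul, smul_eq_mul]
  refine ⟨?_, ?_, φ.trans (conHty φ.conicalSet_right a hs.ne'), ?_, ?_⟩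
  · obtain ⟨n, ν, t, rfl⟩ := h.half
    refine ⟨n, ν, fun i => ν i a + s * t i, ?_⟩
    ext y
    constructor
    · rintro ⟨x, hx, rfl⟩ i
      rw [key]
      have := mul_le_mul_of_nonneg_left (hx i) hs.le
      linarith
    · intro hy
      refine ⟨hty (-(s⁻¹ • a)) s⁻¹ y, fun i => ?_, hty_inv' hs.ne' a y⟩
      have h3 := hy i
      have h4 := key (ν i) (hty (-(s⁻¹ • a)) s⁻¹ y)
      rw [hty_inv' hs.ne'] at h4
      rw [h4] at h3
      have h5 : s * ν i (hty (-(s⁻¹ • a)) s⁻¹ y) ≤ s * t i := by linarith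
      exact le_of_mul_le_mul_left h5 hs
  · obtain ⟨ν, t, hν, H⟩ := h.plane
    refine ⟨ν, ν a + s * t, hν, ?_⟩
    rintro _ ⟨x, hx, rfl⟩
    rw [key, H x hx]
  · intro x hx y hy
    show ‖hty a s (φ.toFun x) - hty a s (φ.toFun y)‖ ≤ _
    rw [norm_hty_sub hs]
    have := mul_le_mul_of_nonneg_left (h1 x hx y hy) hs.le
    calc s * ‖φ.toFun x - φ.toFun y‖ ≤ s * (c * r * ‖x - y‖) := this
      _ = c * (s * r) * ‖x - y‖ := by ring
  · intro x hx y hy
    show _ ≤ c * ‖hty a s (φ.toFun x) - hty a s (φ.toFun y)‖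
    rw [norm_hty_sub hs]
    have := mul_le_mul_of_nonneg_left (h2 x hx y hy) hs.le
    calc s * r * ‖x - y‖ = s * (r * ‖x - y‖) := by ring
      _ ≤ s * (c * ‖φ.toFun x - φ.toFun y‖) := this
      _ = c * (s * ‖φ.toFun x - φ.toFun y‖) := by ring

theorem fat_mono {c c' r : ℝ} {F : Set V} (h : Fat c r F) (hr : 0 ≤ r) (hc : c ≤ c') :
    Fat c' r F := by
  obtain ⟨φ, h1, h2⟩ := h.chart
  refine ⟨h.half, h.plane, φ, fun x hx y hy => (h1 x hx y hy).trans ?_,
    fun x hx y hy => (h2 x hx y hy).trans ?_⟩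
  · gcongr
  · gcongr

/-- change of the size -/
theorem fat_resize {c r r' : ℝ} {F : Set V} (h : Fat c r F) (hr : 0 < r) (hr' : 0 < r') :
    ∃ c', Fat c' r' F := by
  obtain ⟨φ, h1, h2⟩ := h.chart
  refine ⟨max (c * r / r') (c * r' / r), h.half, h.plane, φ, fun x hx y hy => ?_,
    fun x hx y hy => ?_⟩
  · refine (h1 x hx y hy).trans ?_
    have h3 : c * r = c * r / r' * r' := by field_simp
    have h4 : c * r ≤ max (c * r / r') (c * r' / r) * r' := by
      rw [h3]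
      gcongr
      calc c * r / r' ≤ max (c * r / r') (c * r' / r) := le_max_left _ _
        _ = max (c * r / r' * r' / r') (c * r' / r) := by field_simp
    gcongr
  · have h3 := h2 x hx y hy
    have h4 : r' * ‖x - y‖ = r' / r * (r * ‖x - y‖) := by field_simp
    rw [h4]
    calc r' / r * (r * ‖x - y‖) ≤ r' / r * (c * ‖φ.toFun x - φ.toFun y‖) := by gcongr
      _ = c * r' / r * ‖φ.toFun x - φ.toFun y‖ := by ring
      _ ≤ _ := by gcongr; exact le_max_right _ _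

theorem fat_nonempty {c r : ℝ} {F : Set V} (h : Fat c r F) : F.Nonempty := by
  obtain ⟨φ, -, -⟩ := h.chart
  exact ⟨φ.toFun (0, 0), φ.mapsTo ⟨⟨le_refl _, zero_le_one⟩, ⟨le_refl _, zero_le_one⟩⟩⟩

/-! ### the shapes -/

/-- the matrix `M` applied to the vector `u` -/
def mv (M : Fin 3 → Fin 3 → ℤ) (u : V) (k : Fin 3) : ℝ := ∑ l, (M k l : ℝ) * u l

/-- a standard shape -/
def shp (M : Fin 3 → Fin 3 → ℤ) (a₁ a₂ b₁ b₂ : Fin 3 → ℤ) : Set V :=
  {u | ∀ k, (a₁ k : ℝ) ≤ u k ∧ u k ≤ a₂ k ∧ (b₁ k : ℝ) ≤ mv M u k ∧ mv M u k ≤ b₂ k}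

theorem mv_add (M : Fin 3 → Fin 3 → ℤ) (u u' : V) (k : Fin 3) :
    mv M (u + u') k = mv M u k + mv M u' k := by
  simp only [mv, Pi.add_apply, mul_add, Finset.sum_add_distrib]

/-- the integer matrix applied to an integer vector -/
def mz (M : Fin 3 → Fin 3 → ℤ) (z : Fin 3 → ℤ) (k : Fin 3) : ℤ := ∑ l, M k l * z l

theorem mv_intCast (M : Fin 3 → Fin 3 → ℤ) (z : Fin 3 → ℤ) (k : Fin 3) :
    mv M (fun l => (z l : ℝ)) k = mz M z k := by
  simp only [mv, mz, Int.cast_sum, Int.cast_mul]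

/-- bound of the values of `M` on the cube `[0,K]^3` -/
def bd (M : Fin 3 → Fin 3 → ℤ) (K : ℕ) : ℤ := ∑ k, ∑ l, |M k l| * K

theorem abs_mv_le (M : Fin 3 → Fin 3 → ℤ) {K : ℕ} {u : V} (h0 : ∀ k, 0 ≤ u k)
    (h1 : ∀ k, u k ≤ K) (k : Fin 3) : |mv M u k| ≤ bd M K := by
  have h2 : |mv M u k| ≤ ∑ l, |(M k l : ℝ)| * K := by
    unfold mv
    refine (Finset.abs_sum_le_sum_abs _ _).trans (Finset.sum_le_sum fun l _ => ?_)
    rw [abs_mul, abs_of_nonneg (h0 l)]
    gcongr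
    exact h1 l
  refine h2.trans ?_
  have h3 : ((bd M K : ℤ) : ℝ) = ∑ k, ∑ l, |(M k l : ℝ)| * K := by
    simp only [bd]; push_cast; rfl
  rw [h3]
  exact Finset.single_le_sum (f := fun k => ∑ l, |(M k l : ℝ)| * K)
    (fun k _ => Finset.sum_nonneg fun l _ => by positivity) (Finset.mem_univ k)

theorem shp_translate (M : Fin 3 → Fin 3 → ℤ) (a₁ a₂ b₁ b₂ : Fin 3 → ℤ) :
    shp M a₁ a₂ b₁ b₂ = hty (fun l => (a₁ l : ℝ)) 1 ''
      shp M 0 (a₂ - a₁) (b₁ - mz M a₁) (b₂ - mz M a₁) := by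
  have key : ∀ u : V, hty (fun l => (a₁ l : ℝ)) 1 u ∈ shp M a₁ a₂ b₁ b₂ ↔
      u ∈ shp M 0 (a₂ - a₁) (b₁ - mz M a₁) (b₂ - mz M a₁) := by
    intro u
    have e1 : ∀ k, mv M (hty (fun l => (a₁ l : ℝ)) 1 u) k = mz M a₁ k + mv M u k := by
      intro k
      rw [hty, one_smul, mv_add, mv_intCast]
    have e2 : ∀ k, hty (fun l => (a₁ l : ℝ)) 1 u k = a₁ k + u k := by
      intro k; simp [hty]
    constructor
    · intro h k
      obtain ⟨h1, h2, h3, h4⟩ := h k
      rw [e1] at h3 h4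
      rw [e2] at h1 h2
      simp only [Pi.zero_apply, Pi.sub_apply, Int.cast_zero, Int.cast_sub]
      exact ⟨by linarith, by linarith, by linarith, by linarith⟩
    · intro h k
      obtain ⟨h1, h2, h3, h4⟩ := h k
      simp only [Pi.zero_apply, Pi.sub_apply, Int.cast_zero, Int.cast_sub] at h1 h2 h3 h4
      rw [e1, e2]
      exact ⟨by linarith, by linarith, by linarith, by linarith⟩
  ext x
  constructor
  · intro hx
    refine ⟨hty (-((1:ℝ)⁻¹ • fun l => (a₁ l : ℝ))) (1:ℝ)⁻¹ x, ?_, hty_inv' one_ne_zero _ _⟩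
    rw [← key, hty_inv' one_ne_zero]
    exact hx
  · rintro ⟨u, hu, rfl⟩
    exact (key u).2 hu

theorem shp_clamp (M : Fin 3 → Fin 3 → ℤ) {K : ℕ} {a b₁ b₂ : Fin 3 → ℤ} (ha : ∀ k, a k ≤ K) :
    shp M 0 a b₁ b₂ = shp M 0 a (fun k => max (b₁ k) (-bd M K)) (fun k => min (b₂ k) (bd M K)) := by
  ext u
  constructor
  · intro h k
    obtain ⟨h1, h2, h3, h4⟩ := h k
    have h5 := abs_mv_le M (K := K) (u := u) (fun k => by simpa using (h k).1)
      (fun k => (h k).2.1.trans (by exact_mod_cast ha k)) k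
    rw [abs_le] at h5
    refine ⟨h1, h2, ?_, ?_⟩
    · push_cast; exact max_le h3 h5.1
    · push_cast; exact le_min h4 h5.2
  · intro h k
    obtain ⟨h1, h2, h3, h4⟩ := h k
    push_cast at h3 h4
    exact ⟨h1, h2, (le_max_left _ _).trans h3, h4.trans (min_le_left _ _)⟩

/-- the index set of the standard shapes -/
abbrev Ix (M : Fin 3 → Fin 3 → ℤ) (K : ℕ) : Type :=
  (Fin 3 → ↥(Finset.Icc (0:ℤ) K)) × (Fin 3 → ↥(Finset.Icc (-bd M K) (bd M K))) ×
    (Fin 3 → ↥(Finset.Icc (-bd M K) (bd M K)))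

/-- the standard shape with index `i` -/
def ishp (M : Fin 3 → Fin 3 → ℤ) (K : ℕ) (i : Ix M K) : Set V :=
  shp M 0 (fun k => i.1 k) (fun k => i.2.1 k) (fun k => i.2.2 k)

/-- a nonempty shape is a translate of one of finitely many standard shapes -/
theorem exists_ishp (M : Fin 3 → Fin 3 → ℤ) {K : ℕ} {a₁ a₂ b₁ b₂ : Fin 3 → ℤ}
    (hK : ∀ k, a₂ k ≤ a₁ k + K) (hne : (shp M a₁ a₂ b₁ b₂).Nonempty) :
    ∃ i : Ix M K, shp M a₁ a₂ b₁ b₂ = hty (fun l => (a₁ l : ℝ)) 1 '' ishp M K i := by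
  have hK' : ∀ k, (a₂ - a₁) k ≤ K := fun k => by
    have := hK k; simp only [Pi.sub_apply]; linarith
  rw [shp_translate M a₁ a₂ b₁ b₂, shp_clamp M hK'] at hne ⊢
  obtain ⟨_, u, hu, rfl⟩ := hne
  have h5 : ∀ k, |mv M u k| ≤ bd M K := abs_mv_le M (K := K) (u := u)
    (fun k => by simpa using (hu k).1)
    (fun k => (hu k).2.1.trans (by exact_mod_cast hK' k))
  have h1 : ∀ k, (a₂ - a₁) k ∈ Finset.Icc (0:ℤ) K := by
    intro k
    rw [Finset.mem_Icc]
    refine ⟨?_, hK' k⟩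
    have := (hu k).1.trans (hu k).2.1
    exact_mod_cast this
  have h2 : ∀ k, max ((b₁ - mz M a₁) k) (-bd M K) ∈ Finset.Icc (-bd M K) (bd M K) := by
    intro k
    rw [Finset.mem_Icc]
    refine ⟨le_max_right _ _, ?_⟩
    have h3 := (hu k).2.2.1.trans (abs_le.1 (h5 k)).2
    exact_mod_cast h3
  have h3 : ∀ k, min ((b₂ - mz M a₁) k) (bd M K) ∈ Finset.Icc (-bd M K) (bd M K) := by
    intro k
    rw [Finset.mem_Icc]
    refine ⟨?_, min_le_right _ _⟩
    have h3 := (abs_le.1 (h5 k)).1.trans (hu k).2.2.2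
    exact_mod_cast h3
  exact ⟨⟨fun k => ⟨_, h1 k⟩, fun k => ⟨_, h2 k⟩, fun k => ⟨_, h3 k⟩⟩, rfl⟩

/-- **finite shapes**: all two-dimensional shapes have a common shape constant -/
theorem exists_fat_shp (M : Fin 3 → Fin 3 → ℤ) (K : ℕ) :
    ∃ C : ℝ, 1 ≤ C ∧ ∀ (a₁ a₂ b₁ b₂ : Fin 3 → ℤ) (p : V) (s : ℝ), 0 < s →
      (∀ k, a₂ k ≤ a₁ k + K) → (∃ c r, 0 < r ∧ Fat c r (hty p s '' shp M a₁ a₂ b₁ b₂)) →
      Fat C s (hty p s '' shp M a₁ a₂ b₁ b₂) := by
  classical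
  have hC : ∀ i : Ix M K, ∃ c, (∃ c r, 0 < r ∧ Fat c r (ishp M K i)) → Fat c 1 (ishp M K i) := by
    intro i
    by_cases h : ∃ c r, 0 < r ∧ Fat c r (ishp M K i)
    · obtain ⟨c, r, hr, hf⟩ := h
      obtain ⟨c', hc'⟩ := fat_resize hf hr one_pos
      exact ⟨c', fun _ => hc'⟩
    · exact ⟨0, fun h' => absurd h' h⟩
  choose c hc using hC
  refine ⟨1 + ∑ i, |c i|, ?_, ?_⟩
  · have : 0 ≤ ∑ i, |c i| := Finset.sum_nonneg fun i _ => abs_nonneg _
    linarith
  · rintro a₁ a₂ b₁ b₂ p s hs hK ⟨c₀, r, hr, hf⟩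
    have hne : (shp M a₁ a₂ b₁ b₂).Nonempty := (fat_nonempty hf).of_image
    obtain ⟨i, hi⟩ := exists_ishp M hK hne
    have e1 : hty p s '' shp M a₁ a₂ b₁ b₂ =
        hty (p + s • fun l => (a₁ l : ℝ)) s '' ishp M K i := by
      rw [hi, image_image]
      refine image_congr fun u _ => ?_
      rw [hty_hty, mul_one]
    rw [e1] at hf ⊢
    have h2 := fat_hty hf (-(s⁻¹ • (p + s • fun l => (a₁ l : ℝ)))) (inv_pos.2 hs)
    rw [image_hty_inv hs.ne'] at h2
    have h3 := hc i ⟨c₀, _, by positivity, h2⟩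
    have h4 : c i ≤ 1 + ∑ i, |c i| := by
      have h5 : |c i| ≤ ∑ i, |c i| :=
        Finset.single_le_sum (f := fun i => |c i|) (fun i _ => abs_nonneg _) (Finset.mem_univ i)
      have := le_abs_self (c i)
      linarith
    have h6 := fat_hty (fat_mono h3 zero_le_one h4) (p + s • fun l => (a₁ l : ℝ)) hs
    rwa [mul_one] at h6

/-! ### cuts -/

/-- the set cut out by planes of the grid `v + 2^-n ℤ^3` and by the preimages under `A` of planes
of the grid `w + 2^-m ℤ^3` -/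
def cut (v w : V) (n m : ℕ) (A : V → V) (a₁ a₂ b₁ b₂ : Fin 3 → ℤ) : Set V :=
  {x | ∀ k, (v k + a₁ k / 2 ^ n ≤ x k ∧ x k ≤ v k + a₂ k / 2 ^ n) ∧
    w k + b₁ k / 2 ^ m ≤ A x k ∧ A x k ≤ w k + b₂ k / 2 ^ m}

theorem cut_inter (v w : V) (n m : ℕ) (A : V → V) (a₁ a₂ b₁ b₂ a₁' a₂' b₁' b₂' : Fin 3 → ℤ) :
    cut v w n m A a₁ a₂ b₁ b₂ ∩ cut v w n m A a₁' a₂' b₁' b₂' =
      cut v w n m A (a₁ ⊔ a₁') (a₂ ⊓ a₂') (b₁ ⊔ b₁') (b₂ ⊓ b₂') := by
  have h2 : ∀ j : ℕ, (0:ℝ) < 2 ^ j := fun j => by positivity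
  have e1 : ∀ (j : ℕ) (a b : ℤ) (x y : ℝ), x + ((a ⊔ b : ℤ) : ℝ) / 2 ^ j ≤ y ↔
      x + a / 2 ^ j ≤ y ∧ x + b / 2 ^ j ≤ y := by
    intro j a b x y
    rcases le_total a b with h | h
    · rw [sup_eq_right.2 h]
      have : (a:ℝ) / 2 ^ j ≤ b / 2 ^ j := by
        have : (a:ℝ) ≤ b := by exact_mod_cast h
        gcongr
      exact ⟨fun h => ⟨by linarith, h⟩, fun h => h.2⟩
    · rw [sup_eq_left.2 h]
      have : (b:ℝ) / 2 ^ j ≤ a / 2 ^ j := by
        have : (b:ℝ) ≤ a := by exact_mod_cast h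
        gcongr
      exact ⟨fun h => ⟨h, by linarith⟩, fun h => h.1⟩
  have e2 : ∀ (j : ℕ) (a b : ℤ) (x y : ℝ), y ≤ x + ((a ⊓ b : ℤ) : ℝ) / 2 ^ j ↔
      y ≤ x + a / 2 ^ j ∧ y ≤ x + b / 2 ^ j := by
    intro j a b x y
    rcases le_total a b with h | h
    · rw [inf_eq_left.2 h]
      have : (a:ℝ) / 2 ^ j ≤ b / 2 ^ j := by
        have : (a:ℝ) ≤ b := by exact_mod_cast h
        gcongr
      exact ⟨fun h => ⟨h, by linarith⟩, fun h => h.1⟩
    · rw [inf_eq_right.2 h]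
      have : (b:ℝ) / 2 ^ j ≤ a / 2 ^ j := by
        have : (b:ℝ) ≤ a := by exact_mod_cast h
        gcongr
      exact ⟨fun h => ⟨by linarith, h⟩, fun h => h.2⟩
  ext x
  simp only [cut, mem_inter_iff, mem_ofPred_eq, Pi.sup_apply, Pi.inf_apply, e1, e2]
  constructor
  · rintro ⟨h, h'⟩ k
    exact ⟨⟨⟨(h k).1.1, (h' k).1.1⟩, (h k).1.2, (h' k).1.2⟩, ⟨(h k).2.1, (h' k).2.1⟩,
      (h k).2.2, (h' k).2.2⟩
  · intro h
    exact ⟨fun k => ⟨⟨(h k).1.1.1, (h k).1.2.1⟩, (h k).2.1.1, (h k).2.2.1⟩,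
      fun k => ⟨⟨(h k).1.1.2, (h k).1.2.2⟩, (h k).2.1.2, (h k).2.2.2⟩⟩

/-- a dyadic cube cut by the preimage of a dyadic cube -/
theorem dyc_inter_preimage (v w : V) (n m : ℕ) (A : V → V) (z z' : Fin 3 → ℤ) :
    dyc v n z ∩ A ⁻¹' dyc w m z' = cut v w n m A z (z + 1) z' (z' + 1) := by
  ext x
  simp only [cut, dyc, mem_inter_iff, mem_preimage, mem_ofPred_eq, Pi.add_apply, Pi.one_apply,
    Int.cast_add, Int.cast_one]
  constructor
  · rintro ⟨h, h'⟩ k
    exact ⟨h k, h' k⟩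
  · intro h
    exact ⟨fun k => (h k).1, fun k => (h k).2⟩

/-- dyadic data: `A` is affine, `2^(m-n)` times its linear part is the integer matrix `M`, and
`A v` is a point of the target grid of generation `m` -/
structure Dyd (v w : V) (n m : ℕ) (A : V → V) (M : Fin 3 → Fin 3 → ℤ) (d : Fin 3 → ℤ) : Prop where
  aff : ∀ x y : V, ∀ k, 2 ^ m * (A (x + y) k - A x k) = 2 ^ n * mv M y k
  pt : ∀ k, 2 ^ m * (A v k - w k) = d k

theorem cut_eq {v w : V} {n m : ℕ} {A : V → V} {M : Fin 3 → Fin 3 → ℤ} {d : Fin 3 → ℤ}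
    (h : Dyd v w n m A M d) (a₁ a₂ b₁ b₂ : Fin 3 → ℤ) :
    cut v w n m A a₁ a₂ b₁ b₂ = hty v (1 / 2 ^ n) '' shp M a₁ a₂ (b₁ - d) (b₂ - d) := by
  have hn : (0:ℝ) < 2 ^ n := by positivity
  have hm : (0:ℝ) < 2 ^ m := by positivity
  have hs : (1 / 2 ^ n : ℝ) ≠ 0 := by positivity
  have key : ∀ u : V, hty v (1 / 2 ^ n) u ∈ cut v w n m A a₁ a₂ b₁ b₂ ↔
      u ∈ shp M a₁ a₂ (b₁ - d) (b₂ - d) := by
    intro u
    have e1 : ∀ k, hty v (1 / 2 ^ n) u k = v k + u k / 2 ^ n := by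
      intro k
      simp only [hty, Pi.add_apply, Pi.smul_apply, smul_eq_mul]
      ring
    have e2 : ∀ k, 2 ^ m * (A (hty v (1 / 2 ^ n) u) k - w k) = d k + mv M u k := by
      intro k
      have h3 := h.aff v ((1 / 2 ^ n : ℝ) • u) k
      have h4 : mv M ((1 / 2 ^ n : ℝ) • u) k = 1 / 2 ^ n * mv M u k := by
        simp only [mv, Pi.smul_apply, smul_eq_mul, Finset.mul_sum]
        exact Finset.sum_congr rfl fun l _ => by ring
      rw [h4] at h3
      have h5 := h.pt k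
      have h6 : (2:ℝ) ^ n * (1 / 2 ^ n * mv M u k) = mv M u k := by field_simp
      rw [h6] at h3
      rw [hty]
      linear_combination h3 + h5
    constructor
    · intro hu k
      obtain ⟨⟨h1, h2⟩, h3, h4⟩ := hu k
      rw [e1] at h1 h2
      refine ⟨?_, ?_, ?_, ?_⟩
      · have : (a₁ k : ℝ) / 2 ^ n ≤ u k / 2 ^ n := by linarith
        exact (div_le_div_iff_of_pos_right hn).1 this
      · have : u k / 2 ^ n ≤ (a₂ k : ℝ) / 2 ^ n := by linarith
        exact (div_le_div_iff_of_pos_right hn).1 this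
      · have h5 : (b₁ k : ℝ) / 2 ^ m ≤ A (hty v (1 / 2 ^ n) u) k - w k := by linarith
        rw [div_le_iff₀' hm, e2] at h5
        simp only [Pi.sub_apply, Int.cast_sub]
        linarith
      · have h5 : A (hty v (1 / 2 ^ n) u) k - w k ≤ (b₂ k : ℝ) / 2 ^ m := by linarith
        rw [le_div_iff₀' hm, e2] at h5
        simp only [Pi.sub_apply, Int.cast_sub]
        linarith
    · intro hu k
      obtain ⟨h1, h2, h3, h4⟩ := hu k
      simp only [Pi.sub_apply, Int.cast_sub] at h3 h4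
      rw [e1]
      refine ⟨⟨?_, ?_⟩, ?_, ?_⟩
      · have : (a₁ k : ℝ) / 2 ^ n ≤ u k / 2 ^ n := by gcongr
        linarith
      · have : u k / 2 ^ n ≤ (a₂ k : ℝ) / 2 ^ n := by gcongr
        linarith
      · have h5 : (b₁ k : ℝ) / 2 ^ m ≤ A (hty v (1 / 2 ^ n) u) k - w k := by
          rw [div_le_iff₀' hm, e2]; linarith
        linarith
      · have h5 : A (hty v (1 / 2 ^ n) u) k - w k ≤ (b₂ k : ℝ) / 2 ^ m := by
          rw [le_div_iff₀' hm, e2]; linarith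
        linarith
  ext x
  constructor
  · intro hx
    refine ⟨hty (-((1 / 2 ^ n : ℝ)⁻¹ • v)) (1 / 2 ^ n : ℝ)⁻¹ x, ?_, hty_inv' hs _ _⟩
    rw [← key, hty_inv' hs]
    exact hx
  · rintro ⟨u, hu, rfl⟩
    exact (key u).2 hu

/-- **[T3] finite shapes**: for an integer matrix `M` (`= 2^(m-n)` times the linear part of `A`)
and a bound `K` on the number of grid intervals, there is one constant `C` such that every
two-dimensional polygon which is cut out by planes of the domain grid of generation `n` and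
preimages of planes of the target grid of generation `m` is fat with the constants `C`, `2^-n`. -/
theorem exists_fat_cut (M : Fin 3 → Fin 3 → ℤ) (K : ℕ) :
    ∃ C : ℝ, 1 ≤ C ∧ ∀ (v w : V) (n m : ℕ) (A : V → V) (d : Fin 3 → ℤ), Dyd v w n m A M d →
      ∀ a₁ a₂ b₁ b₂ : Fin 3 → ℤ, (∀ k, a₂ k ≤ a₁ k + K) →
      (∃ c r, 0 < r ∧ Fat c r (cut v w n m A a₁ a₂ b₁ b₂)) →
      Fat C (1 / 2 ^ n) (cut v w n m A a₁ a₂ b₁ b₂) := by
  obtain ⟨C, hC, H⟩ := exists_fat_shp M K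
  refine ⟨C, hC, fun v w n m A d hd a₁ a₂ b₁ b₂ hK hf => ?_⟩
  rw [cut_eq hd] at hf ⊢
  exact H a₁ a₂ _ _ v _ (by positivity) hK hf

/-- the dyadic data are inherited by all finer generations (with the same matrix) -/
theorem Dyd.add {v w : V} {n m : ℕ} {A : V → V} {M : Fin 3 → Fin 3 → ℤ} {d : Fin 3 → ℤ}
    (h : Dyd v w n m A M d) (j : ℕ) : Dyd v w (n + j) (m + j) A M (fun k => 2 ^ j * d k) where
  aff := fun x y k => by
    have := h.aff x y k
    rw [pow_add, pow_add]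
    linear_combination 2 ^ j * this
  pt := fun k => by
    have := h.pt k
    push_cast
    rw [pow_add]
    linear_combination 2 ^ j * this

/-- the common refinement of the domain grid of generation `n` and of the preimage of the target
grid of generation `m`: the two-dimensional intersections of the cells have a common shape
constant -/
theorem exists_fat_refinement (M : Fin 3 → Fin 3 → ℤ) :
    ∃ C : ℝ, 1 ≤ C ∧ ∀ (v w : V) (n m : ℕ) (A : V → V) (d : Fin 3 → ℤ), Dyd v w n m A M d →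
      ∀ z z' y y' : Fin 3 → ℤ,
      (∃ c r, 0 < r ∧ Fat c r
        ((dyc v n z ∩ A ⁻¹' dyc w m z') ∩ (dyc v n y ∩ A ⁻¹' dyc w m y'))) →
      Fat C (1 / 2 ^ n) ((dyc v n z ∩ A ⁻¹' dyc w m z') ∩ (dyc v n y ∩ A ⁻¹' dyc w m y')) := by
  obtain ⟨C, hC, H⟩ := exists_fat_cut M 1
  refine ⟨C, hC, fun v w n m A d hd z z' y y' hf => ?_⟩
  rw [dyc_inter_preimage, dyc_inter_preimage, cut_inter] at hf ⊢
  refine H v w n m A d hd _ _ _ _ (fun k => ?_) hf
  simp only [Pi.inf_apply, Pi.sup_apply, Pi.add_apply, Pi.one_apply, Nat.cast_one]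
  rcases le_total (z k) (y k) with h | h
  · rw [sup_eq_right.2 h]; exact inf_le_right
  · rw [sup_eq_left.2 h]; exact inf_le_left

end Vale.Agent.P073.H244
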