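import Vale.Agent.P073.H244.P2Sum2
import Vale.Agent.P073.H340.PEc

/-!
# P073, [PRE-2] (`p = 2`): [E5] in the literal form of the final skeleton
-/

namespace Vale.Agent.P073.H244

open Vale.Agent.P073.H340

/-- **[E5]** -/
theorem specE5 (p : ℝ) : SpecE5 p :=
  fun _ _ _ _ _ _ _ _ D R hL => D.sumLe R hL

/-- `SpecPre p` for `2 ≤ p < 3` from the first stage -/
theorem specPre_of_pea {p : ℝ} (hp : 2 ≤ p) (hp3 : p < 3) (ha : SpecPEa p) : H73.SpecPre p :=
  specPre_of_two hp hp3 (specE5 p) ha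

end Vale.Agent.P073.H244
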